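import Crest.Agent.N228.A.Basic
import Crest.Agent.N222.A.Out

-- ▼ part N228/A/Gen0
section

/-! # Row 228, part A* (helper11): pointwise calculus for one generation -/

set_option autoImplicit false
set_option linter.dupNamespace false
open Set

noncomputable section

namespace Crest.Agent.N228.A.Gn

open Crest.Agent.N222.A

variable {Z : Type} {A : Alg Z} {G : Type} [Fintype G] {T : Pt A}

theorem fi_zero {Q : G → Z → ℝ} {μ : Z → ℝ} (sQ : ∀ g, A.Sm (Q g)) (sμ : A.Sm μ)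
    (h : μ T.p = 0) : T.Fi (fun g x => μ x ^ 2 * Q g x) 0 := by
  refine ⟨fun _ => 0, fun g => ⟨le_rfl, ?_⟩, by simp⟩
  have h1 := T.mul_self_le (Alg.pow sμ 2) (sQ g)
  rw [T.chain_self (φ := fun t => t ^ 2) sμ (Alg.pow sμ 2)
    (by simpa using hasDerivAt_pow 2 (μ T.p)), h] at h1
  simpa using h1

theorem fi_smul {P : G → Z → ℝ} {I a : ℝ} (h : T.Fi P I) (s : ∀ g, A.Sm (P g)) (ha : 0 ≤ a) :
    T.Fi (fun g x => a * P g x) (a * I) := by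
  obtain ⟨j, hj, hs⟩ := h
  refine ⟨fun g => a * j g, fun g => ⟨mul_nonneg ha (hj g).1, ?_⟩, ?_⟩
  · rw [T.smul_left a (s g) (Alg.smul a (s g)), T.smul_right a (s g) (s g)]
    have := mul_le_mul_of_nonneg_left (hj g).2 (mul_nonneg ha ha)
    linarith
  · rw [← Finset.mul_sum]; exact mul_le_mul_of_nonneg_left hs ha

theorem gam_cut {f : Z → ℝ} (hf : A.Sm f) (a b : ℝ) :
    T.Γ (fun z => cut (a * f z + b)) (fun z => cut (a * f z + b)) ≤ cc ^ 2 * a ^ 2 * T.Γ f f := by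
  rw [Out.cut_lin T hf]
  exact mul_le_mul_of_nonneg_right (mul_le_mul_of_nonneg_right (deriv_cut_sq_le _) (sq_nonneg _))
    (T.nonneg hf)

theorem sm_lin {f : Z → ℝ} (hf : A.Sm f) (a b : ℝ) : A.Sm fun z => cut (a * f z + b) :=
  Alg.cut (Alg.add_const (Alg.smul a hf) b)

theorem gam_mul {f h : Z → ℝ} (hf : A.Sm f) (hh : A.Sm h) (f1 : f T.p ^ 2 ≤ 1) (h1 : h T.p ^ 2 ≤ 1) :
    T.Γ (fun z => f z * h z) (fun z => f z * h z) ≤ 2 * T.Γ f f + 2 * T.Γ h h := by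
  have a := T.mul_self_le hf hh
  nlinarith [mul_le_mul_of_nonneg_right f1 (T.nonneg hh),
    mul_le_mul_of_nonneg_right h1 (T.nonneg hf)]

theorem sm_far {d P : G → Z → ℝ} (sd : ∀ g, A.Sm (d g)) (sP : ∀ g, A.Sm (P g)) (r0 Lr : ℝ) :
    A.Sm (far r0 Lr d P) :=
  Alg.sum _ fun g _ => A.mul (Alg.cut (Alg.div_const (Alg.sub_const (sd g) r0) Lr)) (sP g)

/-- the gradient of the far mass -/
theorem gam_far {d P : G → Z → ℝ} (sd : ∀ g, A.Sm (d g)) (sP : ∀ g, A.Sm (P g))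
    (nP : ∀ g, 0 ≤ P g T.p) {r0 Lr I B m : ℝ} (hm : 0 < m) (hN : tot P T.p ≤ m) (hI : T.Fi P I)
    (B0 : 0 ≤ B) (hB : ∀ g, T.Γ (d g) (d g) ≤ B) :
    T.Γ (far r0 Lr d P) (far r0 Lr d P) ≤ 2 * m * I + 2 * m ^ 2 * (cc ^ 2 * Lr⁻¹ ^ 2 * B) := by
  have h1 := Out.wsum (w := fun g z => cut (Lr⁻¹ * d g z + -(r0 / Lr)))
    (fi_smul hI sP (inv_pos.2 hm).le) (fun g => Alg.smul _ (sP g))
    (fun g => mul_nonneg (inv_pos.2 hm).le (nP g))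
    (by rw [← Finset.mul_sum, ← div_eq_inv_mul, div_le_one hm]; exact hN)
    (fun g => sm_lin (sd g) _ _) (fun g => pow_le_one₀ (cut_nonneg _) (cut_le_one _))
    (B := cc ^ 2 * Lr⁻¹ ^ 2 * B) (by positivity) fun g _ =>
      (gam_cut (sd g) _ _).trans (mul_le_mul_of_nonneg_left (hB g) (by positivity))
  have e : (fun z => ∑ g, cut (Lr⁻¹ * d g z + -(r0 / Lr)) * (m⁻¹ * P g z))
      = fun z => m⁻¹ * far r0 Lr d P z := by
    funext z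
    rw [far, Finset.mul_sum]
    refine Finset.sum_congr rfl fun g _ => ?_
    rw [show Lr⁻¹ * d g z + -(r0 / Lr) = (d g z - r0) / Lr by ring]; ring
  have s := sm_far sd sP r0 Lr
  rw [e, T.smul_left _ s (Alg.smul _ s), T.smul_right _ s s] at h1
  have h2 := mul_le_mul_of_nonneg_left h1 (sq_nonneg m)
  have e2 : m ^ 2 * (m⁻¹ * (m⁻¹ * T.Γ (far r0 Lr d P) (far r0 Lr d P)))
      = T.Γ (far r0 Lr d P) (far r0 Lr d P) := by field_simp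
  have e3 : m ^ 2 * (2 * (m⁻¹ * I) + 2 * (cc ^ 2 * Lr⁻¹ ^ 2 * B))
      = 2 * m * I + 2 * m ^ 2 * (cc ^ 2 * Lr⁻¹ ^ 2 * B) := by field_simp
  rwa [e2, e3] at h2

/-- the first badness function -/
def thS (a b : ℝ) (l N ϖ : Z → ℝ) (x : Z) : ℝ := a * l x + 100 * (b * N x - ϖ x ^ 2) ^ 2

theorem sm_e {N ϖ : Z → ℝ} (sN : A.Sm N) (sϖ : A.Sm ϖ) (b : ℝ) :
    A.Sm fun x => b * N x - ϖ x ^ 2 := Alg.sub (Alg.smul b sN) (Alg.pow sϖ 2)

theorem sm_thS {l N ϖ : Z → ℝ} (sl : A.Sm l) (sN : A.Sm N) (sϖ : A.Sm ϖ) (a b : ℝ) :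
    A.Sm (thS a b l N ϖ) := A.add (Alg.smul a sl) (Alg.smul 100 (Alg.pow (sm_e sN sϖ b) 2))

theorem gam_thS {l N ϖ : Z → ℝ} (sl : A.Sm l) (sN : A.Sm N) (sϖ : A.Sm ϖ) {a b m g1 g2 g3 : ℝ}
    (h1 : T.Γ l l ≤ g1) (h2 : T.Γ N N ≤ g2) (h3 : T.Γ ϖ ϖ ≤ g3) (hϖ : ϖ T.p ^ 2 ≤ 1)
    (he : (b * N T.p - ϖ T.p ^ 2) ^ 2 ≤ m) :
    T.Γ (thS a b l N ϖ) (thS a b l N ϖ) ≤ 2 * (a ^ 2 * g1) + 2 * (40000 * m * (2 * (b ^ 2 * g2)
      + 8 * g3)) := by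
  have se := sm_e sN sϖ b
  have s2 : A.Sm fun x => 100 * (b * N x - ϖ x ^ 2) ^ 2 := Alg.smul 100 (Alg.pow se 2)
  have a1 := T.add_self_le (Alg.smul a sl) s2
  have a2 : T.Γ (fun x => a * l x) (fun x => a * l x) ≤ a ^ 2 * g1 := by
    rw [T.smul_left a sl (Alg.smul a sl), T.smul_right a sl sl]
    nlinarith [mul_le_mul_of_nonneg_left h1 (sq_nonneg a)]
  have a3 := T.chain_self (φ := fun t => 100 * t ^ 2) (c := 200 * (b * N T.p - ϖ T.p ^ 2)) se s2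
    (((hasDerivAt_pow 2 _).const_mul 100).congr_deriv (by simp; ring))
  have s3 : A.Sm fun x => -ϖ x ^ 2 := Alg.neg (Alg.pow sϖ 2)
  have a4 := T.add_self_le (Alg.smul b sN) s3
  have a5 : T.Γ (fun x => b * N x) (fun x => b * N x) ≤ b ^ 2 * g2 := by
    rw [T.smul_left b sN (Alg.smul b sN), T.smul_right b sN sN]
    nlinarith [mul_le_mul_of_nonneg_left h2 (sq_nonneg b)]
  have a6 := T.chain_self (φ := fun t => -t ^ 2) (c := -(2 * ϖ T.p)) sϖ s3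
    ((hasDerivAt_pow 2 _).neg.congr_deriv (by simp))
  have a7 : T.Γ (fun x => -ϖ x ^ 2) (fun x => -ϖ x ^ 2) ≤ 4 * g3 := by
    rw [a6]; nlinarith [mul_le_mul_of_nonneg_right hϖ (T.nonneg sϖ)]
  have a8 : T.Γ (fun x => b * N x - ϖ x ^ 2) (fun x => b * N x - ϖ x ^ 2)
      ≤ 2 * (b ^ 2 * g2) + 8 * g3 := by
    simp only [sub_eq_add_neg]; linarith
  have a9 := mul_le_mul he a8 (T.nonneg se) ((sq_nonneg _).trans he)
  change T.Γ (fun x => a * l x + 100 * (b * N x - ϖ x ^ 2) ^ 2)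
    (fun x => a * l x + 100 * (b * N x - ϖ x ^ 2) ^ 2) ≤ _
  rw [a3] at a1
  nlinarith

/-- `1` if one of `u, w` exceeds `t + 1`, `0` if both are below `t` -/
def bad (t : ℝ) (u w : Z → ℝ) (x : Z) : ℝ :=
  1 - (1 - cut (1 * u x + -t)) * (1 - cut (1 * w x + -t))

theorem sm_bad {u w : Z → ℝ} (su : A.Sm u) (sw : A.Sm w) (t : ℝ) : A.Sm (bad t u w) :=
  Alg.const_sub 1 (A.mul (Alg.const_sub 1 (sm_lin su _ _)) (Alg.const_sub 1 (sm_lin sw _ _)))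

theorem bad_mem (t : ℝ) (u w : Z → ℝ) (x : Z) : 0 ≤ bad t u w x ∧ bad t u w x ≤ 1 := by
  have a1 := cut_nonneg (1 * u x + -t)
  have a2 := cut_le_one (1 * u x + -t)
  have a3 := cut_nonneg (1 * w x + -t)
  have a4 := cut_le_one (1 * w x + -t)
  unfold bad
  constructor <;> nlinarith

theorem bad_ne {t : ℝ} {u w : Z → ℝ} {x : Z} (h : bad t u w x ≠ 0) : t < u x ∨ t < w x := by
  by_contra h'
  rw [not_or, not_lt, not_lt] at h'
  exact h (by rw [bad, cut_zero (by linarith [h'.1]), cut_zero (by linarith [h'.2])]; ring)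

theorem bad_one {t : ℝ} {u w : Z → ℝ} {x : Z} (h : t + 1 ≤ u x ∨ t + 1 ≤ w x) :
    bad t u w x = 1 := by
  rcases h with h | h
  · rw [bad, cut_one (s := 1 * u x + -t) (by linarith)]; ring
  · rw [bad, cut_one (s := 1 * w x + -t) (by linarith)]; ring

theorem gam_bad {u w : Z → ℝ} (su : A.Sm u) (sw : A.Sm w) (t : ℝ) {ε : ℝ} (hu : T.Γ u u ≤ ε)
    (hw : T.Γ w w ≤ ε) : T.Γ (bad t u w) (bad t u w) ≤ 4 * cc ^ 2 * ε := by
  have s1 := Alg.const_sub 1 (sm_lin su 1 (-t))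
  have s2 := Alg.const_sub 1 (sm_lin sw 1 (-t))
  have h1 : ∀ s, (1 - cut s) ^ 2 ≤ 1 := fun s =>
    pow_le_one₀ (by linarith [cut_le_one s]) (by linarith [cut_nonneg s])
  have a1 := gam_mul (T := T) s1 s2 (h1 _) (h1 _)
  rw [Out.one_sub T (sm_lin su 1 (-t)), Out.one_sub T (sm_lin sw 1 (-t))] at a1
  have a2 := gam_cut (T := T) su 1 (-t)
  have a3 := gam_cut (T := T) sw 1 (-t)
  have a4 := mul_le_mul_of_nonneg_left hu (sq_nonneg cc)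
  have a5 := mul_le_mul_of_nonneg_left hw (sq_nonneg cc)
  have a6 := Out.one_sub T (A.mul s1 s2)
  change T.Γ (fun x => 1 - (1 - cut (1 * u x + -t)) * (1 - cut (1 * w x + -t)))
    (fun x => 1 - (1 - cut (1 * u x + -t)) * (1 - cut (1 * w x + -t))) ≤ _
  rw [a6]; nlinarith

theorem sm_sin {f : Z → ℝ} (hf : A.Sm f) : A.Sm fun x => Real.sin (Real.pi / 2 * f x) :=
  Alg.comp' Real.contDiff_sin (Alg.smul _ hf)

theorem sm_cos {f : Z → ℝ} (hf : A.Sm f) : A.Sm fun x => Real.cos (Real.pi / 2 * f x) :=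
  Alg.comp' Real.contDiff_cos (Alg.smul _ hf)

theorem pi_sq : (Real.pi / 2) ^ 2 ≤ 5 / 2 := by nlinarith [Real.pi_lt_d2, Real.pi_pos]

theorem gam_sin {f : Z → ℝ} (hf : A.Sm f) :
    T.Γ (fun x => Real.sin (Real.pi / 2 * f x)) (fun x => Real.sin (Real.pi / 2 * f x))
      ≤ 5 / 2 * T.Γ f f := by
  rw [T.chain_self (φ := fun t => Real.sin (Real.pi / 2 * t))
    (c := Real.cos (Real.pi / 2 * f T.p) * (Real.pi / 2)) hf (sm_sin hf)
    (by simpa using ((hasDerivAt_id (f T.p)).const_mul (Real.pi / 2)).sin)]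
  refine mul_le_mul_of_nonneg_right ?_ (T.nonneg hf)
  rw [mul_pow]
  nlinarith [pi_sq, Real.cos_sq_le_one (Real.pi / 2 * f T.p), sq_nonneg (Real.pi / 2)]

theorem gam_cos {f : Z → ℝ} (hf : A.Sm f) :
    T.Γ (fun x => Real.cos (Real.pi / 2 * f x)) (fun x => Real.cos (Real.pi / 2 * f x))
      ≤ 5 / 2 * T.Γ f f := by
  rw [T.chain_self (φ := fun t => Real.cos (Real.pi / 2 * t))
    (c := -Real.sin (Real.pi / 2 * f T.p) * (Real.pi / 2)) hf (sm_cos hf)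
    (by simpa using ((hasDerivAt_id (f T.p)).const_mul (Real.pi / 2)).cos)]
  refine mul_le_mul_of_nonneg_right ?_ (T.nonneg hf)
  rw [mul_pow, neg_sq]
  nlinarith [pi_sq, Real.sin_sq_le_one (Real.pi / 2 * f T.p), sq_nonneg (Real.pi / 2)]

/-- the pruned masses -/
def pr (t Lr : ℝ) (d P : G → Z → ℝ) (g : G) (x : Z) : ℝ :=
  t * (cut (-Lr⁻¹ * d g x + (2 + Lr⁻¹)) ^ 2 * P g x)

/-- the pruned and normalised masses -/
def qq (t Lr : ℝ) (d P : G → Z → ℝ) (g : G) (x : Z) : ℝ :=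
  pr t Lr d P g x * (∑ g, pr t Lr d P g x + cut (-4 * ∑ g, pr t Lr d P g x + 1))⁻¹

variable {t Lr : ℝ} {d P : G → Z → ℝ}

theorem sm_pr (sd : ∀ g, A.Sm (d g)) (sP : ∀ g, A.Sm (P g)) (g : G) : A.Sm (pr t Lr d P g) :=
  Alg.smul t (A.mul (Alg.pow (sm_lin (sd g) _ _) 2) (sP g))

theorem pr_nonneg (ht : 0 ≤ t) (nP : ∀ g x, 0 ≤ P g x) (g : G) (x : Z) : 0 ≤ pr t Lr d P g x :=
  mul_nonneg ht (mul_nonneg (sq_nonneg _) (nP g x))

theorem sm_qq (ht : 0 ≤ t) (sd : ∀ g, A.Sm (d g)) (sP : ∀ g, A.Sm (P g)) (nP : ∀ g x, 0 ≤ P g x)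
    (g : G) : A.Sm (qq t Lr d P g) := by
  have sT : A.Sm fun z => ∑ g, pr t Lr d P g z := Alg.sum _ fun g _ => sm_pr sd sP g
  exact A.mul (sm_pr sd sP g) (Alg.inv (A.add sT (sm_lin sT _ _)) fun z =>
    Out.norm_pos (Finset.sum_nonneg fun g _ => pr_nonneg ht nP g z))

theorem qq_mem (ht : 0 ≤ t) (nP : ∀ g x, 0 ≤ P g x) (g : G) (x : Z) :
    0 ≤ qq t Lr d P g x ∧ qq t Lr d P g x ≤ 1 := by
  have h0 := Out.norm_pos (Finset.sum_nonneg fun g (_ : g ∈ Finset.univ) =>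
    pr_nonneg (Lr := Lr) (d := d) ht nP g x)
  refine ⟨mul_nonneg (pr_nonneg ht nP g x) (inv_pos.2 h0).le, ?_⟩
  rw [qq, ← div_eq_mul_inv, div_le_one h0]
  have := Finset.single_le_sum (f := fun g => pr t Lr d P g x)
    (fun g _ => pr_nonneg ht nP g x) (Finset.mem_univ g)
  linarith [cut_nonneg (-4 * ∑ g, pr t Lr d P g x + 1)]

theorem qq_range (hL : 0 < Lr) {g : G} {x : Z} (h : qq t Lr d P g x ≠ 0) : d g x ≤ 1 + 2 * Lr := by
  by_contra h'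
  refine h ?_
  have : Lr⁻¹ * (1 + 2 * Lr) ≤ Lr⁻¹ * d g x :=
    mul_le_mul_of_nonneg_left (not_le.1 h').le (inv_pos.2 hL).le
  rw [show Lr⁻¹ * (1 + 2 * Lr) = Lr⁻¹ + 2 by field_simp] at this
  rw [qq, pr, cut_zero (by linarith)]; ring

theorem le_sum_pr (hL : 0 < Lr) (ht : 0 ≤ t) (nP : ∀ g x, 0 ≤ P g x) (x : Z) :
    t * (tot P x - far 1 Lr d P x) ≤ ∑ g, pr t Lr d P g x := by
  rw [tot, far, ← Finset.sum_sub_distrib, Finset.mul_sum]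
  refine Finset.sum_le_sum fun g _ => mul_le_mul_of_nonneg_left ?_ ht
  rcases le_total ((d g x - 1) / Lr) 1 with h | h
  · rw [cut_one (s := -Lr⁻¹ * d g x + (2 + Lr⁻¹)) (by rw [div_eq_inv_mul] at h; linarith)]
    linarith [mul_nonneg (cut_nonneg ((d g x - 1) / Lr)) (nP g x)]
  · rw [cut_one h]
    linarith [mul_nonneg (sq_nonneg (cut (-Lr⁻¹ * d g x + (2 + Lr⁻¹)))) (nP g x)]

theorem sum_qq {x : Z} (h : 1 / 3 ≤ ∑ g, pr t Lr d P g x) : ∑ g, qq t Lr d P g x = 1 := by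
  simp only [qq]
  rw [← Finset.sum_mul, cut_zero (by linarith), add_zero, mul_inv_cancel₀ (by linarith)]

theorem fi_qq (ht : 0 ≤ t) (sd : ∀ g, A.Sm (d g)) (sP : ∀ g, A.Sm (P g)) (nP : ∀ g x, 0 ≤ P g x)
    {I B : ℝ} (hI : T.Fi P I) (B0 : 0 ≤ B) (hB : ∀ g, T.Γ (d g) (d g) ≤ B)
    (h : 1 / 3 ≤ ∑ g, pr t Lr d P g T.p) :
    T.Fi (qq t Lr d P) (12 * (t * (2 * 1 * I + 8 * (cc ^ 2 * Lr⁻¹ ^ 2 * B) * tot P T.p))) := by
  have h1 := hI.mul_sq sP (fun g => nP g _) (w := fun g x => cut (-Lr⁻¹ * d g x + (2 + Lr⁻¹)))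
    (fun g => sm_lin (sd g) _ _) (a := 1) (B := cc ^ 2 * Lr⁻¹ ^ 2 * B) zero_le_one
    (fun g => pow_le_one₀ (cut_nonneg _) (cut_le_one _)) (by positivity) fun g _ =>
      (gam_cut (sd g) _ _).trans (by
        rw [neg_sq]; exact mul_le_mul_of_nonneg_left (hB g) (by positivity))
  exact Out.fi_norm (fi_smul h1 (fun g => A.mul (Alg.pow (sm_lin (sd g) _ _) 2) (sP g)) ht)
    (sm_pr sd sP) (pr_nonneg ht nP) h

end Crest.Agent.N228.A.Gn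

end
end

-- ▼ part N228/A/Gen1
section

/-! # Row 228, part A* (helper11): the generation lemma followed by two buffers -/

set_option autoImplicit false
set_option linter.dupNamespace false
open Set

noncomputable section

namespace Crest.Agent.N228.A.Gn

open Crest.Agent.N222.A

/-- the body of `GLStmt` -/
def GLc (c : ℝ) : Prop := ∀ n T η δ W2 Lr γ r0 : ℝ, 1 ≤ n → 0 < T → 0 < η → 0 < δ →
  4 * c * δ ≤ 1 → 0 ≤ W2 → 0 < Lr → 0 ≤ γ → c * n * δ ^ 2 ≤ η * T →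
  c * W2 ^ 2 * T ^ 2 * γ ≤ η * Lr ^ 2 * δ ^ 3 → ∀ (K0 c1 : ℝ) (D : ℕ), 0 ≤ K0 → 0 ≤ c1 →
  ∃ lm Gm : ℝ, 0 ≤ lm ∧ 0 ≤ Gm ∧ ∀ Φ : ℝ, ∃ τ : ℝ, 0 < τ ∧
  ∀ (W : Wd n) (G : Type) [Fintype G] [DecidableEq G] (st : W.St) (χ d : G → W.Z → ℝ)
    (ϖ : W.Z → ℝ), Fintype.card G ≤ D →
    (∀ g, W.A.Sm (χ g) ∧ W.A.Sm (d g) ∧ ∀ x, 0 ≤ χ g x ∧ χ g x ≤ 1) → W.A.Sm ϖ →
    (∀ x, 0 ≤ ϖ x ∧ ϖ x ≤ 1 ∧ (ϖ x ≠ 0 → W.om x ≤ 0)) →
    (∀ x ∈ W.L, 2 * η ≤ W.E st x ∧ (W.pt st x).Γ W.om W.om ≤ τ ∧ (W.pt st x).Γ ϖ ϖ ≤ τ ∧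
      (∀ g, (W.pt st x).Γ (d g) (d g) ≤ c1) ∧ (ϖ x ≠ 0 → ∑ g, χ g x = 1 ∧ (W.pt st x).Fi χ K0 ∧
        ∀ g, (W.pt st x).Γ (d g) (d g) ≤ γ ∧ (0 < χ g x → d g x ≤ r0))) →
    ∃ (st' : W.St) (P : G → W.Z → ℝ) (l : W.Z → ℝ), W.R st st' ∧ W.A.Sm l ∧
      (∀ g, W.A.Sm (P g) ∧ ∀ x, 0 ≤ P g x ∧ P g x ≤ T) ∧
      (∀ x, 0 ≤ l x ∧ l x ≤ lm ∧ (5 ≤ W.om x → l x = 0 ∧ ∀ g, P g x = 0)) ∧
      ∀ x ∈ W.L, (∀ f, W.A.Sm f → (W.pt st' x).Γ f f ≤ Real.exp (l x) * (W.pt st x).Γ f f) ∧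
        (W.pt st' x).Fi P ((n + 1) * Real.exp (l x)) ∧ (W.pt st' x).Γ l l ≤ Gm ∧
        W.E st x - η + W2 * (far r0 Lr d P x / T) ≤ W.E st' x ∧
        (3 / 2 * c * δ ≤ l x ∨ 1 / 800 ≤ (tot P x / T - ϖ x ^ 2) ^ 2 → Φ ≤ W.E st' x)

/-- bound for the gradient of the second badness function -/
def GR (n T : ℝ) : ℝ := 180000 * n / T

/-- the weight of the far mass -/
def WW (n T s : ℝ) : ℝ := 100 * (17 * s + cb * GR n T)

theorem exp_le_three {t : ℝ} (h : t ≤ 1) : Real.exp t ≤ 3 :=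
  (Real.exp_le_exp.2 h).trans (by linarith [Real.exp_one_lt_d9])

theorem num_k {k n : ℝ} (hk : 1 ≤ k) (hn : 1 ≤ n) : k * (n + 1) + k ^ 2 ≤ k ^ 2 * (3 * n) := by
  have h1 : k ≤ k ^ 2 := by nlinarith
  nlinarith [mul_le_mul_of_nonneg_right h1 (show 0 ≤ n + 1 by linarith),
    mul_le_mul_of_nonneg_left hn (sq_nonneg k)]

theorem rich {Ω lam a b : ℝ} (hl : 0 < lam) (hΩ : lam⁻¹ ≤ Ω) (hb : 0 ≤ b) (h : lam * b ≤ a) :
    b ≤ Ω * a := by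
  have h1 : lam⁻¹ * (lam * b) = b := by field_simp
  have h2 := mul_le_mul hΩ h (by positivity) ((inv_pos.2 hl).le.trans hΩ)
  linarith

set_option maxHeartbeats 1600000 in
theorem gb {c : ℝ} (hc : 1 ≤ c) (H : GLc c) {n T s η δ Lr γ c1 K0 : ℝ} (D : ℕ) (hn : 1 ≤ n)
    (hT : 0 < T) (hη : 0 < η) (hs : 8 * η ≤ s) (hδ : 0 < δ) (hδ1 : 4 * c * δ ≤ 1) (hL : 0 < Lr)
    (hγ : 0 ≤ γ) (hc1 : 0 ≤ c1) (hK : 0 ≤ K0) (h1 : c * n * δ ^ 2 ≤ η * T)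
    (h2 : c * WW n T s ^ 2 * T ^ 2 * γ ≤ η * Lr ^ 2 * δ ^ 3) (h3 : cc ^ 2 * Lr⁻¹ ^ 2 * c1 ≤ T⁻¹) :
    ∃ τ : ℝ, 0 < τ ∧ ∀ ε : ℝ, 0 < ε → ε ≤ τ →
    ∀ (W : Wd n) (G : Type) [Fintype G] [DecidableEq G] (st : W.St) (χ d : G → W.Z → ℝ)
    (ϖ : W.Z → ℝ), Fintype.card G ≤ D →
    (∀ g, W.A.Sm (χ g) ∧ W.A.Sm (d g) ∧ ∀ x, 0 ≤ χ g x ∧ χ g x ≤ 1) → W.A.Sm ϖ →
    (∀ x, 0 ≤ ϖ x ∧ ϖ x ≤ 1 ∧ (ϖ x ≠ 0 → W.om x ≤ 0)) →
    (∀ x ∈ W.L, 2 * η ≤ W.E st x ∧ (W.pt st x).Γ W.om W.om ≤ ε ∧ (W.pt st x).Γ ϖ ϖ ≤ ε ∧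
      (∀ g, (W.pt st x).Γ (d g) (d g) ≤ c1) ∧ (ϖ x ≠ 0 → ∑ g, χ g x = 1 ∧ (W.pt st x).Fi χ K0 ∧
        ∀ g, (W.pt st x).Γ (d g) (d g) ≤ γ ∧ (0 < χ g x → d g x ≤ 1))) →
    ∃ (st' : W.St) (P : G → W.Z → ℝ) (u w F : W.Z → ℝ), W.R st st' ∧ W.A.Sm u ∧ W.A.Sm w ∧
      (∀ g, W.A.Sm (P g) ∧ ∀ x, 0 ≤ P g x) ∧
      ∀ x ∈ W.L, 0 ≤ F x ∧ F x ≤ Real.exp (4 * c * δ) ∧
        (∀ f, W.A.Sm f → (W.pt st' x).Γ f f ≤ F x * (W.pt st x).Γ f f) ∧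
        (1 ≤ u x ∨ 1 ≤ w x → F x ≤ Real.exp (4 * c * δ) / 16) ∧
        (W.pt st' x).Γ u u ≤ ε ∧ (W.pt st' x).Γ w w ≤ ε ∧
        (W.E st x - 2 * η ≤ W.E st' x ∨ s ≤ W.E st' x) ∧
        (u x < 4 → w x < 4 → (W.pt st' x).Fi P (6 * n) ∧
          (T⁻¹ * tot P x - ϖ x ^ 2) ^ 2 ≤ 1 / 100 ∧ T⁻¹ * far 1 Lr d P x ≤ 1 / 50) := by
  have GR0 : 0 ≤ GR n T := by unfold GR; positivity
  have cb0 : 0 ≤ cb := by unfold cb; positivity
  have s0 : 0 < s := by linarith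
  have W0 : 0 ≤ WW n T s := by unfold WW; positivity
  obtain ⟨lm, Gm, lm0, Gm0, H⟩ := H n T η δ (WW n T s) Lr γ 1 hn hT hη hδ hδ1 W0 hL hγ h1 h2
    K0 c1 D hK hc1
  have cδ : 0 < 4 * c * δ := by positivity
  have el1 : 1 ≤ Real.exp lm := Real.one_le_exp lm0
  obtain ⟨m, hm⟩ : ∃ m : ℝ, m = D + 1 := ⟨_, rfl⟩
  have m1 : 1 ≤ m := by rw [hm]; linarith [Nat.cast_nonneg (α := ℝ) D]
  obtain ⟨lam, hlam⟩ : ∃ lam : ℝ, lam = 16 * m ^ 2 * Real.exp lm := ⟨_, rfl⟩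
  have mm : 1 ≤ m ^ 2 := one_le_pow₀ m1
  have lam1 : 16 * Real.exp lm ≤ lam := by
    rw [hlam]; linarith [mul_le_mul_of_nonneg_right mm (Real.exp_pos lm).le]
  have lam0 : 0 < lam := by linarith
  obtain ⟨GS, hGS⟩ : ∃ GS : ℝ, GS = 2 * ((4 * c * δ)⁻¹ ^ 2 * Gm) + 2 * (40000 * m ^ 2 *
    (2 * (T⁻¹ ^ 2 * (m * T * ((n + 1) * Real.exp lm))) + 8 * Real.exp lm)) := ⟨_, rfl⟩
  have GS0 : 0 ≤ GS := by rw [hGS]; positivity
  obtain ⟨τ, τ0, H⟩ := H (lam * (WW n T s / 100) + η + cb * GS)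
  refine ⟨min τ (min 1 (η / 2)), by positivity, fun ε ε0 hε W G _ _ st χ d ϖ hD sχ sϖ hϖ hx => ?_⟩
  have ε1 := hε.trans (min_le_left _ _)
  have ε2 := (hε.trans (min_le_right _ _)).trans (min_le_left _ _)
  have ε3 := (hε.trans (min_le_right _ _)).trans (min_le_right _ _)
  obtain ⟨st1, P, l, r1, sl, hP, hl, H1⟩ := H W G st χ d ϖ hD sχ sϖ hϖ fun x h =>
    ⟨(hx x h).1, (hx x h).2.1.trans ε1, (hx x h).2.2.1.trans ε1, (hx x h).2.2.2⟩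
  have sP : ∀ g, W.A.Sm (P g) := fun g => (hP g).1
  have nP : ∀ g x, 0 ≤ P g x := fun g x => ((hP g).2 x).1
  have sd : ∀ g, W.A.Sm (d g) := fun g => (sχ g).2.1
  have sN : W.A.Sm (tot P) := Alg.sum _ fun g _ => sP g
  have N0 : ∀ x, 0 ≤ tot P x := fun x => Finset.sum_nonneg fun g _ => nP g x
  have N1 : ∀ x, tot P x ≤ (m - 1) * T := fun x => by
    refine (Finset.sum_le_card_nsmul _ _ T fun g _ => ((hP g).2 x).2).trans ?_
    rw [nsmul_eq_mul, Finset.card_univ, hm, add_sub_cancel_right]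
    exact mul_le_mul_of_nonneg_right (Nat.cast_le.2 hD) hT.le
  have ϖ2 : ∀ x, ϖ x ^ 2 ≤ 1 := fun x => pow_le_one₀ (hϖ x).1 (hϖ x).2.1
  have el : ∀ x, Real.exp (l x) ≤ Real.exp lm := fun x => Real.exp_le_exp.2 (hl x).2.1
  have far0 : ∀ x, 0 ≤ far 1 Lr d P x := fun x =>
    Finset.sum_nonneg fun g _ => mul_nonneg (cut_nonneg _) (nP g x)
  have sθ := sm_thS sl sN sϖ (4 * c * δ)⁻¹ T⁻¹
  obtain ⟨u, Ω, st2, r2, su, H2⟩ := W.buf st1 _ GS lam ε sθ GS0 (by linarith) ε0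
    (fun x h => by
      have a1 : ϖ x = 0 := by by_contra a; linarith [(hϖ x).2.2 a]
      simp [thS, tot, a1, ((hl x).2.2 h).1, ((hl x).2.2 h).2])
    (fun x h _ _ => by
      obtain ⟨a1, a2, a3, -⟩ := H1 x h
      have a4 := a2.total sP fun g => nP g _
      rw [W.pt_p] at a4
      have a5 : T⁻¹ * tot P x ≤ m - 1 := by
        rw [← div_eq_inv_mul, div_le_iff₀ hT]; exact N1 x
      have a6 : 0 ≤ T⁻¹ * tot P x := mul_nonneg (inv_pos.2 hT).le (N0 x)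
      rw [hGS]
      refine gam_thS sl sN sϖ a3 (a4.trans ?_) ((a1 _ sϖ).trans ?_) (ϖ2 _) ?_
      · exact mul_le_mul ((N1 x).trans (by linarith)) (mul_le_mul_of_nonneg_left (el x)
          (by linarith)) (by positivity) (by positivity)
      · simpa using mul_le_mul (el x) ((hx x h).2.2.1.trans ε2) ((W.pt st x).nonneg sϖ)
          (Real.exp_pos _).le
      · rw [W.pt_p]
        exact sq_le_sq' (by linarith [ϖ2 x]) (by linarith [sq_nonneg (ϖ x)]))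
  have θ1 : ∀ x, thS (4 * c * δ)⁻¹ T⁻¹ l (tot P) ϖ x ≤ 1 →
      l x ≤ 4 * c * δ ∧ (T⁻¹ * tot P x - ϖ x ^ 2) ^ 2 ≤ 1 / 100 := fun x h => by
    unfold thS at h
    have a1 : 0 ≤ (4 * c * δ)⁻¹ * l x := mul_nonneg (inv_pos.2 cδ).le (hl x).1
    refine ⟨?_, by linarith⟩
    have a2 : (4 * c * δ)⁻¹ * l x ≤ 1 := by linarith [sq_nonneg (T⁻¹ * tot P x - ϖ x ^ 2)]
    rwa [← div_eq_inv_mul, div_le_one cδ] at a2
  have Ω0 : ∀ x ∈ W.L, 0 ≤ Ω x := fun x h => (inv_pos.2 lam0).le.trans (H2 x h).2.2.1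
  have sm' : ∀ x ∈ W.L, 1 ≤ u x → m ^ 2 * Real.exp (l x) * Ω x ≤ 1 / 16 := fun x h hu => by
    rw [(H2 x h).2.2.2.2.1 hu, ← div_eq_mul_inv, div_le_iff₀ lam0, hlam]
    linarith [mul_le_mul_of_nonneg_left (el x) (sq_nonneg m)]
  have ex1 : 1 ≤ Real.exp (4 * c * δ) := Real.one_le_exp cδ.le
  have F1 : ∀ x ∈ W.L, Real.exp (l x) * Ω x ≤ Real.exp (4 * c * δ) := fun x h => by
    rcases le_total (thS (4 * c * δ)⁻¹ T⁻¹ l (tot P) ϖ x) 1 with a | a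
    · exact (mul_le_of_le_one_right (Real.exp_pos _).le (H2 x h).2.2.2.1).trans
        (Real.exp_le_exp.2 (θ1 x a).1)
    · have := sm' x h (by linarith [(H2 x h).1 a])
      linarith [mul_le_mul_of_nonneg_right mm (mul_nonneg (Real.exp_pos (l x)).le (Ω0 x h))]
  have sf := sm_far sd sP 1 Lr
  have sθ' : W.A.Sm fun x => 50 * T⁻¹ * far 1 Lr d P x := Alg.smul _ sf
  obtain ⟨w, Ω', st3, r3, sw, H3⟩ := W.buf st2 _ (GR n T) 16 ε sθ' GR0 (by norm_num) ε0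
    (fun x h => by simp [far, ((hl x).2.2 h).2])
    (fun x h _ _ => by
      obtain ⟨a1, a2, -⟩ := H1 x h
      have key : ∀ k : ℝ, 1 ≤ k → tot P x ≤ k * T → (W.pt st2 x).Γ (far 1 Lr d P) (far 1 Lr d P)
          ≤ k ^ 2 * Real.exp (l x) * Ω x * (6 * n * T) := fun k hk hN => by
        have b1 := gam_far (T := W.pt st1 x) (r0 := 1) (Lr := Lr) sd sP (fun g => nP g _)
          (m := k * T) (by positivity) (by rw [W.pt_p]; exact hN) a2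
          (B := Real.exp (l x) * c1) (by positivity) fun g => (a1 _ (sd g)).trans
            (mul_le_mul_of_nonneg_left ((hx x h).2.2.2.1 g) (Real.exp_pos _).le)
        have b2 := mul_le_mul_of_nonneg_left h3
          (show 0 ≤ 2 * (k * T) ^ 2 * Real.exp (l x) by positivity)
        have b3 : 2 * (k * T) ^ 2 * Real.exp (l x) * T⁻¹ = 2 * k ^ 2 * T * Real.exp (l x) := by
          field_simp
        have b4 : k * (n + 1) + k ^ 2 ≤ k ^ 2 * (3 * n) := num_k hk hn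
        have b5 := mul_le_mul_of_nonneg_left b4
          (show 0 ≤ 2 * T * Real.exp (l x) by positivity)
        have b6 : (W.pt st1 x).Γ (far 1 Lr d P) (far 1 Lr d P)
            ≤ k ^ 2 * Real.exp (l x) * (6 * n * T) := by linarith
        have b7 := ((H2 x h).2.2.2.2.2.1 _ sf).trans (mul_le_mul_of_nonneg_left b6 (Ω0 x h))
        linarith
      have b8 : (W.pt st2 x).Γ (far 1 Lr d P) (far 1 Lr d P) ≤ 12 * (6 * n * T) := by
        rcases le_total (thS (4 * c * δ)⁻¹ T⁻¹ l (tot P) ϖ x) 1 with a | a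
        · refine (key 2 one_le_two ?_).trans (mul_le_mul_of_nonneg_right ?_ (by positivity))
          · have := (abs_le.1 (abs_le_of_sq_le_sq (a := T⁻¹ * tot P x - ϖ x ^ 2) (b := 1)
              (by linarith [(θ1 x a).2]) zero_le_one)).2
            have b : T⁻¹ * tot P x ≤ 2 := by linarith [ϖ2 x]
            rwa [← div_eq_inv_mul, div_le_iff₀ hT] at b
          · linarith [F1 x h, exp_le_three hδ1]
        · refine (key m m1 ((N1 x).trans (by linarith))).trans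
            (mul_le_mul_of_nonneg_right ?_ (by positivity))
          linarith [sm' x h (by linarith [(H2 x h).1 a])]
      rw [(W.pt st2 x).smul_left _ sf sθ', (W.pt st2 x).smul_right _ sf sf]
      have b9 := mul_le_mul_of_nonneg_left b8 (show 0 ≤ (50 * T⁻¹) ^ 2 by positivity)
      have e : (50 * T⁻¹) ^ 2 * (12 * (6 * n * T)) = GR n T := by unfold GR; field_simp; norm_num
      linarith)
  refine ⟨st3, P, u, w, fun x => Real.exp (l x) * Ω x * Ω' x, W.R_trans r1 (W.R_trans r2 r3),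
    su, sw, fun g => ⟨sP g, nP g⟩, fun x h => ?_⟩
  obtain ⟨a1, a2, -, a4, a5⟩ := H1 x h
  obtain ⟨b1, b2, b3, b4, -, b6, b7, b8, b9⟩ := H2 x h
  obtain ⟨c1', c2, c3, c4, c5, c6, c7, c8, c9⟩ := H3 x h
  have d0 : 0 ≤ Ω' x := le_trans (by norm_num) c3
  have d1 : 0 ≤ Real.exp (l x) * Ω x := mul_nonneg (Real.exp_pos _).le (Ω0 x h)
  have d2 : ∀ f, W.A.Sm f → (W.pt st3 x).Γ f f ≤ (W.pt st1 x).Γ f f := fun f hf =>
    (c6 f hf).trans ((mul_le_of_le_one_left ((W.pt st2 x).nonneg hf) c4).trans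
      ((b6 f hf).trans (mul_le_of_le_one_left ((W.pt st1 x).nonneg hf) b4)))
  refine ⟨mul_nonneg d1 d0, (mul_le_of_le_one_right d1 c4).trans (F1 x h), fun f hf => ?_,
    fun hu => ?_, (c6 u su).trans ((mul_le_of_le_one_left ((W.pt st2 x).nonneg su) c4).trans b7),
    c7, ?_, fun hu hw => ?_⟩
  · have := (c6 f hf).trans (mul_le_mul_of_nonneg_left ((b6 f hf).trans
      (mul_le_mul_of_nonneg_left (a1 f hf) (Ω0 x h))) d0)
    linarith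
  · rcases hu with hu | hu
    · have e1 := sm' x h hu
      have e2 := mul_le_mul_of_nonneg_right mm d1
      have e3 := mul_le_of_le_one_right d1 c4
      change Real.exp (l x) * Ω x * Ω' x ≤ _
      linarith
    · change Real.exp (l x) * Ω x * Ω' x ≤ _
      rw [c5 hu]; linarith [F1 x h]
  · have fin : WW n T s / 100 ≤ W.E st2 x → s ≤ W.E st3 x := fun h' =>
      (rich (by norm_num) c3 s0.le (by unfold WW at h'; linarith)).trans c9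
    have E0 := (hx x h).1
    rcases le_or_gt (thS (4 * c * δ)⁻¹ T⁻¹ l (tot P) ϖ x) (1 / 2) with a | a
    · have e1 := b8 a
      have e2 : 0 ≤ WW n T s * (far 1 Lr d P x / T) := mul_nonneg W0 (div_nonneg (far0 x) hT.le)
      rcases le_or_gt (50 * T⁻¹ * far 1 Lr d P x) (1 / 2) with b | b
      · left; linarith [c8 b]
      · right
        have e3 : 1 / 100 ≤ far 1 Lr d P x / T := by rw [div_eq_inv_mul _ T]; linarith
        exact fin (by linarith [mul_le_mul_of_nonneg_left e3 W0])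
    · right
      refine fin ((rich lam0 b3 (by positivity) ?_).trans b9)
      have : 3 / 2 * c * δ ≤ l x ∨ 1 / 800 ≤ (tot P x / T - ϖ x ^ 2) ^ 2 := by
        by_contra e
        rw [not_or, not_le, not_le, div_eq_inv_mul _ T] at e
        have e4 : (4 * c * δ)⁻¹ * l x ≤ 3 / 8 := by
          rw [← div_eq_inv_mul, div_le_iff₀ cδ]; linarith [e.1]
        unfold thS at a
        linarith [e.2]
      linarith [a5 this]
  · have e1 := θ1 x (not_lt.1 fun a => by linarith [b1 a.le])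
    have e2 : 50 * T⁻¹ * far 1 Lr d P x ≤ 1 := not_lt.1 fun a => by linarith [c1' a.le]
    refine ⟨(a2.of_le (by rw [W.pt_p, W.pt_p]) fun g => d2 _ (sP g)).mono ?_, e1.2, by linarith⟩
    linarith [mul_le_mul_of_nonneg_left (exp_le_three (e1.1.trans hδ1))
      (show 0 ≤ n + 1 by linarith)]

end Crest.Agent.N228.A.Gn

end
end

-- ▼ part N228/A/Gen2

/-! # Row 228, part A* (helper11): one generation -/

set_option autoImplicit false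
set_option linter.dupNamespace false
open Set

noncomputable section

namespace Crest.Agent.N228.A.Gn

open Crest.Agent.N222.A

/-- growth of the small gradients -/
def BB : ℝ := 4 + 20 * cc ^ 2

theorem four_le_BB : 4 ≤ BB := by unfold BB; nlinarith [sq_nonneg cc]

/-- the invariant of the generations -/
structure GI {n : ℝ} (W : Wd n) {G : Type} [Fintype G] (st0 st : W.St) (d S : G → W.Z → ℝ)
    (b ϖ : W.Z → ℝ) (C q s' τ Ks e ρ : ℝ) : Prop where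
  R : W.R st0 st
  smb : W.A.Sm b
  smϖ : W.A.Sm ϖ
  smS : ∀ g, W.A.Sm (S g)
  hb : ∀ x, b x ^ 2 ≤ 1 ∧ (b x ≠ 0 → ϖ x = 1 ∧ W.om x ≤ -1)
  hϖ : ∀ x, 0 ≤ ϖ x ∧ ϖ x ≤ 1 ∧ (ϖ x ≠ 0 → W.om x ≤ 0)
  hS : ∀ g x, 0 ≤ S g x ∧ S g x + b x ^ 2 ≤ 1 ∧ (S g x ≠ 0 → W.om x ≤ -1 ∧ d g x ≤ ρ)
  le : ∀ x ∈ W.L, ∀ f, W.A.Sm f → (W.pt st x).Γ f f ≤ C * (W.pt st0 x).Γ f f
  le' : ∀ x ∈ W.L, ϖ x ≠ 0 → ∀ f, W.A.Sm f → (W.pt st x).Γ f f ≤ q * (W.pt st0 x).Γ f f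
  E : ∀ x ∈ W.L, s' ≤ W.E st x
  gam : ∀ x ∈ W.L, (W.pt st x).Γ W.om W.om ≤ τ ∧ (W.pt st x).Γ b b ≤ τ ∧ (W.pt st x).Γ ϖ ϖ ≤ τ
  sum : ∀ x ∈ W.L, ∑ g, S g x = cut (-1 - W.om x) ^ 2 - b x ^ 2
  fi : ∀ x ∈ W.L, (W.pt st x).Fi S (C * (Ks * (1 - b x ^ 2) + e))

set_option maxHeartbeats 1600000 in
theorem gen {c : ℝ} (hc : 1 ≤ c) (H : GLc c) {n T s η δ Lr c1 K0 C q e0 : ℝ} (D : ℕ) (hn : 1 ≤ n)
    (hT : 0 < T) (hη : 0 < η) (hs : 8 * η ≤ s) (hδ : 0 < δ) (hδ1 : 4 * c * δ ≤ 1) (hL : 0 < Lr)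
    (hq : 0 ≤ q) (hc1 : 0 ≤ c1) (hK : 0 ≤ K0) (C1 : 1 ≤ C) (C2 : Real.exp (4 * c * δ) * C ≤ 2)
    (he0 : 0 < e0) (h1 : c * n * δ ^ 2 ≤ η * T)
    (h2 : c * WW n T s ^ 2 * T ^ 2 * (q * c1) ≤ η * Lr ^ 2 * δ ^ 3)
    (h3 : cc ^ 2 * Lr⁻¹ ^ 2 * (2 * c1) ≤ T⁻¹) :
    ∃ τ : ℝ, 0 < τ ∧ ∀ ε : ℝ, 0 < ε → ε ≤ τ →
    ∀ (W : Wd n) (G : Type) [Fintype G] [DecidableEq G] (st0 st : W.St) (χ d S : G → W.Z → ℝ)
      (δ' : G → G → ℝ) (b ϖ : W.Z → ℝ) (τ0 e : ℝ), Fintype.card G ≤ D → 0 ≤ e →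
      Dat W G st0 χ d δ' s c1 K0 τ0 →
      GI W st0 st d S b ϖ C q (s / 2 + 4 * η) ε (700 * n * T⁻¹) e (1 + 2 * Lr) →
      ∃ st' S' b' ϖ', GI W st0 st' d S' b' ϖ' (Real.exp (4 * c * δ) * C)
        (Real.exp (4 * c * δ) / 16 * q) (s / 2 + 2 * η) (BB * ε) (700 * n * T⁻¹) (e + e0)
        (1 + 2 * Lr) := by
  have ex1 : 1 ≤ Real.exp (4 * c * δ) := Real.one_le_exp (by positivity)
  have C3 : C ≤ 2 := by linarith [mul_le_mul_of_nonneg_right ex1 (zero_le_one.trans C1)]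
  have ex2 : Real.exp (4 * c * δ) ≤ 2 := by
    linarith [mul_le_mul_of_nonneg_left C1 (Real.exp_pos (4 * c * δ)).le]
  have B4 := four_le_BB
  obtain ⟨τ, τ0, H⟩ := gb hc H (s := s) (γ := q * c1) (c1 := 2 * c1) (K0 := 2 * K0) D hn hT hη hs
    hδ hδ1 hL (by positivity) (by positivity) (by positivity) h1 h2 h3
  refine ⟨min τ (e0 / (8 * BB)), by positivity,
    fun ε ε0 hε W G _ _ st0 st χ d S δ' b ϖ τ1 e hD he dat gi => ?_⟩
  have ε1 : 8 * (BB * ε) ≤ e0 := by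
    have := (le_div_iff₀ (by positivity)).1 (hε.trans (min_le_right _ _)); linarith
  have sd : ∀ g, W.A.Sm (d g) := fun g => (dat.sm g).2.1
  have d2 : ∀ x ∈ W.L, ∀ g, (W.pt st x).Γ (d g) (d g) ≤ C * c1 := fun x h g =>
    (gi.le x h _ (sd g)).trans (mul_le_mul_of_nonneg_left (dat.lip x h g) (by linarith))
  obtain ⟨st', P, u, w, F, r, su, sw, hP, H⟩ := H ε ε0 (hε.trans (min_le_left _ _)) W G st χ d ϖ
    hD dat.sm gi.smϖ gi.hϖ fun x h => ⟨by linarith [gi.E x h], (gi.gam x h).1, (gi.gam x h).2.2,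
      fun g => (d2 x h g).trans (mul_le_mul_of_nonneg_right C3 hc1), fun h0 => by
        obtain ⟨a1, a2, a3⟩ := dat.par x h ((gi.hϖ x).2.2 h0)
        exact ⟨a1, (fi_scale a2 (by rw [W.pt_p, W.pt_p]) (by linarith) fun g =>
          gi.le x h _ (dat.sm g).1).mono (mul_le_mul_of_nonneg_right C3 hK), fun g =>
          ⟨(gi.le' x h h0 _ (sd g)).trans (mul_le_mul_of_nonneg_left (dat.lip x h g) hq), a3 g⟩⟩⟩
  have sP : ∀ g, W.A.Sm (P g) := fun g => (hP g).1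
  have nP : ∀ g x, 0 ≤ P g x := fun g x => (hP g).2 x
  have T0 : 0 ≤ T⁻¹ := (inv_pos.2 hT).le
  have sβ := sm_bad su sw 3
  have sγ := sm_bad su sw 2
  have sQ := sm_qq (Lr := Lr) T0 sd sP nP
  obtain ⟨μ, hμ⟩ : ∃ μ : W.Z → ℝ, μ = fun x => b x * Real.cos (Real.pi / 2 * bad 3 u w x) :=
    ⟨_, rfl⟩
  obtain ⟨b', hb'⟩ : ∃ b' : W.Z → ℝ, b' = fun x => b x * Real.sin (Real.pi / 2 * bad 3 u w x) :=
    ⟨_, rfl⟩
  have sμ : W.A.Sm μ := hμ ▸ W.A.mul gi.smb (sm_cos sβ)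
  have sb' : W.A.Sm b' := hb' ▸ W.A.mul gi.smb (sm_sin sβ)
  have pyth : ∀ x, μ x ^ 2 + b' x ^ 2 = b x ^ 2 := fun x => by
    rw [hμ, hb']; dsimp only
    rw [mul_pow, mul_pow, ← mul_add, Real.cos_sq_add_sin_sq, mul_one]
  have μb : ∀ x, μ x ≠ 0 → b x ≠ 0 ∧ u x < 4 ∧ w x < 4 := fun x h => by
    rw [hμ] at h
    obtain ⟨a1, a2⟩ := mul_ne_zero_iff.1 h
    refine ⟨a1, ?_⟩
    by_contra a
    rw [not_and_or, not_lt, not_lt] at a
    exact a2 (by rw [bad_one (by norm_num; exact a), mul_one, Real.cos_pi_div_two])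
  have F2 : ∀ x ∈ W.L, ∀ f, W.A.Sm f → (W.pt st x).Γ f f ≤ ε → (W.pt st' x).Γ f f ≤ 2 * ε :=
    fun x h f hf h' => ((H x h).2.2.1 f hf).trans
      (mul_le_mul ((H x h).2.1.trans ex2) h' ((W.pt st x).nonneg hf) zero_le_two)
  have gβ : ∀ t, ∀ x ∈ W.L, (W.pt st' x).Γ (bad t u w) (bad t u w) ≤ 4 * cc ^ 2 * ε :=
    fun t x h => gam_bad su sw t (H x h).2.2.2.2.1 (H x h).2.2.2.2.2.1
  have eB : BB * ε = 4 * ε + 20 * (cc ^ 2 * ε) := by unfold BB; ring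
  have cε : 0 ≤ cc ^ 2 * ε := by positivity
  have good : ∀ x ∈ W.L, μ x ≠ 0 → (W.pt st' x).Fi P (6 * n) ∧ T⁻¹ * tot P x ≤ 11 / 10 ∧
      1 / 3 ≤ ∑ g, pr T⁻¹ Lr d P g x := fun x h h0 => by
    obtain ⟨a1, a2, a3⟩ := μb x h0
    obtain ⟨a4, a5, a6⟩ := (H x h).2.2.2.2.2.2.2 a2 a3
    rw [((gi.hb x).2 a1).1] at a5
    have a7 := abs_le.1 (abs_le_of_sq_le_sq (a := T⁻¹ * tot P x - 1 ^ 2) (b := 1 / 10)
      (by linarith) (by norm_num))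
    have a8 := le_sum_pr (d := d) hL T0 nP x
    exact ⟨a4, by linarith [a7.2], by linarith [a7.1]⟩
  refine ⟨st', fun g x => S g x + μ x ^ 2 * qq T⁻¹ Lr d P g x, b', fun x => ϖ x * bad 2 u w x,
    W.R_trans gi.R r, sb', W.A.mul gi.smϖ sγ, fun g =>
      W.A.add (gi.smS g) (W.A.mul (Alg.pow sμ 2) (sQ g)), fun x => ⟨?_, fun h => ?_⟩,
    fun x => ⟨mul_nonneg (gi.hϖ x).1 (bad_mem _ _ _ _).1,
      mul_le_one₀ (gi.hϖ x).2.1 (bad_mem _ _ _ _).1 (bad_mem _ _ _ _).2,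
      fun h => (gi.hϖ x).2.2 (left_ne_zero_of_mul h)⟩, fun g x => ⟨?_, ?_, fun h => ?_⟩,
    fun x h f hf => ?_, fun x h h0 f hf => ?_, fun x h => ?_, fun x h => ⟨?_, ?_, ?_⟩,
    fun x h => ?_, fun x h => ?_⟩
  · linarith [pyth x, (gi.hb x).1, sq_nonneg (μ x)]
  · rw [hb'] at h
    obtain ⟨a1, a2⟩ := mul_ne_zero_iff.1 h
    have a3 : bad 3 u w x ≠ 0 := fun a => a2 (by rw [a, mul_zero, Real.sin_zero])
    refine ⟨?_, ((gi.hb x).2 a1).2⟩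
    rw [((gi.hb x).2 a1).1, bad_one ((bad_ne a3).imp (fun a => by linarith) fun a => by linarith),
      mul_one]
  · exact add_nonneg (gi.hS g x).1 (mul_nonneg (sq_nonneg _) (qq_mem T0 nP g x).1)
  · linarith [(gi.hS g x).2.1, pyth x,
      mul_le_of_le_one_right (sq_nonneg (μ x)) (qq_mem (Lr := Lr) (d := d) T0 nP g x).2]
  · by_cases a : S g x = 0
    · rw [a, zero_add] at h
      obtain ⟨a1, a2⟩ := mul_ne_zero_iff.1 h
      exact ⟨((gi.hb x).2 (μb x fun a => a1 (by rw [a]; ring)).1).2, qq_range hL a2⟩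
    · exact (gi.hS g x).2.2 a
  · rw [mul_assoc]
    exact ((H x h).2.2.1 f hf).trans (mul_le_mul (H x h).2.1 (gi.le x h f hf)
      ((W.pt st x).nonneg hf) (Real.exp_pos _).le)
  · obtain ⟨a1, a2⟩ := mul_ne_zero_iff.1 h0
    rw [mul_assoc]
    exact ((H x h).2.2.1 f hf).trans (mul_le_mul ((H x h).2.2.2.1
      ((bad_ne a2).imp (fun a => by linarith) fun a => by linarith)) (gi.le' x h a1 f hf)
      ((W.pt st x).nonneg hf) (by positivity))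
  · rcases (H x h).2.2.2.2.2.2.1 with a | a <;> linarith [gi.E x h]
  · linarith [F2 x h _ W.om_sm (gi.gam x h).1]
  · have a1 := gam_mul (T := W.pt st' x) gi.smb (sm_sin sβ) (gi.hb _).1 (Real.sin_sq_le_one _)
    rw [← hb'] at a1
    linarith [F2 x h _ gi.smb (gi.gam x h).2.1, gam_sin (T := W.pt st' x) sβ, gβ 3 x h]
  · have a1 := gam_mul (T := W.pt st' x) gi.smϖ sγ (pow_le_one₀ (gi.hϖ _).1 (gi.hϖ _).2.1)
      (pow_le_one₀ (bad_mem _ _ _ _).1 (bad_mem _ _ _ _).2)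
    linarith [F2 x h _ gi.smϖ (gi.gam x h).2.2, gβ 2 x h]
  · rw [Finset.sum_add_distrib, ← Finset.mul_sum, gi.sum x h]
    by_cases a : μ x = 0
    · have := pyth x
      rw [a] at this ⊢; linarith
    · rw [sum_qq (good x h a).2.2]; linarith [pyth x]
  · have K0' : 0 ≤ 700 * n * T⁻¹ := by positivity
    have f0 := gi.fi x h
    have f1 := (fi_scale f0 (T' := W.pt st' x) (by rw [W.pt_p, W.pt_p]) (H x h).1 fun g =>
      (H x h).2.2.1 _ (gi.smS g)).mono (mul_le_mul_of_nonneg_right (H x h).2.1 f0.nonneg)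
    have f2 : (W.pt st' x).Fi (fun g x => μ x ^ 2 * qq T⁻¹ Lr d P g x)
        (700 * n * T⁻¹ * μ x ^ 2 + e0) := by
      by_cases a : μ x = 0
      · exact (fi_zero sQ sμ (by rw [W.pt_p]; exact a)).mono (by positivity)
      · obtain ⟨a1, a2, a3⟩ := good x h a
        have a4 := fi_qq (T := W.pt st' x) (Lr := Lr) T0 sd sP nP a1 (B := 2 * c1) (by positivity)
          (fun g => ((H x h).2.2.1 _ (sd g)).trans ((mul_le_mul (H x h).2.1 (d2 x h g)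
            ((W.pt st x).nonneg (sd g)) (Real.exp_pos _).le).trans (by
              rw [← mul_assoc]; exact mul_le_mul_of_nonneg_right C2 hc1)))
          (by rw [W.pt_p]; exact a3)
        rw [W.pt_p] at a4
        have a5 := mul_le_mul h3 a2 (mul_nonneg T0 (Finset.sum_nonneg fun g _ => nP g x)) T0
        have a6 := mul_le_mul_of_nonneg_right hn T0
        have a7 := (a4.mono (I' := 350 * n * T⁻¹) (by linarith)).mul_sq sQ
          (fun g => (qq_mem T0 nP g _).1) (w := fun _ => μ) (fun _ => sμ) (a := μ x ^ 2)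
          (B := BB * ε) (sq_nonneg _) (fun _ => by rw [W.pt_p]) (by positivity) fun _ _ => by
            have b1 := gam_mul (T := W.pt st' x) gi.smb (sm_cos sβ) (gi.hb _).1
              (Real.cos_sq_le_one _)
            rw [← hμ] at b1
            linarith [F2 x h _ gi.smb (gi.gam x h).2.1, gam_cos (T := W.pt st' x) sβ, gβ 3 x h]
        rw [W.pt_p, sum_qq a3] at a7
        exact a7.mono (by linarith)
    refine (f1.add f2 gi.smS (fun g => W.A.mul (Alg.pow sμ 2) (sQ g)) (fun g => (gi.hS g _).1)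
      fun g => mul_nonneg (sq_nonneg _) (qq_mem T0 nP g _).1).mono ?_
    have a1 : 1 ≤ Real.exp (4 * c * δ) * C := one_le_mul_of_one_le_of_one_le ex1 C1
    have a2 := mul_le_mul_of_nonneg_right a1
      (show 0 ≤ 700 * n * T⁻¹ * μ x ^ 2 + e0 by positivity)
    rw [← pyth x]
    linarith

end Crest.Agent.N228.A.Gn

end
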