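import Crest.Agent.N228.O.Defs
import Crest.Agent.N228.A.Gen2
import Crest.Agent.N228.A.Basic
import Crest.Agent.N222.A.Stage
import Crest.Agent.N222.A.Src
import Crest.Agent.N222.A.Out
import Crest.Agent.N222.A.Iter
import Crest.Agent.N222.A.Stage0

-- ▼ part N228/O/Final
section

/-!
# Row 228: the final assembly
-/

set_option autoImplicit false
open Set Filter Topology Function
open Crest.GeometryTopology.Submanifold

namespace Crest.Agent.N228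
open Crest.Agent.N222

theorem of_width (hB : BridgeStmt) (hN : NerveStmt) {n : ℕ} {C : ℝ} (h : Width n C) (N : ℕ)
    (S : Set (EuclideanSpace ℝ (Fin N))) (h1 : IsSubmanifold n N S) (h2 : IsClosed S)
    (h3 : IsConnected S) (s : EuclideanSpace ℝ (Fin N) → ℝ) (h4 : scalarField n N S s)
    (h5 : SpectralScalarBound S n s 1) :
    ∃ (ι : Type) (K : Set (Finset ι)) (F : EuclideanSpace ℝ (Fin N) → (ι → ℝ)),
      IsSimplicialComplexOfDim K (n - 2) ∧ ContinuousOn F S ∧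
        Set.MapsTo F S (polyhedron K) ∧ fibreDiamLE S F (C + 1) := by
  obtain ⟨X, _, _, _, _, _, M, e1, rfl, e3, e4, e5⟩ := hB n N S h1 h2 h3 s h4 h5
  obtain ⟨κ, K, F, f1, f2, f3, f4⟩ :=
    hN X (n - 2) C 1 one_pos (h _ X M e1.injective e3 e4)
  have h6 : ∀ p, F (invFun M.x (M.x p)) = F p := fun p => by
    rw [leftInverse_invFun e1.injective p]
  refine ⟨κ, K, fun y => F (invFun M.x y), f1, ?_, ?_, ?_⟩
  · rw [continuousOn_iff_continuous_domRestrict]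
    have : (range M.x).domRestrict (fun y => F (invFun M.x y)) = F ∘ e1.toHomeomorph.symm := by
      funext y
      obtain ⟨p, rfl⟩ := e1.toHomeomorph.surjective y
      rw [comp_apply, Homeomorph.symm_apply_apply]
      exact h6 p
    rw [this]
    exact f2.comp e1.toHomeomorph.symm.continuous
  · rintro _ ⟨p, rfl⟩
    exact f3 _
  · rintro _ ⟨p, rfl⟩ _ ⟨q, rfl⟩ hpq
    rw [← e5]
    exact f4 p q ((h6 p).symm.trans (hpq.trans (h6 q)))

theorem s0352_of (hB : BridgeStmt) (hN : NerveStmt) (h3 : N3Stmt) (hG : GenStmt) (n : ℕ)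
    (hn : 3 ≤ n) :
    ∃ C : ℝ, (n = 3 → C ≤ 500) ∧ ∀ (N : ℕ) (S : Set (EuclideanSpace ℝ (Fin N))),
      IsSubmanifold n N S → IsClosed S → IsConnected S →
      ∀ s : EuclideanSpace ℝ (Fin N) → ℝ, scalarField n N S s → SpectralScalarBound S n s 1 →
      ∃ (ι : Type) (K : Set (Finset ι)) (F : EuclideanSpace ℝ (Fin N) → (ι → ℝ)),
        IsSimplicialComplexOfDim K (n - 2) ∧ ContinuousOn F S ∧
          Set.MapsTo F S (polyhedron K) ∧ fibreDiamLE S F C := by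
  by_cases h : n = 3
  · subst h
    exact ⟨499 + 1, fun _ => by norm_num, of_width hB hN h3⟩
  · obtain ⟨C, hC⟩ := hG n hn
    exact ⟨C + 1, fun h' => absurd h' h, of_width hB hN hC⟩

end Crest.Agent.N228
end

-- ▼ part N228/A/Merge
section

/-! # Row 228, part A* (helper11): all generations -/

set_option autoImplicit false
set_option linter.dupNamespace false
open Set

noncomputable section

namespace Crest.Agent.N228.A

open Crest.Agent.N222.A Gn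

theorem Gn.exists_min (f : ℕ → ℝ) (hf : ∀ k, 0 < f k) (K : ℕ) :
    ∃ t : ℝ, 0 < t ∧ ∀ k ≤ K, t ≤ f k := by
  induction K with
  | zero => exact ⟨f 0, hf 0, fun k hk => by rw [Nat.le_zero.1 hk]⟩
  | succ K ih =>
    obtain ⟨t, t0, ht⟩ := ih
    refine ⟨min t (f (K + 1)), lt_min t0 (hf _), fun k hk => ?_⟩
    rcases Nat.of_le_succ hk with h | h
    · exact (min_le_left _ _).trans (ht k h)
    · rw [h]; exact min_le_right _ _

theorem Gn.exists_delta {c a b : ℝ} (hc : 0 < c) (ha : 0 < a) (hb : 0 < b) :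
    ∃ δ : ℝ, 0 < δ ∧ 24 * c * δ ≤ 1 ∧ a * δ ^ 2 ≤ b := by
  refine ⟨min (1 / (24 * c)) (min 1 (b / a)), by positivity, ?_, ?_⟩
  · have := (le_div_iff₀ (by positivity)).1 (min_le_left (1 / (24 * c)) (min 1 (b / a)))
    linarith
  · have h0 : 0 < min (1 / (24 * c)) (min 1 (b / a)) := by positivity
    have h1 := (min_le_right (1 / (24 * c)) (min 1 (b / a))).trans (min_le_left _ _)
    have h2 := (le_div_iff₀ ha).1
      ((min_le_right (1 / (24 * c)) (min 1 (b / a))).trans (min_le_right _ _))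
    generalize min (1 / (24 * c)) (min 1 (b / a)) = t at *
    nlinarith [mul_le_mul_of_nonneg_left h1 (mul_pos h0 ha).le]

set_option maxHeartbeats 1600000 in
theorem merge (hG : GLStmt) : MergeStmt := by
  obtain ⟨c, hc, H⟩ := hG
  replace H : GLc c := H
  intro n hn
  refine ⟨4200 * n, by linarith, fun T s c1 hT hs hc1 => ?_⟩
  have c0 : 0 < c := by linarith
  obtain ⟨δ0, δ0p, δ1, δ2⟩ := exists_delta (a := c * n) (b := s / 8 * T) c0 (by positivity)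
    (by positivity)
  obtain ⟨Lr, hLr⟩ : ∃ Lr : ℝ, Lr = 1 + cc ^ 2 * (2 * c1) * T
    + c * WW n T s ^ 2 * T ^ 2 * (2 * c1) / (s / 8 * δ0 ^ 3) := ⟨_, rfl⟩
  have p1 : 0 ≤ cc ^ 2 * (2 * c1) * T := by positivity
  have p2 : 0 ≤ c * WW n T s ^ 2 * T ^ 2 * (2 * c1) / (s / 8 * δ0 ^ 3) := by positivity
  have L1 : 1 ≤ Lr := by linarith
  have L0 : 0 < Lr := by linarith
  have L2 : Lr ≤ Lr ^ 2 := by nlinarith
  have h3 : cc ^ 2 * Lr⁻¹ ^ 2 * (2 * c1) ≤ T⁻¹ := by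
    rw [inv_pow, mul_right_comm, ← div_eq_mul_inv, div_le_iff₀ (by positivity), ← div_eq_inv_mul,
      le_div_iff₀ hT]
    linarith
  have h2 : c * WW n T s ^ 2 * T ^ 2 * (2 * c1) ≤ s / 8 * Lr ^ 2 * δ0 ^ 3 := by
    have : c * WW n T s ^ 2 * T ^ 2 * (2 * c1) / (s / 8 * δ0 ^ 3) ≤ Lr ^ 2 := by linarith
    rw [div_le_iff₀ (by positivity)] at this
    linarith
  refine ⟨1 + 2 * Lr, by linarith, fun K0 D hK => ?_⟩
  obtain ⟨Ks, hKs⟩ : ∃ Ks : ℝ, Ks = 700 * n * T⁻¹ := ⟨_, rfl⟩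
  have Ks0 : 0 < Ks := by rw [hKs]; positivity
  obtain ⟨K, hK'⟩ := pow_unbounded_of_one_lt (4 * K0 / Ks) (by norm_num : (1 : ℝ) < 16)
  obtain ⟨C, hC⟩ : ∃ C : ℕ → ℝ, C = fun k => Real.exp (12 * c * δ0 - 12 * c * (δ0 * (2 / 3) ^ k)) :=
    ⟨_, rfl⟩
  have r1 : ∀ k : ℕ, (2 / 3 : ℝ) ^ k ≤ 1 := fun k => pow_le_one₀ (by norm_num) (by norm_num)
  have cδ : 0 < c * δ0 := by positivity
  have C1 : ∀ k, 1 ≤ C k := fun k => by
    rw [hC]; exact Real.one_le_exp (by linarith [mul_le_of_le_one_right cδ.le (r1 k)])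
  have C2 : ∀ k, C k ≤ 2 := fun k => by
    have a : 0 ≤ c * δ0 * (2 / 3) ^ k := by positivity
    rw [hC]
    refine (Real.exp_le_exp.2 (show _ ≤ 1 / 2 by linarith)).trans ?_
    refine le_of_sq_le_sq ?_ zero_le_two
    rw [← Real.exp_nat_mul]
    norm_num
    linarith [Real.exp_one_lt_d9]
  have Cs : ∀ k, Real.exp (4 * c * (δ0 * (2 / 3) ^ k)) * C k = C (k + 1) := fun k => by
    rw [hC]; dsimp only
    rw [← Real.exp_add, pow_succ]; congr 1; ring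
  have B4 := four_le_BB
  have key := fun k : ℕ => gen hc H (n := n) (T := T) (s := s) (η := s / 8 * (1 / 2) ^ k)
    (δ := δ0 * (2 / 3) ^ k) (Lr := Lr) (c1 := c1) (K0 := K0) (C := C k) (q := C k * (1 / 16) ^ k)
    (e0 := Ks / (K + 1)) D hn hT (by positivity)
    (by
      have a : (1 / 2 : ℝ) ^ k ≤ 1 := pow_le_one₀ (by norm_num) (by norm_num)
      linarith [mul_le_of_le_one_right hs.le a])
    (by positivity) (by linarith [mul_le_of_le_one_right cδ.le (r1 k)]) L0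
    (by have := C1 k; positivity) hc1 hK (C1 k) (by rw [Cs]; exact C2 _) (by positivity)
    (by
      have a1 : ((2 / 3 : ℝ) ^ k) ^ 2 ≤ (1 / 2) ^ k := by
        rw [← pow_mul, mul_comm, pow_mul]
        exact pow_le_pow_left₀ (by norm_num) (by norm_num) k
      have a2 := mul_le_mul δ2 a1 (sq_nonneg _) (by positivity)
      linarith)
    (by
      have a1 : (1 / 16 : ℝ) ^ k ≤ (1 / 2) ^ k * ((2 / 3) ^ k) ^ 3 := by
        rw [← pow_mul, mul_comm k, pow_mul, ← mul_pow]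
        exact pow_le_pow_left₀ (by norm_num) (by norm_num) k
      have a2 := mul_le_mul h2 a1 (by positivity) (by positivity)
      have a3 := mul_le_mul_of_nonneg_left (C2 k)
        (show 0 ≤ c * WW n T s ^ 2 * T ^ 2 * c1 * (1 / 16) ^ k by positivity)
      linarith)
    h3
  choose τ τ0 key using key
  obtain ⟨t, t0, ht⟩ := exists_min (fun k => min (τ k) (Ks / 8) / BB ^ k)
    (fun k => by have := τ0 k; positivity) K
  have ht' : ∀ k ≤ K, BB ^ k * t ≤ min (τ k) (Ks / 8) := fun k hk => by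
    have := (le_div_iff₀ (by positivity)).1 (ht k hk); linarith
  have cc1 : 1 ≤ cc ^ 2 := one_le_pow₀ one_le_cc
  refine ⟨t / cc ^ 2, by positivity, fun W G _ _ st0 χ d δ' hD dat => ?_⟩
  have om1 : ∀ x ∈ W.L, cc ^ 2 * (W.pt st0 x).Γ W.om W.om ≤ t := fun x h => by
    have := (le_div_iff₀ (by positivity)).1 (dat.om x h); linarith
  have ind : ∀ k ≤ K, ∃ st S b ϖ, GI W st0 st d S b ϖ (C k) (C k * (1 / 16) ^ k)
      (s / 2 + 4 * (s / 8 * (1 / 2) ^ k)) (BB ^ k * t) (700 * n * T⁻¹) (k * (Ks / (K + 1)))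
      (1 + 2 * Lr) := by
    intro k
    induction k with
    | zero =>
      intro _
      have e0 : C 0 = 1 := by rw [hC]; simp
      have a0 : ∀ x, cut (-1 * W.om x + -1) ^ 2 ≤ 1 := fun x =>
        pow_le_one₀ (cut_nonneg _) (cut_le_one _)
      refine ⟨st0, fun _ _ => 0, fun x => cut (-1 * W.om x + -1), fun x => cut (-1 * W.om x + 0),
        W.R_refl _, sm_lin W.om_sm _ _, sm_lin W.om_sm _ _, fun _ => W.A.const 0,
        fun x => ⟨a0 x, fun h => ?_⟩, fun x => ⟨cut_nonneg _, cut_le_one _, fun h => ?_⟩,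
        fun g x => ⟨le_rfl, by linarith [a0 x], fun h => absurd rfl h⟩,
        fun x _ f _ => by rw [e0, one_mul], fun x _ _ f _ => by rw [e0]; simp,
        fun x h => by linarith [dat.E x h], fun x h => ⟨?_, ?_, ?_⟩, fun x _ => ?_, fun x _ => ?_⟩
      · have : W.om x ≤ -1 := by by_contra a; exact h (cut_zero (by linarith))
        exact ⟨cut_one (by linarith), this⟩
      · by_contra a; exact h (cut_zero (by linarith))
      · linarith [om1 x h, mul_le_mul_of_nonneg_right cc1 ((W.pt st0 x).nonneg W.om_sm)]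
      · linarith [om1 x h, gam_cut (T := W.pt st0 x) W.om_sm (-1) (-1)]
      · linarith [om1 x h, gam_cut (T := W.pt st0 x) W.om_sm (-1) 0]
      · rw [show -1 * W.om x + -1 = -1 - W.om x by ring]; simp
      · refine ⟨fun _ => 0, fun _ => ⟨le_rfl, by
          rw [(W.pt st0 x).const_left 0 (W.A.const 0)]; simp⟩, ?_⟩
        have := mul_nonneg Ks0.le (sub_nonneg.2 (a0 x))
        rw [e0, ← hKs]; simpa using this
    | succ k ih =>
      intro hk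
      obtain ⟨st, S, b, ϖ, gi⟩ := ih (by omega)
      obtain ⟨st', S', b', ϖ', gi'⟩ := key k _ (by positivity)
        ((ht' k (by omega)).trans (min_le_left _ _)) W G st0 st χ d S δ' b ϖ _ _ hD
        (by positivity) dat gi
      refine ⟨st', S', b', ϖ', ?_⟩
      rw [← Cs]
      convert gi' using 1
      · ring
      · ring
      · ring
      · push_cast; ring
  obtain ⟨st, S, b, ϖ, gi⟩ := ind K le_rfl
  have sχ : ∀ g, W.A.Sm (χ g) := fun g => (dat.sm g).1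
  have nχ : ∀ g x, 0 ≤ b x ^ 2 * χ g x := fun g x => mul_nonneg (sq_nonneg _) ((dat.sm g).2.2 x).1
  have s2 : ∀ g, W.A.Sm fun x => b x ^ 2 * χ g x := fun g => W.A.mul (Alg.pow gi.smb 2) (sχ g)
  refine ⟨st, fun g x => S g x + b x ^ 2 * χ g x, gi.R, fun g => ⟨W.A.add (gi.smS g) (s2 g),
    fun x => ⟨add_nonneg (gi.hS g x).1 (nχ g x), ?_, fun h => ?_⟩⟩, fun x h => ⟨fun f hf =>
      (gi.le x h f hf).trans (mul_le_mul_of_nonneg_right (C2 K) ((W.pt st0 x).nonneg hf)),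
      ?_, ?_, ?_, fun g hg => ?_⟩⟩
  · linarith [(gi.hS g x).2.1, mul_le_of_le_one_right (sq_nonneg (b x)) ((dat.sm g).2.2 x).2]
  · by_cases a : S g x = 0
    · dsimp only at h
      rw [a, zero_add] at h
      exact ((gi.hb x).2 fun a => left_ne_zero_of_mul h (by rw [a]; ring)).2
    · exact ((gi.hS g x).2.2 a).1
  · have : 0 ≤ s / 8 * (1 / 2) ^ K := by positivity
    linarith [gi.E x h]
  · rw [Finset.sum_add_distrib, ← Finset.mul_sum, gi.sum x h]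
    by_cases a : b x = 0
    · rw [a]; ring
    · rw [(dat.par x h (by linarith [((gi.hb x).2 a).2])).1]; ring
  · have f2 : (W.pt st x).Fi (fun g x => b x ^ 2 * χ g x) (2 * Ks) := by
      by_cases a : b x = 0
      · exact (fi_zero sχ gi.smb (by rw [W.pt_p]; exact a)).mono (by positivity)
      · obtain ⟨a1, a2⟩ := (gi.hb x).2 a
        obtain ⟨a3, a4, -⟩ := dat.par x h (by linarith)
        have q0 : 0 ≤ C K * (1 / 16) ^ K := by have := C1 K; positivity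
        have a5 := (fi_scale a4 (T' := W.pt st x) (by rw [W.pt_p, W.pt_p]) q0 fun g =>
          gi.le' x h (by rw [a1]; exact one_ne_zero) _ (sχ g)).mul_sq sχ
          (fun g => ((dat.sm g).2.2 _).1) (w := fun _ => b) (fun _ => gi.smb) (a := 1)
          (B := BB ^ K * t) zero_le_one (fun _ => (gi.hb _).1) (by positivity)
          fun _ _ => (gi.gam x h).2.1
        rw [W.pt_p, a3] at a5
        refine a5.mono ?_
        have a6 := (ht' K le_rfl).trans (min_le_right _ _)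
        have a7 : 4 * K0 * (1 / 16) ^ K ≤ Ks := by
          rw [div_lt_iff₀ Ks0] at hK'
          rw [one_div, inv_pow, ← div_eq_mul_inv, div_le_iff₀ (by positivity)]
          linarith
        have a8 := mul_le_mul_of_nonneg_right (C2 K)
          (show 0 ≤ (1 / 16 : ℝ) ^ K * K0 by positivity)
        linarith
    refine ((gi.fi x h).add f2 gi.smS s2 (fun g => (gi.hS g _).1) fun g => nχ g _).mono ?_
    have a1 : (K : ℝ) * (Ks / (K + 1)) ≤ Ks := by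
      rw [← mul_div_assoc, div_le_iff₀ (by positivity)]; linarith
    have a2 : 0 ≤ Ks * b x ^ 2 := by positivity
    have a3 : 0 ≤ Ks * (1 - b x ^ 2) + K * (Ks / (K + 1)) :=
      add_nonneg (mul_nonneg Ks0.le (sub_nonneg.2 (gi.hb x).1)) (by positivity)
    have a4 := mul_le_mul_of_nonneg_right (C2 K) a3
    have a5 : 4200 * n / T = 6 * Ks := by rw [hKs]; ring
    rw [← hKs]
    linarith
  · by_cases a : S g x = 0
    · dsimp only at hg
      rw [a, zero_add] at hg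
      have a1 : b x ≠ 0 := fun a => by rw [a] at hg; simp at hg
      have := (dat.par x h (by linarith [((gi.hb x).2 a1).2])).2.2 g
        ((mul_pos_iff_of_pos_left (by positivity)).1 hg)
      linarith
    · exact ((gi.hS g x).2.2 a).2

end Crest.Agent.N228.A

end
end

-- ▼ part N228/A/Stage
section

/-! # Row 228, part A*: the stage lemma (helper61; adapted from `N222/A/Stage*` of helper11) -/

set_option autoImplicit false
set_option linter.dupNamespace false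
set_option maxHeartbeats 400000
open Set

noncomputable section

namespace Crest.Agent.N228.A

open Crest.Agent.N222.A Crest.Agent.N222.A.Stg

namespace St1

/-- the coefficient of the stage is slow -/
theorem slowQ' {Z : Type} {A : Alg Z} (T : Pt A) {Y : Z → ℝ} (sY : A.Sm Y) {r z Ys ι s : ℝ}
    (hz : 0 < z) (hzr : z ≤ r) (hYs : 0 < Ys) (hι : 0 < ι) (hs : 0 < s)
    (hL : cc * r / Ys = 1 / (51 * ι * s ^ 3)) (hΓ : Y T.p < Ys → T.Γ Y Y ≤ 4 * ι * s ^ 4) :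
    T.Γ (fun x => (Hf r z Ys (Y x) ^ 2)⁻¹ / (2 * ι * s ^ 2))
        (fun x => (Hf r z Ys (Y x) ^ 2)⁻¹ / (2 * ι * s ^ 2)) ≤
      ((Hf r z Ys (Y T.p) ^ 2)⁻¹ / (2 * ι * s ^ 2)) ^ 3 / 81 := by
  have hp : ∀ t, 0 < Hf r z Ys t := fun t => hz.trans_le (le_Hf hzr t)
  have sQ : A.Sm fun x => (Hf r z Ys (Y x) ^ 2)⁻¹ / (2 * ι * s ^ 2) :=
    Alg.div_const (Alg.inv (Alg.pow (sm_Hf sY) 2) fun x => pow_pos (hp _) 2) _
  have hd := (((hasDerivAt_Hf (r := r) (z := z) (Ys := Ys) (Y T.p)).pow 2).inv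
    (pow_pos (hp (Y T.p)) 2).ne').div_const (2 * ι * s ^ 2)
  rw [T.chain_self (φ := fun t => (Hf r z Ys t ^ 2)⁻¹ / (2 * ι * s ^ 2)) sY sQ hd]
  have h0 := hp (Y T.p)
  simp only [Pi.pow_apply]
  rcases lt_or_ge (Y T.p) Ys with h | h
  · have h1 := hΓ h
    have h2 : |(r - z) * -(deriv cut (Y T.p / Ys) * (1 / Ys))| ≤ 1 / (51 * ι * s ^ 3) := by
      rw [← hL, abs_mul, abs_neg, abs_mul, abs_of_nonneg (sub_nonneg.2 hzr),
        abs_of_pos (one_div_pos.2 hYs)]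
      have := mul_le_mul (show r - z ≤ r by linarith)
        (mul_le_mul_of_nonneg_right (abs_deriv_cut_le (Y T.p / Ys)) (one_div_pos.2 hYs).le)
        (by positivity) (by linarith)
      exact this.trans_eq (by ring)
    generalize (r - z) * -(deriv cut (Y T.p / Ys) * (1 / Ys)) = D at *
    generalize Hf r z Ys (Y T.p) = h at *
    have h3 : D ^ 2 ≤ (1 / (51 * ι * s ^ 3)) ^ 2 := sq_le_sq' (abs_le.1 h2).1 (abs_le.1 h2).2
    have h4 := mul_le_mul h3 h1 (T.nonneg sY) (sq_nonneg _)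
    have h5 := mul_le_mul_of_nonneg_left h4
      (show 0 ≤ 1 / (h ^ 6 * ι ^ 2 * s ^ 4) by positivity)
    refine le_of_eq_of_le ?_ (h5.trans ?_)
    · norm_num; field_simp
    · have e1 : 1 / (h ^ 6 * ι ^ 2 * s ^ 4) * ((1 / (51 * ι * s ^ 3)) ^ 2 * (4 * ι * s ^ 4))
          = 4 / 2601 * (1 / (h ^ 6 * ι ^ 3 * s ^ 6)) := by field_simp; norm_num
      have e2 : ((h ^ 2)⁻¹ / (2 * ι * s ^ 2)) ^ 3 / 81
          = 1 / 648 * (1 / (h ^ 6 * ι ^ 3 * s ^ 6)) := by field_simp; norm_num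
      rw [e1, e2]
      exact mul_le_mul_of_nonneg_right (by norm_num) (by positivity)
  · rw [cut_deriv_zero (Or.inr ((one_le_div hYs).2 h))]
    simp only [zero_mul, neg_zero, mul_zero, zero_div, ne_eq, OfNat.ofNat_ne_zero,
      not_false_eq_true, zero_pow]
    positivity

variable {n c : ℝ} (W : Wd n) {G : Type} [Fintype G] [DecidableEq G]
  (C : Cst (n * c) (Fintype.card G)) (st : W.St) (M σ : G → W.Z → ℝ) (j : W.Z → G → ℝ)

/-- the invariant of a stage -/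
def SInv (t : G → ℕ) (a : W.St × (G → W.Z → ℝ) × List (W.Z → ℝ)) : Prop :=
  (∀ g, t g ≤ C.R) ∧ W.R st a.1 ∧ W.Le st a.1 ∧ Ms W c a.1 (fun g x => M g x + a.2.1 g x) a.2.2 ∧
  Ms W c a.1 a.2.1 a.2.2 ∧
  ∀ x ∈ W.L, W.E st x - 2 * (C.r ^ 2)⁻¹ - C.ε * ∑ g, (t g : ℝ) ≤ W.E a.1 x -
    (Hf C.r C.z C.Ys (Yf C.dl (fun g => t g * C.ab) σ a.2.1 x) ^ 2)⁻¹ *
      (2 - tau C.ι C.s (fun g => t g * C.ab) (j x) fun g => σ g x)

theorem sinv_step (hn : 1 ≤ n) (hc1 : 1 ≤ c)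
    (hw : ∀ x ∈ W.L, cw * (W.pt st x).Γ W.om W.om ≤ (C.r ^ 2)⁻¹ / (2 * C.ι * C.s ^ 2))
    (hσ : ∀ g, W.A.Sm (σ g) ∧ ∀ x, 0 ≤ σ g x ∧ σ g x ≤ 1 ∧ (1 ≤ W.om x → σ g x = 0))
    (hj : ∀ x ∈ W.L, ∑ g, σ g x ≤ 1 ∧ ∑ g, j x g ≤ C.ι ∧
      ∀ g, 0 ≤ j x g ∧ (W.pt st x).Γ (σ g) (σ g) ≤ j x g * σ g x)
    (t : G → ℕ) (a : W.St × (G → W.Z → ℝ) × List (W.Z → ℝ)) (g : G) (hg : t g < C.R)
    (h : SInv W C st M σ j t a) :
    ∃ a', SInv W C st M σ j (Function.update t g (t g + 1)) a' := by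
  obtain ⟨st1, Δ, vs⟩ := a
  obtain ⟨ht, hR, le, ok, ms, inv⟩ := h
  dsimp only at hR ok ms le inv
  have hι := C.hι
  have hs := C.hs
  have hab := C.hab
  have hr : 0 < C.r := C.hz.trans_le C.hzr
  have hp : ∀ t, 0 < Hf C.r C.z C.Ys t := fun t => C.hz.trans_le (le_Hf C.hzr t)
  have sY : W.A.Sm (Yf C.dl (fun g => t g * C.ab) σ Δ) := sm_Yf C.hdl (fun g => (hσ g).1) ms.sm
  have sσ : W.A.Sm fun x => C.ab * σ g x := Alg.smul _ (hσ g).1
  obtain ⟨v, st2, hR2, sv, hv, -, hE⟩ := W.pstep st1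
    (fun x => (Hf C.r C.z C.Ys (Yf C.dl (fun g => t g * C.ab) σ Δ x) ^ 2)⁻¹
      / (2 * C.ι * C.s ^ 2)) (fun x => C.ab * σ g x) (fun _ => 0)
    ((C.r ^ 2)⁻¹ / (2 * C.ι * C.s ^ 2)) 0 C.ab C.u0 (C.ε / 2)
    (Alg.div_const (Alg.inv (Alg.pow (sm_Hf sY) 2) fun x => pow_pos (hp _) 2) _) sσ (W.A.const 0)
    (by positivity)
    (fun x => div_le_div_of_nonneg_right (inv_anti₀ (pow_pos (hp _) 2)
      (pow_le_pow_left₀ (hp _).le (Hf_le C.hzr _) 2)) (by positivity)) le_rfl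
    (fun x => ⟨mul_nonneg hab.le ((hσ g).2 x).1, mul_le_of_le_one_right hab.le ((hσ g).2 x).2.1⟩)
    (fun x hx => ⟨by rw [((hσ g).2 x).2.2 hx, mul_zero], le_rfl⟩) C.hu (half_pos C.hε)
    fun x hx => (mul_le_mul_of_nonneg_left (le x hx _ W.om_sm)
      (by unfold cw; positivity)).trans (hw x hx)
  simp only [zero_mul, zero_div, Real.exp_zero] at hE
  have le2 : W.Le st1 st2 := fun x hx f hf => by
    simpa using step_le zero_le_one sv ((hE x hx).1 f f hf hf)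
  have ht' : ∀ g', Function.update t g (t g + 1) g' ≤ C.R := fun g' => by
    by_cases e : g' = g
    · subst e; rw [Function.update_self]; omega
    · rw [Function.update_of_ne e]; exact ht g'
  have hc : ∀ (t : G → ℕ), (∀ g, t g ≤ C.R) → ∀ g, (t g : ℝ) * C.ab ≤ C.s ^ 2 := fun t ht g =>
    C.hR ▸ mul_le_mul_of_nonneg_right (Nat.cast_le.2 (ht g)) hab.le
  refine ⟨(st2, upd Δ g v, v :: vs), ht', W.R_trans hR hR2, le.trans le2, ?_,
    ms.upd hc1 g sv fun x hx => (hE x hx).1, fun x hx => ?_⟩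
  · have := ok.upd hc1 g sv fun x hx => (hE x hx).1
    have e : upd (fun g x => M g x + Δ g x) g v = fun g' x => M g' x + upd Δ g v g' x := by
      funext g' x; simp only [upd, add_assoc]
    rwa [e] at this
  replace inv := inv x hx
  replace hj := hj x hx
  replace hE := (hE x hx).2
  have fi := ms.fi (by linarith) hx
  have hY := Yf_upd C.dl C.ab t σ Δ g v x
  have σ0 : ∀ g, 0 ≤ σ g x := fun g => ((hσ g).2 _).1
  have τ1 := tau_le hι hs (hc _ ht') (fun g => (hj.2.2 g).1) σ0 hj.2.1 hj.1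
  have τ0 := tau_nonneg (s := C.s) hι (c := fun g => t g * C.ab) (fun g => by positivity)
    (fun g => (hj.2.2 g).1) σ0
  have es : ∑ g', ((Function.update t g (t g + 1) g' : ℕ) : ℝ) = ∑ g', (t g' : ℝ) + 1 := by
    rw [sum_off (fun g' => (t g' : ℝ)) _ g (fun g' hg' => by simp [Function.update_of_ne hg'])]
    simp
  dsimp only
  rw [tau_upd] at τ1 ⊢
  rw [es]
  have j0 : 0 ≤ C.ab * j x g := mul_nonneg hab.le (hj.2.2 g).1
  have s0 : 0 ≤ C.ab * σ g x := mul_nonneg hab.le (σ0 g)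
  have hε := C.hε
  have hΓ : Yf C.dl (fun g => t g * C.ab) σ Δ (W.pt st1 x).p < C.Ys →
      (W.pt st1 x).Γ (Yf C.dl (fun g => t g * C.ab) σ Δ) (Yf C.dl (fun g => t g * C.ab) σ Δ)
        ≤ 4 * C.ι * C.s ^ 4 := fun hlt => by
    have fσ : (W.pt st1 x).Fi σ C.ι := ⟨j x, fun g => ⟨(hj.2.2 g).1, by
      rw [W.pt_p]; exact (le x hx _ (hσ g).1).trans (hj.2.2 g).2⟩, hj.2.1⟩
    have h1 := gam_Yf (W.pt st1 x) (c := fun g => t g * C.ab) (B := C.s ^ 2) C.hdl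
      (fun g => (hσ g).1) ms.sm (fun g => ((hσ g).2 _).1) (fun g => ms.nn g _) fi fσ
      (fun g => by rw [abs_of_nonneg (by positivity)]; exact hc t ht g)
    rw [W.pt_p] at h1 hlt
    have h2 := sum_abs_le C.dl (fun g => t g * C.ab) σ Δ x
    have h3 : ∑ g, Δ g x ≤ ∑ g, (|Δ g x - t g * C.ab * σ g x| + C.s ^ 2 * σ g x) :=
      Finset.sum_le_sum fun g _ => by
        have := le_abs_self (Δ g x - t g * C.ab * σ g x)
        have := mul_le_mul_of_nonneg_right (hc t ht g) (σ0 g)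
        linarith
    rw [Finset.sum_add_distrib, ← Finset.mul_sum] at h3
    have h4 := mul_le_mul_of_nonneg_left hj.1 (sq_nonneg C.s)
    have h5 : ∑ g, Δ g x ≤ 2 * C.s ^ 2 := by linarith [C.hk]
    have h6 := mul_le_mul h5 C.hn (by nlinarith) (by positivity)
    have h7 := mul_le_mul_of_nonneg_left hj.1
      (show 0 ≤ (C.s ^ 2) ^ 2 * C.ι by positivity)
    linarith
  have h1 := slowQ' (W.pt st1 x) sY C.hz C.hzr C.hYs hι hs C.hL hΓ
  rw [W.pt_p] at h1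
  have h2 := hE (C.ab * j x g) j0 h1 (by
    rw [(W.pt st1 x).smul_left _ (hσ g).1 sσ, (W.pt st1 x).smul_right _ (hσ g).1 (hσ g).1]
    have := mul_le_mul_of_nonneg_left ((le x hx _ (hσ g).1).trans (hj.2.2 g).2)
      (mul_self_nonneg C.ab)
    linarith)
  rw [(W.pt st1 x).const_right 0 sv, one_mul, show ∀ U V w a : ℝ, zg n 0 U V w a = 0 from
    fun U V w a => by simp [zg], add_zero] at h2
  obtain ⟨v0, v1⟩ := hv x
  have hu := C.hu
  have h3 := le_slow (U := C.u0 + v x) (W := √(1 + (W.pt st1 x).Γ v v))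
    (r := (C.u0 + v x) ^ 2 / 4 - C.u0 ^ 2 / 4 - C.ab * σ g x) (j := C.ab * j x g)
    (by linarith) (Real.one_le_sqrt.2 (by linarith [(W.pt st1 x).nonneg sv]))
    (show 0 ≤ (Hf C.r C.z C.Ys (Yf C.dl (fun g => t g * C.ab) σ Δ x) ^ 2)⁻¹
      / (2 * C.ι * C.s ^ 2) by positivity) s0
  have h4 := Hf_lip C.hz.le C.hzr C.hYs (Yf C.dl (fun g => t g * C.ab) σ Δ x)
    (Yf C.dl (fun g' => (Function.update t g (t g + 1) g' : ℕ) * C.ab) σ (upd Δ g v) x)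
  rw [C.hL] at h4
  have h5 := h4.trans (mul_le_mul_of_nonneg_left hY (by positivity))
  rw [one_div_mul_eq_div] at h5
  obtain ⟨v2, v3, v4⟩ := v_num v0 hu hab v1
  have s1 := mul_le_of_le_one_right hab.le ((hσ g).2 x).2.1
  have h6 : |v x ^ 2 / 4 - C.ab * σ g x| / (51 * C.ι * C.s ^ 3) ≤ C.z / 2 :=
    (div_le_div_of_nonneg_right
      (abs_le.2 ⟨by linarith [sq_nonneg (v x)], by linarith⟩) (by positivity)).trans C.hz2
  have h7 := le_Hf (Ys := C.Ys) C.hzr (Yf C.dl (fun g => t g * C.ab) σ Δ x)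
  have h8 := step_num (p := (C.u0 + v x) ^ 2 / 4) (p0 := C.u0 ^ 2 / 4)
    (w := C.u0 * (1 + C.ab) / 2) hι hs C.hz h7
    ((mul_le_mul_of_nonneg_right (Hf_le C.hzr _) (by positivity)).trans C.hr) (by linarith) h5
    (by positivity) s0 (by positivity) v3 v4 τ0 j0 (by linarith)
  linarith [C.tiny]

end St1

open St1 in
/-- **STAGE** -/
theorem stage : StageStmt := by
  intro n c W G _ _ st M vs ι T y Φ δ σ j hn hc ok hι hT hy hy2 hnι hΦ hδ hw hσ hj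
  obtain ⟨C, e1, e2, e3, e4, e5, e6⟩ := exists_cst (n * c) (Fintype.card G) hι hT hy hy2 hnι hΦ hδ
  subst e1
  have h0 : SInv W C st M σ j (fun _ => 0) (st, fun _ _ => 0, vs) := by
    refine ⟨fun _ => Nat.zero_le _, W.R_refl st, Wd.Le.refl W st, by simpa using ok, ok.zero,
      fun x _ => ?_⟩
    simp [Yf, tau, Real.sqrt_sq C.hdl.le, Hf_zero, mul_comm]
  obtain ⟨⟨st', Δ, vs'⟩, -, hR, le, ok', -, inv⟩ := rounds C.R (SInv W C st M σ j)
    (sinv_step W C st M σ j hn hc (by rwa [e2, e3]) hσ hj) h0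
  refine ⟨st', _, vs', hR, le, ok', fun x hx => ?_⟩
  replace inv := inv x hx
  replace hj := hj x hx
  have σ0 : ∀ g, 0 ≤ σ g x := fun g => ((hσ g).2 _).1
  have τ1 := tau_le (c := fun _ => C.s ^ 2) C.hι C.hs (fun _ => le_rfl) (fun g => (hj.2.2 g).1)
    σ0 hj.2.1 hj.1
  simp only [C.hR, Finset.sum_const, Finset.card_univ, nsmul_eq_mul] at inv
  rw [tau_const _ _ C.hs] at inv τ1
  rw [e2, e3] at inv
  generalize ((∑ g, j x g) / C.ι + ∑ g, σ g x) / 2 = τ at *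
  have h1 : eta C.ι T y ≤ (Hf C.r C.z C.Ys (Yf C.dl (fun _ => T) σ Δ x) ^ 2)⁻¹ := by
    have h2 := C.hz.trans_le (le_Hf (Ys := C.Ys) C.hzr (Yf C.dl (fun _ => T) σ Δ x))
    rw [← e3]
    exact inv_anti₀ (by positivity) (pow_le_pow_left₀ h2.le (Hf_le C.hzr _) 2)
  have h2 := mul_le_mul_of_nonneg_right h1 (show 0 ≤ 2 - τ by linarith)
  have η0 : 0 ≤ eta C.ι T y := by rw [← e3]; positivity
  have h3 := mul_le_mul_of_nonneg_left τ1 η0
  refine ⟨by linarith, ?_⟩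
  rcases lt_or_ge (Yf C.dl (fun _ => T) σ Δ x) C.Ys with h | h
  · left
    have := sum_abs_le C.dl (fun _ => T) σ Δ x
    simp only [add_sub_cancel_left]
    linarith
  · right
    rw [Hf_top C.hYs h, e4] at inv
    have Φ0 : 0 ≤ Φ := by rw [← e4]; positivity
    have := mul_le_mul_of_nonneg_left (show 1 ≤ 2 - τ by linarith) Φ0
    linarith

end Crest.Agent.N228.A

end
end

-- ▼ part N228/A/Boost0
section

/-! # Row 228, part A*: the sources and the output of row 222 through a formal world (helper98) -/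

set_option autoImplicit false
set_option linter.dupNamespace false
open Set Filter

noncomputable section

namespace Crest.Agent.N228.A.Bo

open Crest.Agent.N222.A

/-- formal states -/
structure FSt {Z : Type} (A : Alg Z) (S : Set Z) (n' : ℝ) : Type 1 where
  pt : S → Pt A
  pt_p : ∀ π, (pt π).p = π
  E : S → ℝ
  vs : List (Z → ℝ)
  vs_sm : ∀ v ∈ vs, A.Sm v
  budget : ∀ π, (pt π).bud vs ≤ n'

/-- the initial data of a formal world -/
structure Ini {n : ℝ} (W : Wd n) (G : Type) [Fintype G] (S : Set W.Z) (st0 : W.St)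
    (χ d : G → W.Z → ℝ) (δ : G → G → ℝ) (K : ℝ) : Prop where
  sub : S ⊆ W.L
  sm : ∀ g, W.A.Sm (χ g) ∧ W.A.Sm (d g) ∧ ∀ x, 0 ≤ χ g x ∧ χ g x ≤ 1
  init : ∀ x ∈ S, ∑ g, χ g x = 1 ∧ (W.pt st0 x).Fi χ K ∧
    (∀ g, (W.pt st0 x).Γ (d g) (d g) ≤ K ∧ (0 < χ g x → d g x ≤ 1)) ∧
    ∀ g g', d g x - d g' x ≤ δ g g' ∧ δ g g' ≤ d g x + d g' x

variable {n : ℝ} {W : Wd n} {G : Type} [Fintype G] [DecidableEq G] {S : Set W.Z} {st0 : W.St}
  {χ d : G → W.Z → ℝ} {δ : G → G → ℝ} {K : ℝ}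

/-- the formal world -/
def toW (h : Ini W G S st0 χ d δ K) {n' : ℝ} (hn : 0 ≤ n') : World n' 0 K where
  Z := W.Z
  A := W.A
  G := G
  Pi := S
  L := ⊤
  ev := Subtype.val
  O _ := univ
  Su _ _ := True
  St := FSt W.A S n'
  pt := FSt.pt
  pt_p := FSt.pt_p
  E := FSt.E
  vs := FSt.vs
  vs_sm := FSt.vs_sm
  su_of _ _ _ := trivial
  su_out _ _ _ _ h := (h (mem_univ _)).elim
  budget st := Eventually.of_forall st.budget
  χ := χ
  d := d
  δ g g' _ := δ g g'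
  χ_sm g := (h.sm g).1
  d_sm g := (h.sm g).2.1
  δ_sm _ _ := W.A.const _
  χ_su _ := trivial
  χ_mem g := (h.sm g).2.2
  st0 := ⟨fun π => W.pt st0 π, fun π => W.pt_p st0 π, fun _ => 0, [], by simp,
    fun _ => by simpa [Pt.bud] using hn⟩
  init := Eventually.of_forall fun π => by
    obtain ⟨h1, h2, h3, h4⟩ := h.init π π.2
    exact ⟨le_rfl, h1, h2, fun g _ => h3 g, fun g g' _ _ =>
      ⟨Pt.const_left _ _ (W.A.const _), h4 g g'⟩⟩
  oracle st g Q σ a abar u0 ε _ _ _ _ hσ _ _ hε := by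
    refine ⟨fun _ => 0, ⟨st.pt, st.pt_p, fun π => st.E π + gen (u0 + 0)
      (√(1 + (st.pt π).Γ (fun _ => 0) fun _ => 0)) (beta Q σ (fun _ => 0) u0 π)
      ((st.pt π).Γ (fun _ => 0) (beta Q σ (fun _ => 0) u0) /
        √(1 + (st.pt π).Γ (fun _ => 0) fun _ => 0)) (a π)
      ((st.pt π).Γ (fun _ => 0) a / √(1 + (st.pt π).Γ (fun _ => 0) fun _ => 0)),
      (fun _ => 0) :: st.vs, fun v hv => ?_, fun π => ?_⟩, W.A.const 0, trivial,
      fun z => ⟨le_rfl, by nlinarith [(hσ z).1, (hσ z).2]⟩, rfl, fun π f k hf _ => ?_,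
      Eventually.of_forall fun π => ⟨fun h => (h (mem_univ _)).elim, fun _ => sub_le_self _ hε.le⟩⟩
    · rcases List.mem_cons.1 hv with rfl | hv
      · exact W.A.const 0
      · exact st.vs_sm v hv
    · rw [Pt.bud_cons, Pt.const_left _ _ (W.A.const 0), zero_add]
      exact st.budget π
    · rw [Pt.const_left _ _ hf]
      simp

variable {c : ℝ} {st : W.St} {M : G → W.Z → ℝ} {vs : List (W.Z → ℝ)}

/-- a state of the formal world -/
def toSt (h : Ini W G S st0 χ d δ K) (hM : Ms W c st M vs) (hc : 0 ≤ c) (hn : 0 ≤ n * c) :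
    (toW h hn).St :=
  ⟨fun π => W.pt st π, fun π => W.pt_p st π, fun _ => 0, vs, hM.vs_sm,
    fun π => hM.bud hc (h.sub π.2)⟩

theorem ok (h : Ini W G S st0 χ d δ K) (hM : Ms W c st M vs) (hc : 0 ≤ c) (hn : 0 ≤ n * c)
    (le : W.Le st0 st) : (toW h hn).Ok (toSt h hM hc hn) M :=
  ⟨⟨hM.sm, fun _ => trivial, hM.nn, hM.fis⟩, fun (π : S) f hf => le π.1 (h.sub π.2) f hf⟩

/-- the pruned sources -/
theorem src' (h : Ini W G S st0 χ d δ K) (hM : Ms W c st M vs) (hc : 0 ≤ c) (hn : 1 ≤ n * c)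
    (le : W.Le st0 st) {e : ℝ} (he : 0 < e) : ∃ σ : G → W.Z → ℝ,
    (∀ g, W.A.Sm (σ g) ∧ ∀ z, 0 ≤ σ g z ∧ σ g z ≤ M g z * (tot M z + e)⁻¹) ∧
    ∀ x ∈ S, (W.pt st x).Fi σ (C1 * (n * c) / (tot M x + e)) ∧
      (∑ g, cut (d g x - 1) * M g x ≤ (tot M x + e) / 10 →
        ∀ g, d g x < 1 + 1 → σ g x = M g x * (tot M x + e)⁻¹) := by
  have h0 : 0 ≤ n * c := zero_le_one.trans hn
  obtain ⟨h1, h2⟩ := src _ _ _ (toW h h0) (toSt h hM hc h0) M 1 e hn he (ok h hM hc h0 le)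
  refine ⟨(toW h h0).src 1 e M, fun g => ⟨(h1 g).1, (h1 g).2.2⟩, fun x hx => ?_⟩
  have h3 := eventually_top.1 h2 ⟨x, hx⟩
  exact ⟨h3.1, fun h4 => (h3.2.2.2 h4).1⟩

/-- the output -/
theorem out' (n' K N0 : ℝ) (hn : 1 ≤ n') (hK : 1 ≤ K) (hN : 0 < N0) : ∃ I1 C3 : ℝ, 0 ≤ I1 ∧
    0 < C3 ∧ ∀ (n c : ℝ) (W : Wd n) (G : Type) [Fintype G] [DecidableEq G] (S : Set W.Z)
      (st0 st : W.St) (χ d M : G → W.Z → ℝ) (δ : G → G → ℝ) (vs : List (W.Z → ℝ)) (nn : ℝ),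
      n * c = n' → 0 ≤ c → Ini W G S st0 χ d δ K → Ms W c st M vs → W.Le st0 st → N0 ≤ nn →
      ∃ P : G → W.Z → ℝ, (∀ g, W.A.Sm (P g) ∧ ∀ z, 0 ≤ P g z) ∧
        ∀ x ∈ S, ∑ g, P g x = 1 ∧ (∀ g, 0 < P g x → d g x ≤ 3 * 1 + 4) ∧
          ∃ I, (W.pt st x).Fi P I ∧ I ≤ I1 ∧
            (nn ≤ tot M x → ∑ g, cut (d g x - 1) * M g x ≤ tot M x / 20 → I ≤ C3 / nn) := by
  obtain ⟨I1, C3, h1, h2, H⟩ := out src n' K N0 hn hK hN
  refine ⟨I1, C3, h1, h2, ?_⟩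
  rintro n c W G _ _ S st0 st χ d M δ vs nn rfl hc h hM le hnn
  have h0 : 0 ≤ n * c := zero_le_one.trans hn
  obtain ⟨P, hP, HP⟩ := H 0 (toW h h0) (toSt h hM hc h0) M 1 nn le_rfl hnn (ok h hM hc h0 le)
  exact ⟨P, fun g => ⟨(hP g).1, (hP g).2.2⟩, fun x hx => eventually_top.1 HP ⟨x, hx⟩⟩

end Crest.Agent.N228.A.Bo

end
end

-- ▼ part N228/A/Boost
section

/-! # Row 228, part A*: `boost : StageStmt → BoostStmt` (helper98) -/

set_option autoImplicit false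
set_option linter.dupNamespace false
open Set

noncomputable section

namespace Crest.Agent.N228.A

open Crest.Agent.N222.A hiding StageStmt

namespace Bo

theorem exists_small (a : ℕ → ℝ) (ha : ∀ i, 0 < a i) {b : ℝ} (hb : 0 < b) (J : ℕ) :
    ∃ τ, 0 < τ ∧ τ ≤ b ∧ ∀ i < J, τ ≤ a i := by
  induction J with
  | zero => exact ⟨b, hb, le_rfl, by simp⟩
  | succ J ih =>
    obtain ⟨τ, h1, h2, h3⟩ := ih
    refine ⟨min τ (a J), lt_min h1 (ha J), (min_le_left _ _).trans h2, fun i hi => ?_⟩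
    rcases Nat.lt_succ_iff_lt_or_eq.1 hi with h | rfl
    · exact (min_le_left _ _).trans (h3 i h)
    · exact min_le_right _ _

/-- the numerics of a main stage -/
theorem num {G : Type} [Fintype G] {θ M M' σ : G → ℝ} {nn y N F r : ℝ} (hnn : 0 < nn) (hy : 0 < y)
    (hy' : y ≤ 1 / 1000) (h0 : ∀ g, 0 ≤ θ g) (h1 : ∀ g, θ g ≤ 1) (hN : N = ∑ g, M g)
    (hF : F = ∑ g, θ g * M g) (hr : r = (N + nn / 100)⁻¹)
    (hσ : ∀ g, 0 ≤ σ g ∧ σ g ≤ M g * r) (hnear : ∀ g, σ g = M g * r ∨ θ g = 1) (b2 : nn ≤ N)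
    (b3 : F ≤ (1 / 20 - 16 * y) * N) (a2 : ∑ g, |M' g - M g - 4 * nn * σ g| ≤ 2 * y * (4 * nn)) :
    4 * nn ≤ ∑ g, M' g ∧ ∑ g, θ g * M' g ≤ (1 / 20 - 16 * (3 / 4 * y)) * ∑ g, M' g := by
  obtain ⟨c1, c2⟩ := It.sums h0 h1 a2
  have Np : 0 < N + nn / 100 := by linarith
  have r0 : 0 < r := hr ▸ inv_pos.2 Np
  have N0 : 0 < N := hnn.trans_le b2
  obtain ⟨α, hα⟩ : ∃ α, α = ∑ g, θ g * (M g * r - σ g) := ⟨_, rfl⟩
  have α0 : 0 ≤ α := hα ▸ Finset.sum_nonneg fun g _ => mul_nonneg (h0 g) (sub_nonneg.2 (hσ g).2)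
  have e1 : ∑ g, σ g = N * r - α := by
    rw [hN, hα, Finset.sum_mul, ← Finset.sum_sub_distrib]
    refine Finset.sum_congr rfl fun g _ => ?_
    rcases hnear g with e | e <;> rw [e] <;> ring
  have e2 : ∑ g, θ g * σ g = F * r - α := by
    rw [hα, hF, Finset.sum_mul, ← Finset.sum_sub_distrib]
    exact Finset.sum_congr rfl fun g _ => by ring
  have e3 : 0 ≤ F * r - α := e2 ▸ Finset.sum_nonneg fun g _ => mul_nonneg (h0 g) (hσ g).1
  have e4 : 100 / 101 ≤ N * r := by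
    rw [hr, ← div_eq_mul_inv, le_div_iff₀ Np]
    linarith
  have e5 : F * r ≤ (1 / 20 - 16 * y) * (N * r) := by
    rw [← mul_assoc]; exact mul_le_mul_of_nonneg_right b3 r0.le
  have e6 : 0 ≤ y * (N * r) := by positivity
  have e7 : 94 / 100 ≤ N * r - α := by linarith
  have e8 : F * r - α ≤ (1 / 20 - 16 * y) * (N * r - α) := by
    have := mul_nonneg hy.le α0
    linarith
  rw [e1, ← hN] at c1
  rw [e2, ← hF] at c2
  have ynn : 0 < y * nn := by positivity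
  have e9 : y * nn ≤ 1 / 1000 * nn := mul_le_mul_of_nonneg_right hy' hnn.le
  have f1 := mul_le_mul_of_nonneg_left e7 hnn.le
  have f2 : 4 * nn ≤ ∑ g, M' g := by linarith
  refine ⟨f2, ?_⟩
  have f3 := mul_le_mul_of_nonneg_left e8 hnn.le
  have f4 := mul_le_mul_of_nonneg_left c1 (show 0 ≤ 1 / 20 - 16 * y by linarith)
  have f5 := mul_le_mul_of_nonneg_left f2 hy.le
  have f6 : 0 ≤ y * (y * nn) := by positivity
  linarith

section cutoff

variable {Z : Type} {A : Alg Z} (T : Pt A) {f : Z → ℝ}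

theorem gam_cut (hf : A.Sm f) (b : ℝ) : T.Γ (fun z => cut (b - f z)) (fun z => cut (b - f z)) =
    deriv cut (b - f T.p) ^ 2 * T.Γ f f := by
  have h2 : HasDerivAt (fun t : ℝ => b - t) (-1) (f T.p) := by
    simpa using (hasDerivAt_id (f T.p)).const_sub b
  rw [T.chain_self (φ := fun t => cut (b - t)) hf (Alg.cut (Alg.const_sub b hf))
    (HasDerivAt.comp (h₂ := cut) (h := fun t : ℝ => b - t) _ (hasDerivAt_cut _) h2)]
  ring

theorem gam_cut_le (hf : A.Sm f) (b : ℝ) {τ : ℝ} (h : T.Γ f f ≤ τ) :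
    T.Γ (fun z => cut (b - f z)) (fun z => cut (b - f z)) ≤ cc ^ 2 * τ := by
  rw [gam_cut T hf]
  exact mul_le_mul (deriv_cut_sq_le _) h (T.nonneg hf) (sq_nonneg _)

end cutoff

/-- the invariant of the main stages -/
def Inv {n : ℝ} (W : Wd n) {G : Type} [Fintype G] (d : G → W.Z → ℝ) (s n' nn y Φ : ℝ) (st : W.St)
    (M : G → W.Z → ℝ) : Prop :=
  ∀ x ∈ W.L, s / 2 + 2 * etaS (3 * n') nn y ≤ W.E st x ∧ (W.om x ≤ -2 →
    Φ + 2 * etaS (3 * n') nn y ≤ W.E st x ∨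
      (nn ≤ tot M x ∧ ∑ g, cut (d g x - 1) * M g x ≤ (1 / 20 - 16 * y) * tot M x))

theorem iter (h : StageStmt) {n k : ℝ} {W : Wd n} {G : Type} [Fintype G] [DecidableEq G]
    {st0 st : W.St} {χ d M : G → W.Z → ℝ} {δ : G → G → ℝ} {vs : List (W.Z → ℝ)}
    {K s nn y Φ τ : ℝ} (hn : 1 ≤ n) (hk : 1 ≤ k) (hs : 0 < s) (hnn : 0 < nn) (hy : 0 < y)
    (hy' : y ≤ 1 / 1000) (hΦ : 0 ≤ Φ) (hτ : 0 < τ)
    (ini : Ini W G (W.L ∩ {x | W.om x ≤ 0}) st0 χ d δ K)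
    (hom : ∀ x ∈ W.L, (W.pt st0 x).Γ W.om W.om ≤ τ)
    (t1 : cw * τ ≤ etaS (3 * (n * k)) nn y / (2 * (100 * C1 * (3 * (n * k)) / nn) * (4 * nn)))
    (t2 : 8 * (cc ^ 2 * τ) ≤ 100 * C1 * (n * k) / nn)
    (le : W.Le st0 st) (hM : Ms W k st M vs) (inv : Inv W d s (n * k) nn y Φ st M) :
    ∃ st' M' vs', W.R st st' ∧ W.Le st st' ∧ Ms W k st' M' vs' ∧
      Inv W d s (n * k) (4 * nn) (3 / 4 * y) Φ st' M' := by
  have cc1 := one_le_cc
  have C0 := C1_pos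
  have C8 : 1 ≤ C1 := by unfold C1; nlinarith [sq_nonneg cc]
  have hn' : 1 ≤ n * k := one_le_mul_of_one_le_of_one_le hn hk
  have c0 : 0 < nn / 100 := by positivity
  set ι : ℝ := 100 * C1 * (3 * (n * k)) / nn with hι
  have ι0 : 0 < ι := by positivity
  have η0 : 0 < etaS (3 * (n * k)) nn y := by unfold etaS eta; positivity
  have hη : etaS (3 * (n * k)) (4 * nn) (3 / 4 * y) = 4 / 9 * etaS (3 * (n * k)) nn y := by
    rw [etaS_eq _ _ hnn, etaS_eq _ _ (by positivity)]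
    field_simp
    ring
  obtain ⟨σ, S1, S2⟩ := src' ini hM (by linarith) hn' le c0
  have N0 : ∀ z, 0 ≤ tot M z := fun z => Finset.sum_nonneg fun g _ => hM.nn g z
  have sS : ∀ z, ∑ g, σ g z ≤ 1 := fun z => by
    refine (Finset.sum_le_sum fun g _ => ((S1 g).2 z).2).trans ?_
    rw [← Finset.sum_mul, ← div_eq_mul_inv, div_le_one (by linarith [N0 z])]
    exact le_add_of_nonneg_right c0.le
  set ζ : W.Z → ℝ := fun z => cut (-1 - W.om z) with hζ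
  have sζ : W.A.Sm ζ := Alg.cut (Alg.const_sub _ W.om_sm)
  have ζ1 : ∀ z, ζ z ^ 2 ≤ 1 := fun z => pow_le_one₀ (cut_nonneg _) (cut_le_one _)
  have hom' : ∀ x ∈ W.L, (W.pt st x).Γ W.om W.om ≤ τ := fun x hx =>
    (le x hx _ W.om_sm).trans (hom x hx)
  have hF : ∀ x ∈ W.L, (W.pt st x).Fi (fun g z => ζ z ^ 2 * σ g z) ι := by
    intro x hx
    rcases le_total (W.om x) 0 with h0 | h0
    · have f1 := ((S2 x ⟨hx, h0⟩).1.mul_sq (fun g => (S1 g).1) (fun g => ((S1 g).2 _).1)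
        (w := fun _ => ζ) (fun _ => sζ) zero_le_one (fun _ => ζ1 _) (B := cc ^ 2 * τ)
        (by positivity) fun _ _ => gam_cut_le _ W.om_sm _ (hom' x hx))
      refine f1.mono ?_
      have a1 : C1 * (n * k) / (tot M x + nn / 100) ≤ C1 * (n * k) / (nn / 100) :=
        div_le_div_of_nonneg_left (by positivity) c0 (by linarith [N0 x])
      have a2 : C1 * (n * k) / (nn / 100) = 100 * C1 * (n * k) / nn := by field_simp
      have a3 : ι = 3 * (100 * C1 * (n * k) / nn) := by rw [hι]; ring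
      have a4 := mul_le_mul_of_nonneg_left (sS (W.pt st x).p) (show 0 ≤ 8 * (cc ^ 2 * τ) by positivity)
      linarith
    · refine ⟨fun _ => 0, fun g => ⟨le_rfl, ?_⟩, by simpa using ι0.le⟩
      have z0 : ζ (W.pt st x).p = 0 := by rw [W.pt_p]; exact cut_zero (by linarith)
      have h1 := (W.pt st x).mul_self_le (Alg.pow sζ 2) (S1 g).1
      have h2 := (W.pt st x).chain_self (φ := fun t => t ^ 2) sζ (Alg.pow sζ 2)
        (by simpa using hasDerivAt_pow 2 (ζ (W.pt st x).p))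
      rw [h2, z0] at h1
      simpa using h1
  obtain ⟨j, hj⟩ : ∃ j : W.Z → G → ℝ, ∀ x ∈ W.L, ∑ g, j x g ≤ ι ∧ ∀ g, 0 ≤ j x g ∧
      (W.pt st x).Γ (fun z => ζ z ^ 2 * σ g z) (fun z => ζ z ^ 2 * σ g z) ≤
        j x g * (ζ x ^ 2 * σ g x) := by
    have : ∀ x, ∃ j : G → ℝ, x ∈ W.L → ∑ g, j g ≤ ι ∧ ∀ g, 0 ≤ j g ∧
        (W.pt st x).Γ (fun z => ζ z ^ 2 * σ g z) (fun z => ζ z ^ 2 * σ g z) ≤
          j g * (ζ x ^ 2 * σ g x) := fun x => by
      by_cases hx : x ∈ W.L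
      · obtain ⟨j, h1, h2⟩ := hF x hx
        rw [W.pt_p] at h1
        exact ⟨j, fun _ => ⟨h2, h1⟩⟩
      · exact ⟨0, fun h => (hx h).elim⟩
    choose j hj using this
    exact ⟨j, hj⟩
  obtain ⟨st', M', vs', r, le', hM', H⟩ := h n k W G st M vs ι (4 * nn) y
    (Φ + 4 * etaS (3 * (n * k)) nn y) (etaS (3 * (n * k)) nn y / 9) (fun g z => ζ z ^ 2 * σ g z) j
    hn hk hM ι0 (by positivity) hy (by linarith) (by
      have e : ι * (4 * nn) = 1200 * (C1 * (n * k)) := by rw [hι]; field_simp; ring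
      have a1 : 1 * (n * k) ≤ C1 * (n * k) := mul_le_mul_of_nonneg_right C8 (by linarith)
      rw [e]; linarith)
    (by change etaS (3 * (n * k)) nn y ≤ _; linarith) (by positivity)
    (fun x hx => (mul_le_mul_of_nonneg_left (hom' x hx) (by unfold cw; positivity)).trans t1)
    (fun g => ⟨W.A.mul (Alg.pow sζ 2) (S1 g).1, fun z => ⟨mul_nonneg (sq_nonneg _) ((S1 g).2 z).1,
      mul_le_one₀ (ζ1 z) ((S1 g).2 z).1 ((Finset.single_le_sum (fun g _ => ((S1 g).2 z).1)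
        (Finset.mem_univ g)).trans (sS z)), fun h1 => by
          rw [show ζ z = 0 from cut_zero (by linarith)]; simp⟩⟩)
    (fun x hx => ⟨by
      rw [← Finset.mul_sum]
      exact mul_le_one₀ (ζ1 x) (Finset.sum_nonneg fun g _ => ((S1 g).2 x).1) (sS x), hj x hx⟩)
  refine ⟨st', M', vs', r, le', hM', fun x hx => ?_⟩
  have h1 := H x hx
  change W.E st x - etaS (3 * (n * k)) nn y - _ ≤ _ ∧
    (_ ∨ W.E st x + _ - 2 * etaS (3 * (n * k)) nn y - _ ≤ _) at h1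
  obtain ⟨a1, a2⟩ := h1
  obtain ⟨b1, b2⟩ := inv x hx
  rw [hη]
  refine ⟨by linarith, fun h2 => ?_⟩
  rcases b2 h2 with b2 | ⟨b2, b3⟩
  · exact Or.inl (by linarith)
  rcases a2 with a2 | a2
  swap
  · exact Or.inl (by linarith)
  right
  have z1 : ζ x = 1 := cut_one (by linarith)
  simp only [z1, one_pow, one_mul] at a2
  have yN := mul_nonneg hy.le (N0 x)
  have hnear := (S2 x ⟨hx, show W.om x ≤ 0 by linarith⟩).2 (by linarith [N0 x])
  exact num (θ := fun g => cut (d g x - 1)) hnn hy hy' (fun _ => cut_nonneg _)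
    (fun _ => cut_le_one _) rfl rfl rfl (fun g => (S1 g).2 x)
    (fun g => (lt_or_ge (d g x) (1 + 1)).imp (hnear g) fun e => cut_one (by linarith)) b2 b3 a2

/-- the initial masses -/
theorem start {n k T dl : ℝ} {W : Wd n} {G : Type} [Fintype G] {st : W.St} {X : G → W.Z → ℝ}
    (hT : 0 < T) (hdl : 0 < dl) (hdl1 : dl ≤ 1)
    (hX : ∀ g, W.A.Sm (X g) ∧ ∀ x, 0 ≤ X g x ∧ X g x ≤ 1)
    (hF : ∀ x ∈ W.L, (W.pt st x).Fi X (k / T)) : ∃ M vs, Ms W k st M vs ∧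
      ∀ g x, T * X g x - dl * (T + 2) ≤ M g x ∧ (X g x = 0 → M g x = 0) := by
  have p0 : ∀ g z, 0 < T * X g z + dl ^ 2 := fun g z => by
    have := ((hX g).2 z).1
    positivity
  have s0 : ∀ g, W.A.Sm fun z => T * X g z + dl ^ 2 := fun g =>
    Alg.add_const (Alg.smul T (hX g).1) _
  set f : G → W.Z → ℝ := fun g z => 2 * (√(T * X g z + dl ^ 2) - dl) with hf
  have sf : ∀ g, W.A.Sm (f g) := fun g => Alg.smul 2 (Alg.sub_const (Alg.sqrt (s0 g) (p0 g)) dl)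
  have sum_l : ∀ F : (W.Z → ℝ) → ℝ, ((Finset.univ.toList.map f).map F).sum = ∑ g, F (f g) :=
    fun F => by rw [List.map_map, Finset.sum_map_toList]; rfl
  refine ⟨fun g z => f g z ^ 2 / 4, Finset.univ.toList.map f,
    ⟨fun g => Alg.div_const (Alg.pow (sf g) 2) 4, fun g x => by positivity, fun v hv => ?_,
      fun Q => ⟨fun g => Q.Γ (f g) (f g), fun g => ⟨Q.nonneg (sf g), le_of_eq ?_⟩,
        (sum_l fun v => Q.Γ v v).ge⟩, fun x hx u hu => ?_⟩, fun g x => ⟨?_, fun h => ?_⟩⟩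
  · obtain ⟨g, -, rfl⟩ := List.mem_map.1 hv
    exact sf g
  · rw [Q.chain_self (φ := fun t => t ^ 2 / 4) (sf g) (Alg.div_const (Alg.pow (sf g) 2) 4)
      ((hasDerivAt_pow 2 (f g Q.p)).div_const 4)]
    simp; ring
  · obtain ⟨j, hj, hs⟩ := hF x hx
    have u0 := (W.pt st x).nonneg hu
    rw [sum_l fun v => (W.pt st x).Γ v u ^ 2]
    have h1 : ∀ g, (W.pt st x).Γ (f g) (f g) ≤ T * j g := fun g => by
      have q0 := p0 g (W.pt st x).p
      have hd : HasDerivAt (fun t : ℝ => 2 * (√(T * t + dl ^ 2) - dl))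
          (2 * (T * 1 / (2 * √(T * X g (W.pt st x).p + dl ^ 2)))) (X g (W.pt st x).p) :=
        ((((((hasDerivAt_id _).const_mul T).add_const (dl ^ 2)).sqrt q0.ne').sub_const dl).const_mul 2)
      rw [(W.pt st x).chain_self (φ := fun t => 2 * (√(T * t + dl ^ 2) - dl)) (hX g).1 (sf g) hd]
      have e : (2 * (T * 1 / (2 * √(T * X g (W.pt st x).p + dl ^ 2)))) ^ 2 =
          T ^ 2 / (T * X g (W.pt st x).p + dl ^ 2) := by
        have := Real.sqrt_pos.2 q0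
        rw [← Real.sq_sqrt q0.le, Real.sqrt_sq this.le]
        field_simp
      rw [e, div_mul_eq_mul_div, div_le_iff₀ q0]
      nlinarith [mul_le_mul_of_nonneg_left (hj g).2 (sq_nonneg T),
        mul_nonneg (mul_nonneg hT.le (hj g).1) (sq_nonneg dl)]
    calc ∑ g, (W.pt st x).Γ (f g) u ^ 2 ≤ ∑ g, T * j g * (W.pt st x).Γ u u :=
          Finset.sum_le_sum fun g _ =>
            ((W.pt st x).cs (sf g) hu).trans (mul_le_mul_of_nonneg_right (h1 g) u0)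
      _ = T * (∑ g, j g) * (W.pt st x).Γ u u := by rw [← Finset.sum_mul, ← Finset.mul_sum]
      _ ≤ T * (k / T) * (W.pt st x).Γ u u := by gcongr
      _ = _ := by field_simp
  · have h1 := Real.sq_sqrt (p0 g x).le
    have h2 := mul_le_mul_of_nonneg_left ((hX g).2 x).2 hT.le
    have h3 : 2 * √(T * X g x + dl ^ 2) ≤ T + 2 := by
      nlinarith [sq_nonneg (√(T * X g x + dl ^ 2) - 1)]
    simp only [hf]
    nlinarith [mul_le_mul_of_nonneg_left h3 hdl.le]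
  · simp [hf, h, Real.sqrt_sq hdl.le]

end Bo

open Bo

theorem boost (hS : StageStmt) : BoostStmt := by
  intro n k s hn hk hs
  have hn' : 1 ≤ n * k := one_le_mul_of_one_le_of_one_le hn hk
  have cc0 : 0 < cc := zero_lt_one.trans_le one_le_cc
  have C0 := C1_pos
  set B : ℝ := 4 * (51 * cc * (100 * C1 * (3 * (n * k))) / (1 / 1000)) ^ 2 with hB
  have B0 : 0 ≤ B := by positivity
  set N0 : ℝ := 16 * B / s + 1 with hN0
  have N0p : 0 < N0 := by positivity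
  have hη : 16 * etaS (3 * (n * k)) N0 (1 / 1000) ≤ s := by
    rw [etaS_eq _ _ N0p, ← hB, ← mul_div_assoc, div_le_iff₀ N0p, hN0, mul_add,
      mul_div_cancel₀ _ hs.ne']
    linarith
  refine ⟨2 * N0, by positivity, fun c1 ρ hc1 hρ => ?_⟩
  have ρ0 : 0 < ρ := by linarith
  have kT : 0 ≤ k / (2 * N0) := by positivity
  obtain ⟨I1, C3, I0, C30, HO⟩ := out' (n * k) (1 + k / (2 * N0) + c1) N0 hn' (by linarith) N0p
  refine ⟨2 * I1 + 1, fun K0 Λ D hK hΛ => ?_⟩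
  set Φ : ℝ := 2 * Λ * I1 + s with hΦ
  have Φ0 : 0 ≤ Φ := by positivity
  obtain ⟨J, hJ⟩ := pow_unbounded_of_one_lt (16 * Λ * C3 / (s * N0)) (by norm_num : (1 : ℝ) < 4)
  have cw0 : 0 < cw := by unfold cw; positivity
  obtain ⟨τ, τ0, τ1, τ2⟩ := exists_small (fun i => min
    (etaS (3 * (n * k)) (4 ^ i * N0) ((3 / 4) ^ i * (1 / 1000)) /
      (2 * (100 * C1 * (3 * (n * k)) / (4 ^ i * N0)) * (4 * (4 ^ i * N0))) / cw)
    (100 * C1 * (n * k) / (4 ^ i * N0) / (8 * cc ^ 2)))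
    (fun i => lt_min (by unfold etaS eta; positivity) (by positivity))
    (b := min (s / (16 * (Λ + 1) * cc ^ 2)) (1 / (2 * cc ^ 2))) (by positivity) J
  have τ3 : 2 * Λ * (cc ^ 2 * τ) ≤ s / 8 := by
    have := (le_div_iff₀ (by positivity)).1 (τ1.trans (min_le_left _ _))
    nlinarith [mul_pos τ0 (pow_pos cc0 2)]
  have τ4 : 2 * (cc ^ 2 * τ) ≤ 1 := by
    have := (le_div_iff₀ (by positivity)).1 (τ1.trans (min_le_right _ _))
    linarith
  refine ⟨τ, τ0, fun W G _ _ st χ d X δ hD h hX hX' => ?_⟩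
  have sd : ∀ g, W.A.Sm fun z => ρ⁻¹ * d g z := fun g => Alg.smul _ (h.sm g).2.1
  have gd : ∀ x ∈ W.L, ∀ g, (W.pt st x).Γ (fun z => ρ⁻¹ * d g z) (fun z => ρ⁻¹ * d g z) ≤ c1 :=
    fun x hx g => by
      rw [Pt.smul_left _ _ (h.sm g).2.1 (sd g), Pt.smul_right _ _ (h.sm g).2.1 (h.sm g).2.1]
      have a0 := (W.pt st x).nonneg (h.sm g).2.1
      have a1 : ρ⁻¹ ≤ 1 := inv_le_one_of_one_le₀ hρ
      have a2 : 0 ≤ ρ⁻¹ := by positivity
      exact (mul_le_of_le_one_left (mul_nonneg a2 a0) a1).trans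
        ((mul_le_of_le_one_left a0 a1).trans (h.lip x hx g))
  have tri : ∀ x ∈ W.L, ∀ g g', ρ⁻¹ * d g x - ρ⁻¹ * d g' x ≤ ρ⁻¹ * δ g g' ∧
      ρ⁻¹ * δ g g' ≤ ρ⁻¹ * d g x + ρ⁻¹ * d g' x := fun x hx g g' => by
    rw [← mul_sub, ← mul_add]
    exact ⟨mul_le_mul_of_nonneg_left (h.tri x hx g g').1 (by positivity),
      mul_le_mul_of_nonneg_left (h.tri x hx g g').2 (by positivity)⟩
  have d1 : ∀ t : ℝ, t ≤ ρ → ρ⁻¹ * t ≤ 1 := fun t ht => by rwa [inv_mul_le_iff₀ ρ0, mul_one]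
  have i1 : Ini W G (W.L ∩ {x | W.om x ≤ 0}) st χ (fun g z => ρ⁻¹ * d g z)
      (fun g g' => ρ⁻¹ * δ g g') (K0 + c1) :=
    ⟨inter_subset_left, fun g => ⟨(h.sm g).1, sd g, (h.sm g).2.2⟩, fun x hx => by
      obtain ⟨a1, a2, a3⟩ := h.par x hx.1 hx.2
      exact ⟨a1, a2.mono (by linarith), fun g => ⟨by linarith [gd x hx.1 g],
        fun e => d1 _ ((a3 g e).trans hρ)⟩, tri x hx.1⟩⟩
  have X1 : ∀ x ∈ W.L, W.om x ≤ -2 → ∑ g, X g x = 1 := fun x hx h2 => by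
    rw [(hX' x hx).1, cut_one (by linarith), one_pow]
  have i2 : Ini W G (W.L ∩ {x | W.om x ≤ -2}) st X (fun g z => ρ⁻¹ * d g z)
      (fun g g' => ρ⁻¹ * δ g g') (1 + k / (2 * N0) + c1) :=
    ⟨inter_subset_left, fun g => ⟨(hX g).1, sd g, fun x => ⟨((hX g).2 x).1, ((hX g).2 x).2.1⟩⟩,
      fun x hx => ⟨X1 x hx.1 hx.2, (hX' x hx.1).2.1.mono (by linarith),
        fun g => ⟨by linarith [gd x hx.1 g], fun e => d1 _ ((hX' x hx.1).2.2 g e)⟩, tri x hx.1⟩⟩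
  have key : ∀ i ≤ J, ∃ st' M vs, W.R st st' ∧ W.Le st st' ∧ Ms W k st' M vs ∧
      Inv W (fun g z => ρ⁻¹ * d g z) s (n * k) (4 ^ i * N0) ((3 / 4) ^ i * (1 / 1000)) Φ st' M := by
    intro i
    induction i with
    | zero =>
      intro _
      have q0 : (0 : ℝ) < (D + 1) * (2 * N0 + 2) := by positivity
      obtain ⟨M, vs, hM, hM'⟩ := start (k := k) (T := 2 * N0) (dl := N0 / ((D + 1) * (2 * N0 + 2)))
        (st := st) (X := X) (by positivity) (by positivity)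
        (by rw [div_le_one q0]; nlinarith [Nat.cast_nonneg (α := ℝ) D])
        (fun g => ⟨(hX g).1, fun x => ⟨((hX g).2 x).1, ((hX g).2 x).2.1⟩⟩)
        fun x hx => (hX' x hx).2.1
      refine ⟨st, M, vs, W.R_refl st, Wd.Le.refl W st, hM, fun x hx => ?_⟩
      simp only [pow_zero, one_mul]
      have η0 := etaS_nonneg (n' := 3 * (n * k)) (1 / 1000) N0p
      refine ⟨by linarith [h.E x hx], fun h2 => Or.inr ?_⟩
      have a1 : N0 ≤ tot M x := by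
        have b1 := Finset.sum_le_sum fun g (_ : g ∈ Finset.univ) => (hM' g x).1
        rw [Finset.sum_sub_distrib, ← Finset.mul_sum, X1 x hx h2, Finset.sum_const,
          Finset.card_univ, nsmul_eq_mul] at b1
        have b2 : (Fintype.card G : ℝ) ≤ D + 1 := by exact_mod_cast hD.trans (Nat.le_succ D)
        have b3 : (D + 1) * (N0 / ((D + 1) * (2 * N0 + 2)) * (2 * N0 + 2)) = N0 := by field_simp
        have b4 := mul_le_mul_of_nonneg_right b2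
          (show 0 ≤ N0 / ((D + 1) * (2 * N0 + 2)) * (2 * N0 + 2) by positivity)
        unfold tot
        linarith
      refine ⟨a1, (Finset.sum_eq_zero fun g _ => ?_).trans_le (by nlinarith)⟩
      rcases ((hX g).2 x).1.eq_or_lt with e | e
      · rw [(hM' g x).2 e.symm, mul_zero]
      · rw [cut_zero (by linarith [d1 _ ((hX' x hx).2.2 g e)]), zero_mul]
    | succ i ih =>
      intro hi
      obtain ⟨st1, M, vs, r1, le1, hM, inv⟩ := ih (by omega)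
      have h1 : (3 / 4 : ℝ) ^ i ≤ 1 := pow_le_one₀ (by norm_num) (by norm_num)
      have t := τ2 i (by omega)
      obtain ⟨st2, M', vs', r2, le2, hM', inv'⟩ := Bo.iter hS hn hk hs (by positivity)
        (by positivity) (by linarith) Φ0 τ0 i1 h.om
        (by rw [mul_comm]; exact (le_div_iff₀ cw0).1 (t.trans (min_le_left _ _)))
        (by linarith [(le_div_iff₀ (by positivity)).1 (t.trans (min_le_right _ _))]) le1 hM inv
      refine ⟨st2, M', vs', W.R_trans r1 r2, le1.trans le2, hM', ?_⟩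
      rw [pow_succ', pow_succ', mul_assoc, mul_assoc]
      exact inv'
  obtain ⟨st', M, vs, r, le, hM, inv⟩ := key J le_rfl
  have h4 : (1 : ℝ) ≤ 4 ^ J := one_le_pow₀ (by norm_num)
  have nnp : 0 < 4 ^ J * N0 := by positivity
  obtain ⟨P, hP, HP⟩ := HO n k W G _ st st' X _ M _ vs (4 ^ J * N0) rfl (by linarith) i2 hM le
    (by nlinarith)
  set ξ : W.Z → ℝ := fun z => cut (-2 - W.om z) with hξ
  have sξ : W.A.Sm ξ := Alg.cut (Alg.const_sub _ W.om_sm)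
  refine ⟨st', fun g z => ξ z * P g z, r, le, fun g => ⟨W.A.mul sξ (hP g).1, fun x =>
    ⟨mul_nonneg (cut_nonneg _) ((hP g).2 x), fun e => ?_⟩⟩, fun x hx => ?_⟩
  · by_contra hc
    exact e (mul_eq_zero_of_left (cut_zero (by linarith [not_le.1 hc])) _)
  have η0 := etaS_nonneg (n' := 3 * (n * k)) ((3 / 4) ^ J * (1 / 1000)) nnp
  obtain ⟨b1, b2⟩ := inv x hx
  have hm := fun g => (W.pt st' x).mul_self_le sξ (hP g).1
  simp only [W.pt_p] at hm
  rcases le_total (W.om x) (-2) with h2 | h2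
  · obtain ⟨e1, e2, I, ⟨j, hj, hj'⟩, f2, f3⟩ := HP x ⟨hx, h2⟩
    rw [W.pt_p] at hj
    have P1 : ∀ g, P g x ≤ 1 := fun g =>
      (Finset.single_le_sum (fun g _ => (hP g).2 x) (Finset.mem_univ g)).trans_eq e1
    have g1 := gam_cut_le (W.pt st' x) W.om_sm (-2) ((le x hx _ W.om_sm).trans (h.om x hx))
    have g2 : ∑ g, (W.pt st' x).Γ (fun z => ξ z * P g z) (fun z => ξ z * P g z) ≤
        2 * I + 2 * (cc ^ 2 * τ) := by
      have : ∀ g, (W.pt st' x).Γ (fun z => ξ z * P g z) (fun z => ξ z * P g z) ≤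
          2 * j g + 2 * (cc ^ 2 * τ) * P g x := fun g => by
        have a1 : ξ x ^ 2 ≤ 1 := pow_le_one₀ (cut_nonneg _) (cut_le_one _)
        have a2 := mul_le_of_le_one_left ((W.pt st' x).nonneg (hP g).1) a1
        have a3 := mul_le_of_le_one_right (hj g).1 (P1 g)
        have a4 : P g x ^ 2 ≤ P g x := by nlinarith [(hP g).2 x, P1 g]
        have a5 := mul_le_mul a4 g1 ((W.pt st' x).nonneg sξ) ((hP g).2 x)
        linarith [hm g, (hj g).2]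
      refine (Finset.sum_le_sum fun g _ => this g).trans ?_
      rw [Finset.sum_add_distrib, ← Finset.mul_sum, ← Finset.mul_sum, e1]
      linarith
    have g3 := mul_le_mul_of_nonneg_left g2 hΛ
    refine ⟨by rw [← Finset.mul_sum, e1, mul_one]; exact cut_le_one _, fun h3 => by
      rw [← Finset.mul_sum, e1, mul_one]; exact cut_one (by linarith), fun g e => ?_,
      by linarith, ?_⟩
    · have := e2 g (pos_of_mul_pos_right e (cut_nonneg _))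
      rw [inv_mul_le_iff₀ ρ0] at this
      linarith
    · rcases b2 h2 with b | b
      · have := mul_le_mul_of_nonneg_left f2 hΛ
        linarith
      · have y0 : 0 ≤ 16 * ((3 / 4 : ℝ) ^ J * (1 / 1000)) * tot M x :=
          mul_nonneg (by positivity) (nnp.le.trans b.1)
        have h3 := mul_le_mul_of_nonneg_left (f3 b.1 (by linarith [b.2])) hΛ
        have h5 : Λ * (C3 / (4 ^ J * N0)) ≤ s / 16 := by
          rw [div_lt_iff₀ (by positivity)] at hJ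
          rw [← mul_div_assoc, div_le_iff₀ nnp]
          linarith
        linarith
  · have z0 : ξ x = 0 := cut_zero (by linarith)
    have g1 : (W.pt st' x).Γ ξ ξ = 0 := by
      rw [gam_cut _ W.om_sm, W.pt_p, cut_deriv_zero (Or.inl (by linarith))]; simp
    have g2 : ∑ g, (W.pt st' x).Γ (fun z => ξ z * P g z) (fun z => ξ z * P g z) ≤ 0 :=
      Finset.sum_nonpos fun g _ => by simpa [z0, g1] using hm g
    have g3 := mul_le_mul_of_nonneg_left g2 hΛ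
    exact ⟨by simp [z0], fun h3 => by linarith, fun g e => by simp [z0] at e, by linarith,
      by linarith⟩

end Crest.Agent.N228.A

end
end

-- ▼ part N228/A/Run
section

/-!
# Row 228, line A*: the run
-/

namespace Crest.Agent.N228.A

/-- The whole abstract run, given the pointwise gain lemma. -/
theorem run (hG : GLStmt) : RunStmt := run_of (merge hG) (boost stage)

end Crest.Agent.N228.A
end

-- ▼ part N228/A/GL0
section

/-! # Row 228, part A*: real inequalities for the growth lemma `GL` (helper89) -/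

set_option autoImplicit false
set_option linter.dupNamespace false
open Filter Set

noncomputable section

namespace Crest.Agent.N228.A.GL

open Crest.Agent.N222.A

theorem amgm {x a b : ℝ} (ha : 0 ≤ a) (hb : 0 ≤ b) (h : x ^ 2 ≤ 4 * a * b) : x ≤ a + b :=
  (le_abs_self _).trans (abs_le_of_sq_le_sq (by nlinarith [sq_nonneg (a - b)]) (by positivity))

theorem p1 {U W o c z a am Um : ℝ} (hW : 1 ≤ W) (U0 : 0 < U) (o1 : o ≤ 1) (hc : c = 1 - o ^ 2)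
    (c0 : 0 ≤ c) (hz : 0 < z) (hUm : U ^ 2 ≤ Um) (ha : |a| ≤ am) (h1 : am ^ 2 * Um ≤ z / 8) :
    |a| * c ^ 2 ≤ z * c / 8 + c * (1 - o) ^ 2 * (2 * W + 1) / U ^ 2 := by
  have Um0 : 0 < Um := (pow_pos U0 2).trans_le hUm
  have a1 : c / 2 ≤ 1 - o := by rw [hc]; nlinarith
  have a2 : c * (c / 2) ^ 2 * 3 / Um ≤ c * (1 - o) ^ 2 * (2 * W + 1) / U ^ 2 := by
    refine div_le_div₀ (by positivity) ?_ (by positivity) hUm
    exact mul_le_mul (mul_le_mul_of_nonneg_left (pow_le_pow_left₀ (by positivity) a1 2) c0)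
      (by linarith) (by norm_num) (by positivity)
  have a3 : (|a| * c ^ 2) ^ 2 ≤ 4 * (z * c / 8) * (c * (c / 2) ^ 2 * 3 / Um) := by
    have e : 4 * (z * c / 8) * (c * (c / 2) ^ 2 * 3 / Um) = 3 * z / 8 / Um * c ^ 4 := by
      field_simp; ring
    have b1 : |a| ^ 2 ≤ 3 * z / 8 / Um := by
      rw [le_div_iff₀ Um0]
      linarith [mul_le_mul_of_nonneg_right (pow_le_pow_left₀ (abs_nonneg a) ha 2) Um0.le]
    rw [e, mul_pow, ← pow_mul]
    exact mul_le_mul_of_nonneg_right b1 (by positivity)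
  linarith [amgm (by positivity) (by positivity) a3]

theorem p2 {o c z κ a am Um u0 v σ r : ℝ} (o0 : 0 < o) (o1 : o ≤ 1) (hc : c = 1 - o ^ 2)
    (hz : 0 < z) (hκ : κ = z / 32) (hu : 0 < u0) (hv : 0 ≤ v) (v2 : v ^ 2 ≤ Um) (ha : |a| ≤ am)
    (h2 : am * Um ≤ 1 / 8) (er : r = v ^ 2 / 4 - σ + u0 * v / 2) (r1 : |r| ≤ Um / 4) :
    -(2 * a * κ * (v ^ 2 / 4 - σ)) - am * κ * u0 * (1 + Um) - z * c / 16
      ≤ -(2 * a * κ * r * o) := by
  have κ0 : 0 < κ := by rw [hκ]; positivity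
  have am0 : 0 ≤ am := (abs_nonneg a).trans ha
  have a1 : a * r ≥ -1 := by
    have : |a * r| ≤ 1 := by
      rw [abs_mul]
      linarith [mul_le_mul ha r1 (abs_nonneg _) am0]
    exact (abs_le.1 this).1
  have a2 : 1 - o ≤ c := by rw [hc]; nlinarith
  have b1 : -c ≤ a * r * (1 - o) := by
    linarith [mul_le_mul_of_nonneg_right a1 (sub_nonneg.2 o1)]
  have a3 := mul_le_mul_of_nonneg_left b1 κ0.le
  have a4 : a * v ≤ am * (1 + Um) := by
    have b1 : v ≤ 1 + Um := by nlinarith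
    exact (mul_le_mul_of_nonneg_right ((le_abs_self a).trans ha) hv).trans
      (mul_le_mul_of_nonneg_left b1 am0)
  have a5 := mul_le_mul_of_nonneg_left a4 (mul_pos κ0 hu).le
  have e : 2 * a * κ * r = 2 * a * κ * (v ^ 2 / 4 - σ) + κ * u0 * (a * v) := by rw [er]; ring
  have e' : 2 * κ * c = z * c / 16 := by rw [hκ]; ring
  have e'' : 2 * a * κ * r * o = 2 * a * κ * r - 2 * (κ * (a * r * (1 - o))) := by ring
  linarith

theorem p3 {o L u0 v gN : ℝ} (c0 : 0 ≤ 1 - o ^ 2) (hL : 0 ≤ L) :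
    L * ((v * gN - gN ^ 2) * o ^ 2) - L * u0 ^ 2 / 4 ≤ (u0 + v) * (L * gN) * o ^ 2 := by
  have a1 : (v * gN - gN ^ 2) * o ^ 2 - u0 ^ 2 / 4 ≤ (u0 + v) * gN * o ^ 2 := by
    nlinarith [mul_nonneg (sq_nonneg (gN + u0 / 2)) (sq_nonneg o), mul_nonneg (sq_nonneg u0) c0]
  linarith [mul_le_mul_of_nonneg_left a1 hL]

theorem p4 {o c tv z u0 v g3 G3 : ℝ} (c0 : 0 ≤ c) (o2 : o ^ 2 ≤ 1) (tc : tv * o ^ 2 = c)
    (hz : 0 < z) (hG : 0 ≤ G3) (hg : g3 ^ 2 ≤ tv * G3) :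
    (u0 + v) * g3 * o ^ 2 ≤ z * c / 8 + 4 * v ^ 2 * G3 / z + 4 * u0 ^ 2 * G3 / z := by
  have a1 : ((u0 + v) * g3 * o ^ 2) ^ 2 ≤ 4 * (z * c / 8) * (2 * (u0 + v) ^ 2 * G3 / z) := by
    have e : 4 * (z * c / 8) * (2 * (u0 + v) ^ 2 * G3 / z) = (u0 + v) ^ 2 * (c * G3) := by
      field_simp; ring
    have b1 : g3 ^ 2 * o ^ 2 ≤ c * G3 := by
      rw [← tc]; linarith [mul_le_mul_of_nonneg_right hg (sq_nonneg o)]
    have b2 : g3 ^ 2 * o ^ 2 * o ^ 2 ≤ c * G3 :=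
      (mul_le_of_le_one_right (by positivity) o2).trans b1
    rw [e]
    linarith [mul_le_mul_of_nonneg_left b2 (sq_nonneg (u0 + v))]
  have a2 := amgm (by positivity) (by positivity) a1
  have a3 : 2 * (u0 + v) ^ 2 * G3 / z ≤ 4 * v ^ 2 * G3 / z + 4 * u0 ^ 2 * G3 / z := by
    rw [← add_div]
    refine div_le_div_of_nonneg_right ?_ hz.le
    linarith [mul_nonneg (sq_nonneg (u0 - v)) hG]
  linarith

/-- The gain of one step.  `tv = |dv|²`, `gN = ⟨dv, dN⟩`, `g3 = ⟨dv, da₃⟩`. -/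
theorem net {W tv n z κ σ j a L gN g3 G3 u0 v am Um : ℝ} (hW : 1 ≤ W) (hW2 : W ^ 2 = 1 + tv)
    (hz : 0 < z) (hκ : κ = z / 32) (hu : 0 < u0) (hv : 0 ≤ v) (hUm : (u0 + v) ^ 2 ≤ Um)
    (hσ : 0 ≤ σ) (hσ1 : 4 * σ ≤ Um) (ha : |a| ≤ am) (h1 : am ^ 2 * Um ≤ z / 8)
    (h2 : am * Um ≤ 1 / 8) (hL : 0 ≤ L) (h3 : L * Um ≤ z / 4) (hG : 0 ≤ G3)
    (hg : g3 ^ 2 ≤ tv * G3) :
    z / 4 * (1 - 1 / W ^ 2) + L * ((v * gN - gN ^ 2) / W ^ 2 + v ^ 2 / 4 * (1 - 1 / W ^ 2))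
      - κ * j - 2 * a * κ * (v ^ 2 / 4 - σ) - (n * z ^ 2 + 16 * G3 / z) * (v ^ 2 / 4)
      - (L * u0 ^ 2 / 4 + am * κ * u0 * (1 + Um) + 4 * u0 ^ 2 * G3 / z) ≤
    slow (u0 + v) W κ σ ((u0 + v) ^ 2 / 4 - u0 ^ 2 / 4 - σ) j a (-L * gN + g3)
      + zg n z (u0 + v) W v a := by
  have W0 : 0 < W := by linarith
  have U0 : 0 < u0 + v := by linarith
  have κ0 : 0 < κ := by rw [hκ]; positivity
  have a0 := abs_nonneg a
  have am0 : 0 ≤ am := a0.trans ha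
  obtain ⟨o, ho⟩ : ∃ o, o = 1 / W := ⟨_, rfl⟩
  have o0 : 0 < o := by rw [ho]; positivity
  have o1 : o ≤ 1 := by rw [ho]; exact (div_le_one W0).2 hW
  have o2 : o ^ 2 ≤ 1 := pow_le_one₀ o0.le o1
  have oW : o * W = 1 := by rw [ho]; field_simp
  have e2 : 1 / W ^ 2 = o ^ 2 := by rw [ho]; field_simp
  obtain ⟨c, hc⟩ : ∃ c, c = 1 - o ^ 2 := ⟨_, rfl⟩
  have c0 : 0 ≤ c := by linarith
  have tc : tv * o ^ 2 = c := by
    have : tv = W ^ 2 - 1 := by linarith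
    rw [this, hc]; linear_combination (o * W + 1) * oW
  have d1 : ∀ x : ℝ, x / W = x * o := fun x => by rw [ho]; field_simp
  have d2 : ∀ x : ℝ, x / W ^ 2 = x * o ^ 2 := fun x => by rw [← e2]; field_simp
  obtain ⟨r, hr⟩ : ∃ r, r = (u0 + v) ^ 2 / 4 - u0 ^ 2 / 4 - σ := ⟨_, rfl⟩
  have er : r = v ^ 2 / 4 - σ + u0 * v / 2 := by rw [hr]; ring
  have uv := mul_nonneg hu.le hv
  have v2 : v ^ 2 ≤ Um := by nlinarith [sq_nonneg u0]
  have r1 : |r| ≤ Um / 4 :=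
    abs_le.2 ⟨by linarith [sq_nonneg v], by linarith [sq_nonneg u0]⟩
  have q1 := p1 hW U0 o1 hc c0 hz hUm ha h1
  have q2 := p2 o0 o1 hc hz hκ hu hv v2 ha h2 er r1
  have q3 := p3 (o := o) (u0 := u0) (v := v) (gN := gN) (by linarith) hL
  have q4 := p4 (u0 := u0) (v := v) c0 o2 tc hz hG hg
  have q5 : a ^ 2 * (u0 + v) ^ 2 * c ≤ z / 8 * c := by
    have : a ^ 2 ≤ am ^ 2 := by rw [← sq_abs]; exact pow_le_pow_left₀ a0 ha 2
    exact mul_le_mul_of_nonneg_right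
      ((mul_le_mul this hUm (sq_nonneg _) (sq_nonneg _)).trans h1) c0
  have q6 : |a| * (u0 + v) ^ 2 * (z * c) ≤ 1 / 8 * (z * c) :=
    mul_le_mul_of_nonneg_right ((mul_le_mul ha hUm (sq_nonneg _) am0).trans h2) (by positivity)
  have q7 : L * v ^ 2 * c ≤ z / 4 * c :=
    mul_le_mul_of_nonneg_right ((mul_le_mul_of_nonneg_left v2 hL).trans h3) c0
  have n1 : 0 ≤ 3 / 8 * κ * c := by positivity
  have n2 : 0 ≤ 7 / 8 * κ ^ 2 * r ^ 2 / ((u0 + v) ^ 2 / 4) := by positivity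
  have n3 : 0 ≤ κ * σ * (1 - o) / ((u0 + v) ^ 2 / 4) :=
    div_nonneg (mul_nonneg (by positivity) (by linarith)) (by positivity)
  have zc : 0 ≤ z * c := by positivity
  have e3 : 16 * G3 / z * (v ^ 2 / 4) = 4 * v ^ 2 * G3 / z := by ring
  unfold slow zg
  rw [← hr, e2, ← ho, ← hc, d1, d2, d2]
  linarith

/-- the telescoping of the square of the deviation -/
theorem tele {k t x Y d ε D : ℝ} (hl : 0 ≤ k) (ht : 0 < t) (hx : |x - Y| ≤ ε * D)
    (hd : |d| ≤ ε * t) :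
    k * t * ((Y + d / t) ^ 2 - Y ^ 2) ≤ 2 * k * x * d + k * t * ε ^ 2 * (2 * D + 1) := by
  have e : k * t * ((Y + d / t) ^ 2 - Y ^ 2) = k * (2 * Y * d + d ^ 2 / t) := by
    field_simp; ring
  have h1 : -((x - Y) * d) ≤ ε * D * (ε * t) :=
    (neg_le_abs _).trans (by
      rw [abs_mul]; exact mul_le_mul hx hd (abs_nonneg _) ((abs_nonneg _).trans hx))
  have h2 : d ^ 2 / t ≤ ε ^ 2 * t := by
    rw [div_le_iff₀ ht]
    have : d ^ 2 ≤ (ε * t) ^ 2 := by rw [← sq_abs]; exact pow_le_pow_left₀ (abs_nonneg _) hd 2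
    linarith
  have h3 : 2 * Y * d + d ^ 2 / t ≤ 2 * x * d + t * ε ^ 2 * (2 * D + 1) := by linarith
  rw [e]
  linarith [mul_le_mul_of_nonneg_left h3 hl]

/-- the cost `c S exp (2 δ S)` -/
def cost (c δ S : ℝ) : ℝ := c * S * Real.exp (2 * δ * S)

theorem cost_step {c δ S d : ℝ} (hc : 0 ≤ c) (hδ : 0 ≤ δ) (hS : 0 ≤ S) (hd : 0 ≤ d) :
    cost c δ S + c * d * Real.exp (2 * δ * S) ≤ cost c δ (S + d) := by
  have h1 : Real.exp (2 * δ * S) ≤ Real.exp (2 * δ * (S + d)) :=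
    Real.exp_le_exp.2 (by nlinarith)
  have h2 := mul_le_mul_of_nonneg_left h1 (show 0 ≤ c * (S + d) by positivity)
  unfold cost; linarith

theorem exp_le_two {x : ℝ} (h : x ≤ 3 / 5) : Real.exp x ≤ 2 := by
  have h1 : (3 : ℝ) / 5 ≤ Real.log 2 := by linarith [Real.log_two_gt_d9]
  exact (Real.exp_le_exp.2 (h.trans h1)).trans_eq (Real.exp_log two_pos)

/-- the cost is paid by `η / 4` or by half of the gain `R` -/
theorem cost_le {c η δ S R Wo Sm α : ℝ} (hc : 0 ≤ c) (hδ : 0 ≤ δ) (hδ1 : δ ≤ 1 / 100) (hS : 0 ≤ S)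
    (hSm : S ≤ Sm) (hα : α ≤ 14) (hη0 : 0 ≤ η) (hη : 16 * c * α ≤ η) (hW : 0 < Wo)
    (hW1 : 4 * c * Real.exp (2 * δ * Sm) ≤ Wo) (hR : 0 ≤ R) (h : S ≤ α + R / Wo) :
    cost c δ S ≤ η / 4 + R / 2 := by
  unfold cost
  rcases le_total S (2 * α) with h1 | h1
  · have h2 : Real.exp (2 * δ * S) ≤ 2 := exp_le_two (by nlinarith)
    have h3 : S * Real.exp (2 * δ * S) ≤ 2 * α * 2 :=
      mul_le_mul h1 h2 (Real.exp_pos _).le (by linarith)
    linarith [mul_le_mul_of_nonneg_left h3 hc]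
  · have h2 : S * Wo ≤ 2 * R := by
      have a1 : S / 2 ≤ R / Wo := by linarith
      rw [le_div_iff₀ hW] at a1; linarith
    have h3 : 4 * c * Real.exp (2 * δ * S) ≤ Wo :=
      (mul_le_mul_of_nonneg_left (Real.exp_le_exp.2 (by nlinarith)) (by positivity)).trans hW1
    linarith [mul_le_mul_of_nonneg_left h3 hS]

/-- the end of a round -/
theorem round_sq {w ε : ℝ} (e e' : ℝ) (hw : 0 ≤ w) (hε : 0 ≤ ε) :
    w * (1 + ε) * e' ^ 2 ≤ w * ε * e ^ 2 + w * ((1 + ε) * e' - ε * e) ^ 2 := by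
  have : 0 ≤ w * (ε * (1 + ε) * (e - e') ^ 2) := by positivity
  linarith

end Crest.Agent.N228.A.GL

end
end

-- ▼ part N228/A/GL1
section

/-! # Row 228, part A*: the basic invariant of `GL` and the calculus of one step (helper89) -/

set_option autoImplicit false
set_option linter.dupNamespace false
open Filter Set

noncomputable section

namespace Crest.Agent.N228.A.GL

open Crest.Agent.N222.A

section Pt

variable {Z : Type} {A : Alg Z} {T T' : Pt A} {v N : Z → ℝ} {k : ℝ}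

theorem sm_q (hv : A.Sm v) : A.Sm fun x => v x ^ 2 / 4 := Alg.div_const (Alg.pow hv 2) 4

theorem gam_q (T : Pt A) (hv : A.Sm v) {h : Z → ℝ} (hh : A.Sm h) :
    T.Γ (fun x => v x ^ 2 / 4) h = v T.p / 2 * T.Γ v h := by
  rw [T.chain (φ := fun t => t ^ 2 / 4) hv (sm_q hv) hh ((hasDerivAt_pow 2 (v T.p)).div_const 4)]
  congr 1
  simp; ring

theorem gam_qq (T : Pt A) (hv : A.Sm v) :
    T.Γ (fun x => v x ^ 2 / 4) (fun x => v x ^ 2 / 4) = T.Γ v v * (v T.p ^ 2 / 4) := by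
  rw [gam_q T hv (sm_q hv), T.symm hv (sm_q hv), gam_q T hv hv]; ring

theorem gam_new (hv : A.Sm v) (hN : A.Sm N)
    (e : ∀ f h, A.Sm f → A.Sm h →
      T'.Γ f h = k * (T.Γ f h - T.Γ v f * T.Γ v h / (1 + T.Γ v v))) :
    T'.Γ (fun x => N x + v x ^ 2 / 4) (fun x => N x + v x ^ 2 / 4) =
      k * (T.Γ N N + ((v T.p * T.Γ v N - T.Γ v N ^ 2) / (1 + T.Γ v v)
        + v T.p ^ 2 / 4 * (1 - 1 / (1 + T.Γ v v)))) := by
  have t1 : 0 < 1 + T.Γ v v := by linarith [T.nonneg hv]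
  have s := A.add hN (sm_q hv)
  rw [e _ _ s s, T.add_self hN (sm_q hv), gam_qq T hv, T.add_right hN (sm_q hv) hv,
    T.symm hN (sm_q hv), T.symm hv (sm_q hv), gam_q T hv hN, gam_q T hv hv]
  field_simp
  ring

theorem gam_vv (hv : A.Sm v)
    (e : ∀ f h, A.Sm f → A.Sm h →
      T'.Γ f h = k * (T.Γ f h - T.Γ v f * T.Γ v h / (1 + T.Γ v v))) :
    T'.Γ v v = k * (1 - 1 / (1 + T.Γ v v)) := by
  have t1 : 0 < 1 + T.Γ v v := by linarith [T.nonneg hv]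
  rw [e _ _ hv hv]; field_simp; ring

theorem gam_sq_le (T : Pt A) {f : Z → ℝ} (hf : A.Sm f) (h1 : f T.p ^ 2 ≤ 1) :
    T.Γ (fun x => f x ^ 2) (fun x => f x ^ 2) ≤ 4 * T.Γ f f := by
  rw [T.chain_self (φ := fun t => t ^ 2) hf (Alg.pow hf 2)
    (by simpa using hasDerivAt_pow 2 (f T.p))]
  nlinarith [T.nonneg hf]

theorem gam_cut_le (T : Pt A) {f : Z → ℝ} (hf : A.Sm f) :
    T.Γ (fun x => cut (f x)) (fun x => cut (f x)) ≤ cc ^ 2 * T.Γ f f := by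
  rw [T.chain_self (φ := cut) hf (Alg.cut hf) (hasDerivAt_cut _)]
  exact mul_le_mul_of_nonneg_right (deriv_cut_sq_le _) (T.nonneg hf)

theorem gam_smul (T : Pt A) (c : ℝ) {f : Z → ℝ} (hf : A.Sm f) :
    T.Γ (fun x => c * f x) (fun x => c * f x) = c ^ 2 * T.Γ f f := by
  rw [T.smul_left c hf (Alg.smul c hf), T.smul_right c hf hf]; ring

theorem gam_sub_le (T : Pt A) {f h : Z → ℝ} (hf : A.Sm f) (hh : A.Sm h) :
    T.Γ (fun x => f x - h x) (fun x => f x - h x) ≤ 2 * T.Γ f f + 2 * T.Γ h h := by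
  have := T.quad hf hh 1 1
  rw [T.sub_left hf hh (Alg.sub hf hh), T.sub_right hf hh hf, T.sub_right hf hh hh, T.symm hh hf]
  linarith

theorem gam_one_sub (T : Pt A) {f : Z → ℝ} (hf : A.Sm f) :
    T.Γ (fun x => 1 - f x) (fun x => 1 - f x) = T.Γ f f := by
  have s := Alg.const_sub 1 hf
  rw [T.sub_left (A.const 1) hf s, T.const_left 1 s, T.sub_right (A.const 1) hf hf,
    T.const_right 1 hf]
  ring

/-- Fisher information of `ζ ² P` -/
theorem fi_cut (T : Pt A) {ζ P : Z → ℝ} (hζ : A.Sm ζ) (hP : A.Sm P) {J B : ℝ}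
    (h1 : ζ T.p ^ 2 ≤ 1) (J0 : 0 ≤ J) (P0 : 0 ≤ P T.p) (hJ : T.Γ P P ≤ J * P T.p)
    (hB : T.Γ ζ ζ ≤ B) :
    T.Γ (fun x => ζ x ^ 2 * P x) (fun x => ζ x ^ 2 * P x) ≤
      (2 * J + 8 * B * P T.p) * (ζ T.p ^ 2 * P T.p) := by
  have a1 := T.mul_self_le (Alg.pow hζ 2) hP
  have a2 := T.chain_self (φ := fun t => t ^ 2) hζ (Alg.pow hζ 2)
    (by simpa using hasDerivAt_pow 2 (ζ T.p))
  have a3 := mul_le_mul_of_nonneg_left hJ (sq_nonneg (ζ T.p ^ 2))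
  have a4 := mul_le_mul_of_nonneg_left hB (mul_nonneg (sq_nonneg (ζ T.p)) (sq_nonneg (P T.p)))
  have a5 := mul_le_mul_of_nonneg_left h1
    (mul_nonneg (sq_nonneg (ζ T.p)) (mul_nonneg J0 P0))
  rw [a2] at a1
  linarith

end Pt

variable {n : ℝ} {G : Type} [Fintype G] [DecidableEq G]

theorem tot_upd {Z : Type} (P : G → Z → ℝ) (g : G) (v : Z → ℝ) :
    tot (upd P g v) = fun x => tot P x + v x ^ 2 / 4 := by
  funext x
  simpa [tot] using sum_upd (fun _ => 1) P g v x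

omit [Fintype G] in
theorem upd_self {Z : Type} (P : G → Z → ℝ) (g : G) (v : Z → ℝ) :
    upd P g v g = fun x => P g x + v x ^ 2 / 4 := by
  funext x; simp [upd]

omit [Fintype G] in
theorem upd_ne {Z : Type} (P : G → Z → ℝ) {g g' : G} (h : g' ≠ g) (v : Z → ℝ) :
    upd P g v g' = P g' := by
  funext x; simp [upd, h]

/-- the basic invariant -/
structure Base (W : Wd n) (δ Bw : ℝ) (st0 : W.St) (P0 : G → W.Z → ℝ) (st : W.St)
    (P : G → W.Z → ℝ) (S : W.Z → ℝ) (vs : List (W.Z → ℝ)) : Prop where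
  R : W.R st0 st
  smP : ∀ g, W.A.Sm (P g)
  smS : W.A.Sm S
  ge : ∀ g x, P0 g x ≤ P g x
  nnS : ∀ x, 0 ≤ S x
  out : ∀ x, 5 ≤ W.om x → S x = 0 ∧ ∀ g, P g x = 0
  vs_sm : ∀ v ∈ vs, W.A.Sm v
  fisP : ∀ T : Pt W.A, T.Fi (fun g x => P g x - P0 g x) (T.bud vs)
  fisS : ∀ T : Pt W.A, T.Γ S S ≤ Bw * T.bud vs * S T.p
  le : ∀ x ∈ W.L, ∀ f, W.A.Sm f →
    (W.pt st x).Γ f f ≤ Real.exp (2 * δ * S x) * (W.pt st0 x).Γ f f
  bd : ∀ x ∈ W.L, Bd (W.pt st x) vs (Real.exp (2 * δ * S x))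

theorem Base.step {W : Wd n} {δ Bw z w : ℝ} {st0 st st' : W.St} {P0 P : G → W.Z → ℝ}
    {S v : W.Z → ℝ} {vs : List (W.Z → ℝ)} (h : Base W δ Bw st0 P0 st P S vs)
    (s0 : ∀ g, W.A.Sm (P0 g)) (g : G) (hδ : 0 ≤ δ) (hw0 : 0 ≤ w) (hw : w ≤ Bw) (hz : z ≤ δ * w)
    (hR : W.R st st') (hv : W.A.Sm v) (vo : ∀ x, 5 ≤ W.om x → v x = 0)
    (e : ∀ x ∈ W.L, ∀ f h, W.A.Sm f → W.A.Sm h → (W.pt st' x).Γ f h = Real.exp (z * v x ^ 2 / 2) *
      ((W.pt st x).Γ f h - (W.pt st x).Γ v f * (W.pt st x).Γ v h / (1 + (W.pt st x).Γ v v))) :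
    Base W δ Bw st0 P0 st' (upd P g v) (fun x => S x + w * (v x ^ 2 / 4)) (v :: vs) := by
  have hk : ∀ x, Real.exp (z * v x ^ 2 / 2) * Real.exp (2 * δ * S x) ≤
      Real.exp (2 * δ * (S x + w * (v x ^ 2 / 4))) := fun x => by
    rw [← Real.exp_add]
    exact Real.exp_le_exp.2 (by linarith [mul_le_mul_of_nonneg_right hz (sq_nonneg (v x))])
  have sq : W.A.Sm fun x => w * (v x ^ 2 / 4) := Alg.smul w (sm_q hv)
  refine ⟨W.R_trans h.R hR, sm_upd h.smP g hv, W.A.add h.smS sq,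
    fun g' x => (h.ge g' x).trans (le_upd P g v g' x),
    fun x => add_nonneg (h.nnS x) (by positivity), fun x hx => ?_, fun u hu => ?_, fun T => ?_,
    fun T => ?_, fun x hx f hf => ?_, fun x hx => ?_⟩
  · simp [upd, (h.out x hx).1, (h.out x hx).2, vo x hx]
  · rcases List.mem_cons.1 hu with rfl | hu
    · exact hv
    · exact h.vs_sm u hu
  · have := fi_upd (h.fisP T) (fun g => Alg.sub (h.smP g) (s0 g))
      (fun g => sub_nonneg.2 (h.ge g _)) g hv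
    have e' : upd (fun g x => P g x - P0 g x) g v = fun g' x => upd P g v g' x - P0 g' x := by
      funext g' x; simp only [upd]; ring
    rwa [e', ← T.bud_cons] at this
  · have b0 := T.bud_nonneg h.vs_sm
    have t0 := T.nonneg hv
    have := T.fi_add (j := Bw * T.bud vs) (k := Bw * T.Γ v v) h.smS sq (h.nnS _) (by positivity)
      (mul_nonneg (hw0.trans hw) b0) (mul_nonneg (hw0.trans hw) t0) (h.fisS T) (by
        rw [gam_smul T w (sm_q hv), gam_qq T hv]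
        linarith [mul_le_mul_of_nonneg_right hw
          (show 0 ≤ T.Γ v v * (w * (v T.p ^ 2 / 4)) by positivity)])
    rw [T.bud_cons]
    linarith
  · refine (step_le (Real.exp_pos _).le hv (e x hx f f hf hf)).trans ?_
    refine (mul_le_mul_of_nonneg_left (h.le x hx f hf) (Real.exp_pos _).le).trans ?_
    rw [← mul_assoc]
    exact mul_le_mul_of_nonneg_right (hk x) ((W.pt st0 x).nonneg hf)
  · exact ((h.bd x hx).step (Real.one_le_exp (by have := h.nnS x; positivity))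
      (Real.exp_pos _).le h.vs_sm hv (e x hx)).mono (hk x)

/-- the Fisher numbers after a step -/
theorem J_step {Z : Type} {A : Alg Z} {T T' : Pt A} {v : Z → ℝ} {k : ℝ} {P : G → Z → ℝ}
    {J : G → ℝ} (hp : T'.p = T.p) (hk : 0 ≤ k) (hv : A.Sm v) (sP : ∀ g, A.Sm (P g))
    (P0 : ∀ g, 0 ≤ P g T.p) (hJ : ∀ g, 0 ≤ J g ∧ T.Γ (P g) (P g) ≤ J g * P g T.p)
    (e : ∀ f h, A.Sm f → A.Sm h →
      T'.Γ f h = k * (T.Γ f h - T.Γ v f * T.Γ v h / (1 + T.Γ v v))) (g g' : G) :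
    0 ≤ k * (J g' + if g' = g then 1 - 1 / (1 + T.Γ v v) else 0) ∧
      T'.Γ (upd P g v g') (upd P g v g') ≤
        k * (J g' + if g' = g then 1 - 1 / (1 + T.Γ v v) else 0) * upd P g v g' T.p := by
  have t0 := T.nonneg hv
  have c0 : 0 ≤ 1 - 1 / (1 + T.Γ v v) := sub_nonneg.2 ((div_le_one (by linarith)).2 (by linarith))
  have h1 : T'.Γ (P g') (P g') ≤ k * J g' * P g' T.p := by
    rw [mul_assoc]
    exact (step_le hk hv (e _ _ (sP g') (sP g'))).trans (mul_le_mul_of_nonneg_left (hJ g').2 hk)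
  by_cases hg : g' = g
  · subst hg
    rw [if_pos rfl, upd_self]
    refine ⟨mul_nonneg hk (add_nonneg (hJ g').1 c0), ?_⟩
    have := T'.fi_add (j := k * J g') (k := k * (1 - 1 / (1 + T.Γ v v))) (sP g') (sm_q hv)
      (hp ▸ P0 g') (by positivity) (mul_nonneg hk (hJ g').1) (mul_nonneg hk c0) (hp ▸ h1)
      (by rw [gam_qq T' hv, gam_vv hv e])
    rw [hp] at this
    linarith
  · rw [if_neg hg, upd_ne P hg, add_zero]
    exact ⟨mul_nonneg hk (hJ g').1, h1⟩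

/-- the weighted sum of the Fisher numbers after a step -/
theorem sum_J {s : Finset G} {g : G} (hg : g ∉ s) (A A0 k c : ℝ) (J : G → ℝ) :
    ∑ g', (if g' ∈ insert g s then A else A0) * (k * (J g' + if g' = g then c else 0)) =
      k * (∑ g', (if g' ∈ s then A else A0) * J g' - (A0 - A) * J g + A * c) := by
  rw [Stg.sum_off (fun g' => k * ((if g' ∈ s then A else A0) * J g')) _ g
    (fun g' hg' => by simp [hg']; split_ifs <;> ring), ← Finset.mul_sum]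
  simp [hg]; ring

end Crest.Agent.N228.A.GL

end
end

-- ▼ part N228/A/GL2
section

/-! # Row 228, part A*: one round of `GL` (helper89) -/

set_option autoImplicit false
set_option linter.dupNamespace false
open Filter Set

noncomputable section

namespace Crest.Agent.N228.A.GL

open Crest.Agent.N222.A

/-- the constants of a round -/
structure RC (δ D τ Fm Sm Bw : ℝ) where
  (t z A0 L l2 ε w e0 e1 u0 am Um : ℝ)
  ht : 0 < t
  hz : 0 < z
  hL : 0 ≤ L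
  hl2 : 0 ≤ l2
  hε : 0 ≤ ε
  hε1 : ε ≤ 1
  hu : 0 < u0
  he1 : 0 < e1
  he0 : 0 ≤ e0
  hw0 : 0 ≤ w
  hwB : w ≤ Bw
  hA : z * ε / 16 ≤ A0 - z / 4
  hw : z ≤ δ * w
  hUm : u0 ^ 2 + 4 * (ε * t) ≤ Um
  ham : L * t * (2 * D + 1) + l2 ≤ am
  h1 : am ^ 2 * Um ≤ z / 8
  h2 : am * Um ≤ 1 / 8
  h3 : L * Um ≤ z / 4
  wall : cw * (Real.exp (2 * δ * Sm) * τ) ≤ z / 32
  err : e1 + (L * u0 ^ 2 / 4 + am * (z / 32) * u0 * (1 + Um)
      + 4 * u0 ^ 2 * (Real.exp (2 * δ * Sm) * (8 * (L * t) ^ 2 * τ + 2 * l2 ^ 2 * Fm)) / z)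
    + z / 32 * (ε * (8 * (cc ^ 2 * (Real.exp (2 * δ * Sm) * τ)) * t))
    + L * t * (z / 32) * t * ε ^ 2 * (2 * D + 1) ≤ e0

variable {n : ℝ} {G : Type} [Fintype G] [DecidableEq G]

/-- the fixed data -/
structure Ctx (W : Wd n) (δ D τ Fm : ℝ) (st0 : W.St) (P0 f : G → W.Z → ℝ) (ϖ F : W.Z → ℝ) :
    Prop where
  hn : 0 ≤ n
  hδ : 0 ≤ δ
  hτ : 0 ≤ τ
  hD : (Fintype.card G : ℝ) ≤ D
  s0 : ∀ g, W.A.Sm (P0 g)
  n0 : ∀ g x, 0 ≤ P0 g x
  sf : ∀ g, W.A.Sm (f g)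
  f0 : ∀ g x, 0 ≤ f g x ∧ f g x ≤ 1
  sϖ : W.A.Sm ϖ
  ϖ0 : ∀ x, 0 ≤ ϖ x ∧ ϖ x ≤ 1 ∧ (ϖ x ≠ 0 → W.om x ≤ 0)
  gam : ∀ x ∈ W.L, (W.pt st0 x).Γ W.om W.om ≤ τ ∧ (W.pt st0 x).Γ ϖ ϖ ≤ τ ∧ 0 ≤ F x ∧ F x ≤ Fm ∧
    ∀ g, (W.pt st0 x).Γ (f g) (f g) ≤ F x

/-- the sources -/
def sg {Z : Type} (ε : ℝ) (om : Z → ℝ) (Ps : G → Z → ℝ) (g : G) (x : Z) : ℝ :=
  ε * (cut (1 - om x) ^ 2 * Ps g x)

/-- the deviation of the total mass -/
def Yv {Z : Type} (t : ℝ) (ϖ : Z → ℝ) (σ : G → Z → ℝ) (s : Finset G) (P : G → Z → ℝ) (x : Z) : ℝ :=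
  (tot P x - ∑ g ∈ s, σ g x) / t - ϖ x ^ 2

/-- the far mass -/
def Mv {Z : Type} (f σ : G → Z → ℝ) (s : Finset G) (P : G → Z → ℝ) (x : Z) : ℝ :=
  ∑ g, f g x * P g x - ∑ g ∈ s, f g x * σ g x

omit [Fintype G] [DecidableEq G] in
theorem sg_mem {Z : Type} {ε : ℝ} (hε : 0 ≤ ε) (om : Z → ℝ) {Ps : G → Z → ℝ} {g : G} {x : Z}
    (h : 0 ≤ Ps g x) : 0 ≤ sg ε om Ps g x ∧ sg ε om Ps g x ≤ ε * Ps g x :=
  ⟨mul_nonneg hε (mul_nonneg (sq_nonneg _) h), mul_le_mul_of_nonneg_left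
    (mul_le_of_le_one_left h (pow_le_one₀ (cut_nonneg _) (cut_le_one _))) hε⟩

omit [DecidableEq G] in
theorem sum_le_D {D b : ℝ} (hD : (Fintype.card G : ℝ) ≤ D) (hb : 0 ≤ b) (s : Finset G)
    {a : G → ℝ} (h : ∀ g, a g ≤ b) : ∑ g ∈ s, a g ≤ D * b := by
  refine (Finset.sum_le_card_nsmul s a b fun g _ => h g).trans ?_
  rw [nsmul_eq_mul]
  exact mul_le_mul_of_nonneg_right ((Nat.cast_le.2 (Finset.card_le_univ s)).trans hD) hb

variable {W : Wd n} {δ D τ Fm Sm Bw : ℝ} {st0 : W.St} {P0 f : G → W.Z → ℝ} {ϖ F : W.Z → ℝ}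

/-- the data at the start of a round -/
structure RStart (W : Wd n) (C : RC δ D τ Fm Sm Bw) (ϖ F : W.Z → ℝ) (Ps : G → W.Z → ℝ)
    (Ss B cx : W.Z → ℝ) : Prop where
  sm : ∀ g, W.A.Sm (Ps g)
  mem : ∀ g x, 0 ≤ Ps g x ∧ Ps g x ≤ C.t
  hS : ∀ x, Ss x + C.w * (D * (C.ε * C.t)) ≤ Sm
  rate : ∀ x ∈ W.L, 0 ≤ cx x ∧
    n * C.z ^ 2 + 16 * (8 * (C.L * C.t) ^ 2 * τ + 2 * C.l2 ^ 2 * F x) / C.z ≤ cx x * C.w
  pos : ∀ x ∈ W.L, ∀ Y S : ℝ, 0 ≤ S → S ≤ Sm →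
    S ≤ Ss x - C.w * tot Ps x + C.w * C.t * (Y + ϖ x ^ 2 + C.ε * D) →
    cost (cx x) δ S + C.e0 * D ≤ B x + C.L * C.t * (C.z / 32) * C.t * Y ^ 2

/-- the invariant inside a round -/
structure RInv (W : Wd n) (C : RC δ D τ Fm Sm Bw) (st0 : W.St) (P0 f : G → W.Z → ℝ)
    (ϖ : W.Z → ℝ) (Ps : G → W.Z → ℝ) (Ss B cx : W.Z → ℝ) (s : Finset G) (st : W.St)
    (P : G → W.Z → ℝ) (S : W.Z → ℝ) (vs : List (W.Z → ℝ)) (J : W.Z → G → ℝ) : Prop where
  base : Base W δ Bw st0 P0 st P S vs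
  eq : ∀ g ∉ s, P g = Ps g
  lo : ∀ g x, Ps g x ≤ P g x
  hi : ∀ g x, P g x ≤ Ps g x + C.ε * C.t
  K : ∀ x, S x - C.w * tot P x = Ss x - C.w * tot Ps x
  hJ : ∀ x ∈ W.L, ∀ g, 0 ≤ J x g ∧ (W.pt st x).Γ (P g) (P g) ≤ J x g * P g x
  pot : ∀ x ∈ W.L, B x + C.L * C.t * (C.z / 32) * C.t * Yv C.t ϖ (sg C.ε W.om Ps) s P x ^ 2
      + C.l2 * (C.z / 16) * Mv f (sg C.ε W.om Ps) s P x - cost (cx x) δ (S x) - C.e0 * s.card ≤
    W.E st x - ∑ g, (if g ∈ s then C.z / 4 else C.A0) * J x g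
      - C.L * (W.pt st x).Γ (tot P) (tot P)

variable {C : RC δ D τ Fm Sm Bw} {Ps : G → W.Z → ℝ} {Ss B cx : W.Z → ℝ}

omit [DecidableEq G] in
theorem S_le (hc : Ctx W δ D τ Fm st0 P0 f ϖ F) (hs : RStart W C ϖ F Ps Ss B cx)
    {P : G → W.Z → ℝ} {S : ℝ} {x : W.Z} (hi : ∀ g, P g x ≤ Ps g x + C.ε * C.t)
    (K : S - C.w * tot P x = Ss x - C.w * tot Ps x) : S ≤ Sm := by
  have h1 := sum_le_D hc.hD (mul_nonneg C.hε C.ht.le) Finset.univ
    (a := fun g => P g x - Ps g x) fun g => by linarith [hi g]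
  rw [Finset.sum_sub_distrib] at h1
  have h2 := mul_le_mul_of_nonneg_left h1 C.hw0
  have h3 := hs.hS x
  unfold tot at K
  linarith

omit [DecidableEq G] in
theorem sum_sg (hc : Ctx W δ D τ Fm st0 P0 f ϖ F) (hs : RStart W C ϖ F Ps Ss B cx) (s : Finset G)
    (x : W.Z) : 0 ≤ ∑ g ∈ s, sg C.ε W.om Ps g x ∧
      ∑ g ∈ s, sg C.ε W.om Ps g x ≤ D * (C.ε * C.t) :=
  ⟨Finset.sum_nonneg fun g _ => (sg_mem C.hε _ (hs.mem g x).1).1,
    sum_le_D hc.hD (mul_nonneg C.hε C.ht.le) s fun g => (sg_mem C.hε _ (hs.mem g x).1).2.trans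
      (mul_le_mul_of_nonneg_left (hs.mem g x).2 C.hε)⟩

omit [DecidableEq G] in
/-- the credit is non negative -/
theorem cred_nonneg (hc : Ctx W δ D τ Fm st0 P0 f ϖ F) (hs : RStart W C ϖ F Ps Ss B cx)
    (s : Finset G) {P : G → W.Z → ℝ} {S : ℝ} {x : W.Z} (hx : x ∈ W.L) (S0 : 0 ≤ S)
    (lo : ∀ g, Ps g x ≤ P g x) (hi : ∀ g, P g x ≤ Ps g x + C.ε * C.t)
    (K : S - C.w * tot P x = Ss x - C.w * tot Ps x) :
    0 ≤ B x + C.L * C.t * (C.z / 32) * C.t * Yv C.t ϖ (sg C.ε W.om Ps) s P x ^ 2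
      + C.l2 * (C.z / 16) * Mv f (sg C.ε W.om Ps) s P x - cost (cx x) δ S - C.e0 * s.card := by
  have h1 := hs.pos x hx (Yv C.t ϖ (sg C.ε W.om Ps) s P x) S S0 (S_le hc hs hi K) (by
    have a1 := mul_le_mul_of_nonneg_left (sum_sg hc hs s x).2 C.hw0
    have e : C.t * (Yv C.t ϖ (sg C.ε W.om Ps) s P x + ϖ x ^ 2)
        = tot P x - ∑ g ∈ s, sg C.ε W.om Ps g x := by
      have := C.ht.ne'
      unfold Yv; field_simp; ring
    have e' := congrArg (C.w * ·) e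
    linarith)
  have h2 : 0 ≤ Mv f (sg C.ε W.om Ps) s P x := by
    refine sub_nonneg.2 ((Finset.sum_le_sum_of_subset_of_nonneg (Finset.subset_univ s)
      fun g _ _ => mul_nonneg (hc.f0 g x).1 (sg_mem C.hε _ (hs.mem g x).1).1).trans
      (Finset.sum_le_sum fun g _ => mul_le_mul_of_nonneg_left ?_ (hc.f0 g x).1))
    exact (sg_mem C.hε _ (hs.mem g x).1).2.trans
      ((mul_le_of_le_one_left (hs.mem g x).1 C.hε1).trans (lo g))
  have h3 : 0 ≤ C.l2 * (C.z / 16) * Mv f (sg C.ε W.om Ps) s P x :=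
    mul_nonneg (mul_nonneg C.hl2 (by linarith [C.hz])) h2
  have h4 := mul_le_mul_of_nonneg_left ((Nat.cast_le.2 (Finset.card_le_univ s)).trans hc.hD) C.he0
  linarith

theorem fin_num {k c X E SJ L gN : ℝ} (hk : 1 ≤ k) (c0 : 0 ≤ c) (hE : k * X ≤ E)
    (h : c ≤ X - SJ - L * gN) : c ≤ E - k * SJ - L * (k * gN) := by
  linarith [le_mul_of_one_le_left c0 hk, mul_le_mul_of_nonneg_left h (zero_le_one.trans hk)]

theorem rinv_step (hc : Ctx W δ D τ Fm st0 P0 f ϖ F) (hs : RStart W C ϖ F Ps Ss B cx)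
    {s : Finset G} {st : W.St} {P : G → W.Z → ℝ} {S : W.Z → ℝ} {vs : List (W.Z → ℝ)}
    {J : W.Z → G → ℝ} (h : RInv W C st0 P0 f ϖ Ps Ss B cx s st P S vs J) {g : G} (hg : g ∉ s) :
    ∃ st' P' S' vs' J', RInv W C st0 P0 f ϖ Ps Ss B cx (insert g s) st' P' S' vs' J' := by
  have ht := C.ht
  have hz := C.hz
  have hL := C.hL
  have hl2 := C.hl2
  have hε := C.hε
  have D0 : 0 ≤ D := (Nat.cast_nonneg _).trans hc.hD
  have sN : W.A.Sm (tot P) := Alg.sum _ fun g _ => h.base.smP g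
  have P0' : ∀ g x, 0 ≤ P g x := fun g x => (hs.mem g x).1.trans (h.lo g x)
  have N0 : ∀ x, 0 ≤ tot P x := fun x => Finset.sum_nonneg fun g _ => P0' g x
  have sζ : W.A.Sm fun x => cut (1 - W.om x) := Alg.cut (Alg.const_sub 1 W.om_sm)
  have sσ0 : W.A.Sm fun x => cut (1 - W.om x) ^ 2 * Ps g x := W.A.mul (Alg.pow sζ 2) (hs.sm g)
  have s31 : W.A.Sm fun x => C.L * C.t * ϖ x ^ 2 := Alg.smul _ (Alg.pow hc.sϖ 2)
  have s32 : W.A.Sm fun x => C.l2 * f g x := Alg.smul _ (hc.sf g)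
  have s3 : W.A.Sm fun x => C.L * C.t * ϖ x ^ 2 - C.l2 * f g x := Alg.sub s31 s32
  have eS : ∀ x, Real.exp (2 * δ * S x) ≤ Real.exp (2 * δ * Sm) := fun x =>
    Real.exp_le_exp.2 (mul_le_mul_of_nonneg_left (S_le hc hs (fun g => h.hi g x) (h.K x))
      (by linarith [hc.hδ]))
  have gom : ∀ x ∈ W.L, (W.pt st x).Γ W.om W.om ≤ Real.exp (2 * δ * Sm) * τ := fun x hx =>
    (h.base.le x hx _ W.om_sm).trans (mul_le_mul (eS x) (hc.gam x hx).1
      ((W.pt st0 x).nonneg W.om_sm) (Real.exp_pos _).le)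
  have σm : ∀ x, 0 ≤ sg C.ε W.om Ps g x ∧ sg C.ε W.om Ps g x ≤ C.ε * C.t := fun x =>
    ⟨(sg_mem hε _ (hs.mem g x).1).1, (sg_mem hε _ (hs.mem g x).1).2.trans
      (mul_le_mul_of_nonneg_left (hs.mem g x).2 hε)⟩
  obtain ⟨v, st', hR, sv, hv, vo, H⟩ := W.pstep st (fun _ => C.z / 32) (sg C.ε W.om Ps g)
    (fun x => -C.L * tot P x + (C.L * C.t * ϖ x ^ 2 - C.l2 * f g x)) (C.z / 32) C.z (C.ε * C.t)
    C.u0 C.e1 (W.A.const _) (Alg.smul _ sσ0) (W.A.add (Alg.smul _ sN) s3) (by positivity)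
    (fun _ => le_rfl) hz.le σm (fun x hx => ⟨by simp [sg, cut_zero (sub_nonpos.2 hx)], by
      have h0 : ϖ x = 0 := by
        by_contra h0
        linarith [(hc.ϖ0 x).2.2 h0]
      have := mul_nonneg hL (N0 x)
      have := mul_nonneg hl2 (hc.f0 g x).1
      rw [h0]; linarith⟩) C.hu C.he1 (fun x hx => by
      refine le_trans (mul_le_mul_of_nonneg_left (gom x hx) ?_) C.wall
      unfold cw; positivity)
  have hu := C.hu
  have q1 : ∀ x, v x ^ 2 / 4 ≤ C.ε * C.t := fun x => by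
    nlinarith [(hv x).2, mul_nonneg hu.le (hv x).1]
  have lo' : ∀ g' x, Ps g' x ≤ upd P g v g' x := fun g' x => (h.lo g' x).trans (le_upd P g v g' x)
  have hi' : ∀ g' x, upd P g v g' x ≤ Ps g' x + C.ε * C.t := fun g' x => by
    by_cases e : g' = g
    · subst e; rw [upd_self, h.eq g' hg]; linarith [q1 x]
    · rw [upd_ne P e]; exact h.hi g' x
  have K' : ∀ x, S x + C.w * (v x ^ 2 / 4) - C.w * tot (upd P g v) x
      = Ss x - C.w * tot Ps x := fun x => by rw [tot_upd, ← h.K x]; ring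
  have hb := h.base.step hc.s0 g hc.hδ C.hw0 C.hwB C.hw hR sv vo fun x hx => (H x hx).1
  refine ⟨st', upd P g v, fun x => S x + C.w * (v x ^ 2 / 4), v :: vs,
    fun x g' => Real.exp (C.z * v x ^ 2 / 2) *
      (J x g' + if g' = g then 1 - 1 / (1 + (W.pt st x).Γ v v) else 0), hb, fun g' hg' => ?_, lo',
    hi', K', fun x hx g' => ?_, fun x hx => ?_⟩
  · rw [Finset.mem_insert, not_or] at hg'
    rw [upd_ne P hg'.1, h.eq g' hg'.2]
  · have := J_step (T := W.pt st x) (T' := W.pt st' x) (J := J x) (by rw [W.pt_p, W.pt_p])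
      (Real.exp_pos _).le sv h.base.smP (fun g => P0' g _)
      (fun g => by rw [W.pt_p]; exact h.hJ x hx g) (H x hx).1 g g'
    rwa [W.pt_p] at this
  have c0 := cred_nonneg hc hs (insert g s) hx (hb.nnS x) (fun g => lo' g x) (fun g => hi' g x)
    (K' x)
  have hp := W.pt_p st x
  have old := h.pot x hx
  obtain ⟨g1, g2, F0, F1, g3⟩ := hc.gam x hx
  have hτ := hc.hτ
  -- the source
  have hj := fi_cut (W.pt st x) sζ (hs.sm g) (J := J x g)
    (B := cc ^ 2 * (Real.exp (2 * δ * Sm) * τ)) (pow_le_one₀ (cut_nonneg _) (cut_le_one _))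
    (h.hJ x hx g).1 (hs.mem g _).1 (by rw [hp, ← h.eq g hg]; exact (h.hJ x hx g).2)
    ((gam_cut_le _ (Alg.const_sub 1 W.om_sm)).trans (by
      rw [gam_one_sub _ W.om_sm]
      exact mul_le_mul_of_nonneg_left (gom x hx) (sq_nonneg _)))
  rw [hp] at hj
  have B0 : 0 ≤ 8 * (cc ^ 2 * (Real.exp (2 * δ * Sm) * τ)) := by positivity
  have J0 := (h.hJ x hx g).1
  have hE := (H x hx).2 (C.ε * (2 * J x g + 8 * (cc ^ 2 * (Real.exp (2 * δ * Sm) * τ)) * Ps g x))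
    (by have := (hs.mem g x).1; positivity)
    (by rw [(W.pt st x).const_left _ (W.A.const _)]; positivity) (by
      have := mul_le_mul_of_nonneg_left hj (sq_nonneg C.ε)
      rw [← gam_smul _ _ sσ0] at this
      exact this.trans_eq (by unfold sg; ring))
  have j1 := mul_le_mul_of_nonneg_left (mul_le_mul_of_nonneg_left
    (mul_le_mul_of_nonneg_left (hs.mem g x).2 B0) hε) (show 0 ≤ C.z / 32 by positivity)
  have j2 := mul_le_mul_of_nonneg_right C.hA J0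
  -- the cross term
  have k1 : 1 ≤ Real.exp (2 * δ * S x) :=
    Real.one_le_exp (by have := h.base.nnS x; have := hc.hδ; positivity)
  have G0 : 0 ≤ 8 * (C.L * C.t) ^ 2 * τ + 2 * C.l2 ^ 2 * F x := by positivity
  have hG : (W.pt st x).Γ (fun x => C.L * C.t * ϖ x ^ 2 - C.l2 * f g x)
      (fun x => C.L * C.t * ϖ x ^ 2 - C.l2 * f g x) ≤
      Real.exp (2 * δ * S x) * (8 * (C.L * C.t) ^ 2 * τ + 2 * C.l2 ^ 2 * F x) := by
    refine (h.base.le x hx _ s3).trans (mul_le_mul_of_nonneg_left ?_ (Real.exp_pos _).le)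
    have a1 := gam_sub_le (W.pt st0 x) s31 s32
    rw [gam_smul _ _ (Alg.pow hc.sϖ 2), gam_smul _ _ (hc.sf g)] at a1
    have a2 := gam_sq_le (W.pt st0 x) hc.sϖ (pow_le_one₀ (hc.ϖ0 _).1 (hc.ϖ0 _).2.1)
    have a3 := mul_le_mul_of_nonneg_left (a2.trans (mul_le_mul_of_nonneg_left g2 (by norm_num)))
      (sq_nonneg (C.L * C.t))
    have a4 := mul_le_mul_of_nonneg_left (g3 g) (sq_nonneg C.l2)
    linarith
  have t0 := (W.pt st x).nonneg sv
  have hcs := ((W.pt st x).cs sv s3).trans (mul_le_mul_of_nonneg_left hG t0)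
  have N1 : tot P x ≤ D * (2 * C.t) := sum_le_D hc.hD (by positivity) _ fun g => by
    linarith [h.hi g x, (hs.mem g x).2, mul_le_of_le_one_left ht.le C.hε1]
  have ϖ2 : ϖ x ^ 2 ≤ 1 := pow_le_one₀ (hc.ϖ0 _).1 (hc.ϖ0 _).2.1
  have ha : |-C.L * tot P x + (C.L * C.t * ϖ x ^ 2 - C.l2 * f g x)| ≤ C.am := by
    have a1 := mul_le_mul_of_nonneg_left N1 hL
    have a2 := mul_le_mul_of_nonneg_left ϖ2 (mul_nonneg hL ht.le)
    have a3 := mul_le_mul_of_nonneg_left (hc.f0 g x).2 hl2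
    have a4 := mul_nonneg hL (N0 x)
    have a5 := mul_nonneg (mul_nonneg hL ht.le) (sq_nonneg (ϖ x))
    have a6 := mul_nonneg hl2 (hc.f0 g x).1
    have a7 := mul_nonneg (mul_nonneg hL ht.le) D0
    have a8 := C.ham
    exact abs_le.2 ⟨by linarith, by linarith⟩
  have hnet := net (n := n) (W := √(1 + (W.pt st x).Γ v v)) (σ := sg C.ε W.om Ps g x)
    (j := C.ε * (2 * J x g + 8 * (cc ^ 2 * (Real.exp (2 * δ * Sm) * τ)) * Ps g x))
    (gN := (W.pt st x).Γ v (tot P)) (Real.one_le_sqrt.2 (by linarith))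
    (Real.sq_sqrt (by linarith)) hz rfl hu (hv x).1 ((hv x).2.trans C.hUm) (σm x).1
    (by linarith [(σm x).2, C.hUm, sq_nonneg C.u0]) ha C.h1 C.h2 hL C.h3 (by positivity) hcs
  rw [Real.sq_sqrt (by linarith)] at hnet
  rw [(W.pt st x).add_right (Alg.smul _ sN) s3 sv, (W.pt st x).smul_right _ sN sv] at hE
  -- the values
  have eY : Yv C.t ϖ (sg C.ε W.om Ps) (insert g s) (upd P g v) x =
      Yv C.t ϖ (sg C.ε W.om Ps) s P x + (v x ^ 2 / 4 - sg C.ε W.om Ps g x) / C.t := by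
    unfold Yv; rw [tot_upd, Finset.sum_insert hg]; ring
  have eM : Mv f (sg C.ε W.om Ps) (insert g s) (upd P g v) x =
      Mv f (sg C.ε W.om Ps) s P x + f g x * (v x ^ 2 / 4 - sg C.ε W.om Ps g x) := by
    unfold Mv; rw [sum_upd (fun g => f g x), Finset.sum_insert hg]; ring
  have htel := tele (k := C.L * C.t * (C.z / 32)) (x := tot P x / C.t - ϖ x ^ 2)
    (Y := Yv C.t ϖ (sg C.ε W.om Ps) s P x) (d := v x ^ 2 / 4 - sg C.ε W.om Ps g x) (ε := C.ε)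
    (D := D) (by positivity) ht (by
      have e : tot P x / C.t - ϖ x ^ 2 - Yv C.t ϖ (sg C.ε W.om Ps) s P x
          = (∑ g ∈ s, sg C.ε W.om Ps g x) / C.t := by unfold Yv; ring
      rw [e, abs_of_nonneg (div_nonneg (sum_sg hc hs s x).1 ht.le), div_le_iff₀ ht]
      linarith [(sum_sg hc hs s x).2])
    (abs_le.2 ⟨by linarith [(σm x).2, sq_nonneg (v x)], by linarith [(σm x).1, q1 x]⟩)
  have ea : 2 * (C.L * C.t * (C.z / 32)) * (tot P x / C.t - ϖ x ^ 2)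
      = 2 * (C.L * tot P x - C.L * C.t * ϖ x ^ 2) * (C.z / 32) := by field_simp
  rw [ea] at htel
  have hcost := cost_step (hs.rate x hx).1 hc.hδ (h.base.nnS x)
    (show 0 ≤ C.w * (v x ^ 2 / 4) from mul_nonneg C.hw0 (by positivity))
  have hrate : (n * C.z ^ 2 + 16 * (Real.exp (2 * δ * S x) *
      (8 * (C.L * C.t) ^ 2 * τ + 2 * C.l2 ^ 2 * F x)) / C.z) * (v x ^ 2 / 4) ≤
      cx x * (C.w * (v x ^ 2 / 4)) * Real.exp (2 * δ * S x) := by
    have a1 := mul_le_mul_of_nonneg_left (hs.rate x hx).2 (Real.exp_pos (2 * δ * S x)).le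
    have a2 := le_mul_of_one_le_left (mul_nonneg hc.hn (sq_nonneg C.z)) k1
    have a3 : n * C.z ^ 2 + 16 * (Real.exp (2 * δ * S x) *
        (8 * (C.L * C.t) ^ 2 * τ + 2 * C.l2 ^ 2 * F x)) / C.z ≤
        Real.exp (2 * δ * S x) * (cx x * C.w) := by
      refine le_trans ?_ a1
      generalize 8 * (C.L * C.t) ^ 2 * τ + 2 * C.l2 ^ 2 * F x = G0
      rw [mul_add, mul_div_assoc, mul_div_assoc, mul_div_assoc]
      linarith
    exact (mul_le_mul_of_nonneg_right a3 (by positivity)).trans_eq (by ring)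
  have htiny : 4 * C.u0 ^ 2 * (Real.exp (2 * δ * S x) *
      (8 * (C.L * C.t) ^ 2 * τ + 2 * C.l2 ^ 2 * F x)) / C.z ≤ 4 * C.u0 ^ 2 *
      (Real.exp (2 * δ * Sm) * (8 * (C.L * C.t) ^ 2 * τ + 2 * C.l2 ^ 2 * Fm)) / C.z := by
    refine div_le_div_of_nonneg_right (mul_le_mul_of_nonneg_left
      (mul_le_mul (eS x) ?_ G0 (Real.exp_pos _).le) (by positivity)) hz.le
    linarith [mul_le_mul_of_nonneg_left F1 (sq_nonneg C.l2)]
  have herr := C.err
  rw [sum_J hg, tot_upd, gam_new sv sN (H x hx).1, hp]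
  rw [Finset.card_insert_of_notMem hg, Nat.cast_add, Nat.cast_one] at c0 ⊢
  rw [eY, eM] at c0 ⊢
  have k2 : 1 ≤ Real.exp (C.z * v x ^ 2 / 2) := Real.one_le_exp (by positivity)
  exact fin_num k2 c0 hE (by linarith)

theorem round (hc : Ctx W δ D τ Fm st0 P0 f ϖ F) (hs : RStart W C ϖ F Ps Ss B cx)
    {st : W.St} {vs : List (W.Z → ℝ)} {J : W.Z → G → ℝ}
    (h : RInv W C st0 P0 f ϖ Ps Ss B cx ∅ st Ps Ss vs J) :
    ∃ st' P' S' vs' J', RInv W C st0 P0 f ϖ Ps Ss B cx Finset.univ st' P' S' vs' J' := by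
  generalize (Finset.univ : Finset G) = s
  induction s using Finset.induction_on with
  | empty => exact ⟨_, _, _, _, _, h⟩
  | insert g s hg ih =>
    obtain ⟨_, _, _, _, _, h'⟩ := ih
    exact rinv_step hc hs h' hg

end Crest.Agent.N228.A.GL

end
end

-- ▼ part N228/A/GL3
section

/-! # Row 228, part A*: the rounds of `GL` (helper89) -/

set_option autoImplicit false
set_option linter.dupNamespace false
open Filter Set

noncomputable section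

namespace Crest.Agent.N228.A.GL

open Crest.Agent.N222.A

/-- the global constants -/
structure GC (η δ D : ℝ) where
  (T W2 Wo lam il ρ e0 cm : ℝ)
  hT : 0 < T
  hη : 0 < η
  hδ1 : δ ≤ 1 / 100
  hW2 : 0 ≤ W2
  hWo : 0 < Wo
  hlam : 0 < lam
  hlam1 : lam ≤ 1
  hil : lam * il = 1
  hρ : 1 ≤ ρ
  hρ5 : ρ ^ 5 - ρ ≤ 5 * (ρ - 1)
  hρ2 : ρ ^ 5 ≤ 2
  hcm : η / 224 ≤ cm
  hcl : 112 * cm * lam ≤ η
  hWc : 4 * cm * Real.exp (2 * δ * (6 * D)) ≤ Wo
  hεD : (ρ ^ 5 - 1) * D ≤ lam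

/-- the coefficient of `|dN|²` -/
def GC.Lf {η δ D : ℝ} (K : GC η δ D) (ν : ℝ) : ℝ :=
  64 * K.Wo * K.il * (2 - ν) / (δ * K.T * K.ρ ^ 5 * ν ^ 8)

/-- the rate of the cost -/
def GC.cx {η δ D : ℝ} (K : GC η δ D) (ϖ : ℝ) : ℝ := if ϖ = 0 then K.cm else η / 224

theorem GC.il1 {η δ D : ℝ} (K : GC η δ D) : 1 ≤ K.il := by
  have h0 : 0 < K.il := (mul_pos_iff_of_pos_left K.hlam).1 (K.hil ▸ one_pos)
  nlinarith [K.hil, K.hlam1]

theorem GC.abs_le {η δ D : ℝ} (K : GC η δ D) (e : ℝ) : 2 * |e| ≤ 2 * K.lam + K.il * e ^ 2 := by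
  have h1 := K.il1
  have h2 : 0 ≤ K.il * (|e| - K.lam) ^ 2 := by positivity
  have h3 : K.il * (|e| - K.lam) ^ 2 = K.il * e ^ 2 - 2 * |e| + K.lam := by
    rw [← sq_abs e]; linear_combination (K.lam - 2 * |e|) * K.hil
  linarith [K.hlam]

theorem GC.cost_le {η δ D : ℝ} (K : GC η δ D) (hδ : 0 ≤ δ) {ϖ S r : ℝ} (h1 : ϖ ^ 2 ≤ 1)
    (hS : 0 ≤ S) (hSm : S ≤ 6 * D) (hr : 0 ≤ r) (h : S ≤ 7 * ϖ ^ 2 + 7 * K.lam + r) :
    cost (K.cx ϖ) δ S ≤ η / 4 + K.Wo * r / 2 := by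
  have hη := K.hη
  have c0 : 0 ≤ K.cx ϖ := by unfold GC.cx; split_ifs <;> linarith [K.hcm]
  have c1 : K.cx ϖ ≤ K.cm := by unfold GC.cx; split_ifs <;> linarith [K.hcm]
  refine GL.cost_le (α := 7 * ϖ ^ 2 + 7 * K.lam) (Wo := K.Wo) c0 hδ K.hδ1 hS hSm
    (by linarith [K.hlam1]) hη.le ?_ K.hWo ?_ (mul_nonneg K.hWo.le hr) ?_
  · unfold GC.cx
    split_ifs with h0
    · rw [h0]; linarith [K.hcl]
    · nlinarith [K.hlam1]
  · linarith [K.hWc, mul_le_mul_of_nonneg_right c1 (Real.exp_pos (2 * δ * (6 * D))).le]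
  · rw [mul_div_cancel_left₀ _ K.hWo.ne']; exact h

variable {n : ℝ} {G : Type} [Fintype G] [DecidableEq G] {W : Wd n} {η δ D τ Fm Bw : ℝ}
  {st0 : W.St} {P0 f : G → W.Z → ℝ} {ϖ F : W.Z → ℝ}

/-- the invariant between two rounds -/
structure OInv (W : Wd n) (K : GC η δ D) (Bw : ℝ) (st0 : W.St) (P0 f : G → W.Z → ℝ) (ϖ : W.Z → ℝ)
    (ν k : ℝ) (st : W.St) (P : G → W.Z → ℝ) (S : W.Z → ℝ) (vs : List (W.Z → ℝ))
    (J : W.Z → G → ℝ) : Prop where
  base : Base W δ Bw st0 P0 st P S vs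
  hP : ∀ g x, P g x ≤ K.T * (K.ρ * ν) ^ 5
  hS : ∀ x, S x ≤ 6 * D * (K.ρ * ν)
  hJ : ∀ x ∈ W.L, ∀ g, 0 ≤ J x g ∧ (W.pt st x).Γ (P g) (P g) ≤ J x g * P g x
  pot : ∀ x ∈ W.L, ∃ h, 0 ≤ h ∧
    S x - 1 / (K.T * ν ^ 4) * tot P x ≤ 5 * (ϖ x ^ 2 + K.lam) * ν + h ∧
    W.E st0 x - η / 4 - k + K.Wo * h
      + 2 * K.Wo * K.il * (2 - ν) * (tot P x / (K.T * (K.ρ * ν) ^ 5) - ϖ x ^ 2) ^ 2
      + K.W2 * ((∑ g, f g x * P g x) / (K.T * (K.ρ * ν) ^ 5)) - cost (K.cx (ϖ x)) δ (S x) ≤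
    W.E st x - δ / (K.T * ν ^ 2) / 4 * ∑ g, J x g - K.Lf ν * (W.pt st x).Γ (tot P) (tot P)

/-- the constants of the round `μ = ρ ν` -/
structure Fit (n : ℝ) (K : GC η δ D) (C : RC δ D τ Fm (6 * D) Bw) (Fa Fb ν : ℝ) : Prop where
  t : C.t = K.T * (K.ρ * ν) ^ 5
  z : C.z = δ / (K.T * (K.ρ * ν) ^ 2)
  A0 : C.A0 = δ / (K.T * ν ^ 2) / 4
  L : C.L = K.Lf (K.ρ * ν)
  l2 : C.l2 * (C.z / 16) * C.t * K.ρ ^ 5 = K.W2
  ε : C.ε = K.ρ ^ 5 - 1
  w : C.w = 1 / (K.T * (K.ρ * ν) ^ 4)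
  e0 : C.e0 = K.e0
  ra : n * C.z ^ 2 + 16 * (8 * (C.L * C.t) ^ 2 * τ + 2 * C.l2 ^ 2 * Fa) / C.z ≤ η / 224 * C.w
  rb : n * C.z ^ 2 + 16 * (8 * (C.L * C.t) ^ 2 * τ + 2 * C.l2 ^ 2 * Fb) / C.z ≤ K.cm * C.w

theorem GC.Lf_anti (K : GC η δ D) (hδ : 0 < δ) {ν μ : ℝ} (hν : 0 < ν) (h : ν ≤ μ) (h1 : μ ≤ 1) :
    K.Lf μ ≤ K.Lf ν := by
  have := K.hT
  have := K.hWo
  have := K.il1
  have := K.hρ
  unfold GC.Lf
  refine div_le_div₀ (mul_nonneg (by positivity) (by linarith))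
    (mul_le_mul_of_nonneg_left (by linarith) (by positivity)) (by positivity) ?_
  exact mul_le_mul_of_nonneg_left (pow_le_pow_left₀ hν.le h 8) (by positivity)

theorem oround (hc : Ctx W δ D τ Fm st0 P0 f ϖ F) (K : GC η δ D) (hδ : 0 < δ)
    {C : RC δ D τ Fm (6 * D) Bw} {Fa Fb ν k : ℝ} (hC : Fit n K C Fa Fb ν) (hν : 0 < ν)
    (hν1 : K.ρ * (K.ρ * ν) ≤ 1) (hF : ∀ x, F x = if ϖ x = 0 then Fb else Fa)
    (hE : ∀ x ∈ W.L, 2 * η ≤ W.E st0 x) (hk : k + K.e0 * D ≤ η / 4) {st : W.St}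
    {P : G → W.Z → ℝ} {S : W.Z → ℝ} {vs : List (W.Z → ℝ)} {J : W.Z → G → ℝ}
    (h : OInv W K Bw st0 P0 f ϖ ν k st P S vs J) :
    ∃ st' P' S' vs' J', OInv W K Bw st0 P0 f ϖ (K.ρ * ν) (k + K.e0 * D) st' P' S' vs' J' := by
  obtain ⟨μ, hμ⟩ : ∃ μ, μ = K.ρ * ν := ⟨_, rfl⟩
  have hT := K.hT
  have hρ := K.hρ
  have hWo := K.hWo
  have il1 := K.il1
  have hlam := K.hlam
  have hη := K.hη
  have νμ : ν ≤ μ := hμ ▸ le_mul_of_one_le_left hν.le hρ
  have μ0 : 0 < μ := hν.trans_le νμ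
  rw [← hμ] at hν1
  have μ1 : μ ≤ 1 := (le_mul_of_one_le_left μ0.le hρ).trans hν1
  have D0 : 0 ≤ D := (Nat.cast_nonneg _).trans hc.hD
  have ht := C.ht
  have hε := C.hε
  have et : C.t = K.T * μ ^ 5 := hμ ▸ hC.t
  have ew : C.w = 1 / (K.T * μ ^ 4) := hμ ▸ hC.w
  have eε : 1 + C.ε = K.ρ ^ 5 := by rw [hC.ε]; ring
  have wt : C.w * C.t = μ := by rw [ew, et]; field_simp
  have et' : K.T * (K.ρ * μ) ^ 5 = (1 + C.ε) * C.t := by rw [eε, et]; ring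
  obtain ⟨w', hw'⟩ : ∃ w', w' = C.L * C.t * (C.z / 32) * C.t := ⟨_, rfl⟩
  have ew' : w' * (1 + C.ε) = 2 * K.Wo * K.il * (2 - μ) := by
    rw [hw', eε, hC.L, hC.z, et, ← hμ, GC.Lf]; field_simp; ring
  have w0 : 0 ≤ w' := by have := C.hL; have := C.hz; rw [hw']; positivity
  have w1 : K.Wo * K.il ≤ w' := by
    have a1 := mul_le_mul_of_nonneg_left (eε ▸ K.hρ2 : 1 + C.ε ≤ 2) w0
    have a2 := mul_le_mul_of_nonneg_left μ1 (show 0 ≤ 2 * K.Wo * K.il by positivity)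
    linarith
  obtain ⟨u, hu⟩ : ∃ u, u = C.l2 * (C.z / 16) := ⟨_, rfl⟩
  have eu : u * ((1 + C.ε) * C.t) = K.W2 := by rw [← hC.l2, hu, eε]; ring
  have u0 : 0 ≤ u := by have := C.hl2; have := C.hz; rw [hu]; positivity
  have P0' : ∀ g x, 0 ≤ P g x := fun g x => (hc.n0 g x).trans (h.base.ge g x)
  have N0 : ∀ x, 0 ≤ tot P x := fun x => Finset.sum_nonneg fun g _ => P0' g x
  have M0 : ∀ x, 0 ≤ ∑ g, f g x * P g x := fun x =>
    Finset.sum_nonneg fun g _ => mul_nonneg (hc.f0 g x).1 (P0' g x)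
  have ϖ2 : ∀ x, ϖ x ^ 2 ≤ 1 := fun x => pow_le_one₀ (hc.ϖ0 _).1 (hc.ϖ0 _).2.1
  have ε6 : C.ε * μ ≤ 6 * (K.ρ * μ - μ) := by
    have : C.ε ≤ 6 * (K.ρ - 1) := by linarith [K.hρ5]
    linarith [mul_le_mul_of_nonneg_right this μ0.le]
  have hSS : ∀ x, S x + C.w * (D * (C.ε * C.t)) ≤ 6 * D * (K.ρ * μ) := fun x => by
    have a1 := h.hS x
    have a2 := mul_le_mul_of_nonneg_left ε6 D0
    have a3 : C.w * (D * (C.ε * C.t)) = D * (C.ε * μ) := by rw [← wt]; ring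
    rw [← hμ] at a1
    linarith
  choose! hh h0 hK hpot using h.pot
  rw [← hμ, ← et] at hpot
  obtain ⟨e, he⟩ : ∃ e : W.Z → ℝ, e = fun x => tot P x / C.t - ϖ x ^ 2 := ⟨_, rfl⟩
  have eN : ∀ x, tot P x = C.t * (e x + ϖ x ^ 2) := fun x => by rw [he]; field_simp; ring
  obtain ⟨hp, hhp⟩ : ∃ hp : W.Z → ℝ, hp = fun x => hh x + 2 * K.il * (μ - ν) * e x ^ 2 := ⟨_, rfl⟩
  have hp0 : ∀ x ∈ W.L, 0 ≤ hp x := fun x hx => by
    rw [hhp]; exact add_nonneg (h0 x hx) (mul_nonneg (mul_nonneg (by linarith) (by linarith))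
      (sq_nonneg _))
  have hK' : ∀ x ∈ W.L, S x - C.w * tot P x ≤ 5 * (ϖ x ^ 2 + K.lam) * μ + hp x := fun x hx => by
    have a1 : (1 / (K.T * ν ^ 4) - C.w) * C.t = (K.ρ ^ 5 - K.ρ) * ν := by
      rw [sub_mul, wt, et, hμ]; field_simp
    have a2 : (K.ρ ^ 5 - K.ρ) * ν ≤ 5 * (μ - ν) := by
      rw [hμ]; linarith [mul_le_mul_of_nonneg_right K.hρ5 hν.le]
    have a3 : 0 ≤ e x + ϖ x ^ 2 := by rw [he]; simpa using div_nonneg (N0 x) ht.le
    have a4 : 5 * (e x + ϖ x ^ 2) ≤ 5 * (ϖ x ^ 2 + K.lam) + 2 * K.il * e x ^ 2 := by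
      have b1 : 0 ≤ K.il * (e x - 2 * K.lam) ^ 2 := by positivity
      have b2 : K.il * (e x - 2 * K.lam) ^ 2 = K.il * e x ^ 2 - 4 * e x + 4 * K.lam := by
        linear_combination (4 * K.lam - 4 * e x) * K.hil
      have b3 : 0 ≤ K.il * e x ^ 2 := by positivity
      linarith
    have a5 := mul_le_mul_of_nonneg_right a2 a3
    have a6 := mul_le_mul_of_nonneg_left a4 (sub_nonneg.2 νμ)
    have a7 : (1 / (K.T * ν ^ 4) - C.w) * tot P x = (K.ρ ^ 5 - K.ρ) * ν * (e x + ϖ x ^ 2) := by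
      rw [eN, ← mul_assoc, a1]
    have a8 := hK x hx
    rw [hhp]
    linarith
  have hs : RStart W C ϖ F P S (fun x => W.E st0 x - η / 4 - k + K.Wo * hp x + w' * C.ε * e x ^ 2
      + u * (C.ε * ∑ g, f g x * P g x)) fun x => K.cx (ϖ x) := by
    refine ⟨h.base.smP, fun g x => ⟨P0' g x, by rw [et, hμ]; exact h.hP g x⟩,
      fun x => (hSS x).trans (mul_le_of_le_one_right (by linarith) hν1), fun x _ => ?_,
      fun x hx Y S' S0 S1 S2 => ?_⟩
    · rw [hF x]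
      unfold GC.cx
      split_ifs
      · exact ⟨by linarith [K.hcm], hC.rb⟩
      · exact ⟨by linarith, hC.ra⟩
    · have a1 := hK' x hx
      have a2 : μ * Y ≤ |Y| := (mul_le_mul_of_nonneg_left (le_abs_self Y) μ0.le).trans
        (mul_le_of_le_one_left (abs_nonneg _) μ1)
      have a3 := K.abs_le Y
      have a4 : μ * (ϖ x ^ 2 + C.ε * D) ≤ ϖ x ^ 2 + C.ε * D :=
        mul_le_of_le_one_left (by positivity) μ1
      have a5 : C.ε * D ≤ K.lam := hC.ε ▸ K.hεD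
      have a6 : 5 * (ϖ x ^ 2 + K.lam) * μ ≤ 5 * (ϖ x ^ 2 + K.lam) :=
        mul_le_of_le_one_right (by positivity) μ1
      have a7 : 0 ≤ K.il * Y ^ 2 := by positivity
      rw [wt] at S2
      have a8 := K.cost_le hδ.le (ϖ2 x) S0 S1 (add_nonneg (hp0 x hx) a7)
        (by linarith [sq_nonneg (ϖ x)])
      have a9 := mul_le_mul_of_nonneg_right w1 (sq_nonneg Y)
      have b1 := mul_nonneg hWo.le (hp0 x hx)
      have b2 := mul_nonneg hWo.le a7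
      have b3 : 0 ≤ w' * C.ε * e x ^ 2 := by positivity
      have b4 : 0 ≤ u * (C.ε * ∑ g, f g x * P g x) := by
        have := M0 x; positivity
      have b5 := hE x hx
      rw [hC.e0, ← hw']
      linarith
  obtain ⟨st', P', S', vs', J', h'⟩ := round hc hs (st := st) (vs := vs) (J := J)
    ⟨h.base, fun _ _ => rfl, fun _ _ => le_rfl,
      fun _ _ => le_add_of_nonneg_right (mul_nonneg hε ht.le), fun _ => rfl, h.hJ, fun x hx => by
      have a1 := hpot x hx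
      have a2 := mul_le_mul_of_nonneg_right (K.Lf_anti hδ hν νμ μ1) ((W.pt st x).nonneg
        (show W.A.Sm (tot P) from Alg.sum _ fun g _ => h.base.smP g))
      have a3 : K.W2 * ((∑ g, f g x * P g x) / C.t) = u * (1 + C.ε) * ∑ g, f g x * P g x := by
        rw [← eu]; field_simp
      have a4 : tot P x / C.t - ϖ x ^ 2 = e x := by rw [he]
      have a5 := congrArg (· * e x ^ 2) ew'
      simp only [Yv, Mv, Finset.sum_empty, sub_zero, Finset.notMem_empty, if_false,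
        Finset.card_empty, Nat.cast_zero, mul_zero]
      rw [a3, a4] at a1
      rw [a4, ← hw', ← hu, ← Finset.mul_sum, hC.A0, hC.L, ← hμ, hhp]
      linarith⟩
  have hN : ∀ x, tot P x ≤ tot P' x := fun x => Finset.sum_le_sum fun g _ => h'.lo g x
  refine ⟨st', P', S', vs', J', hμ ▸ ⟨h'.base, fun g x => ?_, fun x => ?_, h'.hJ, fun x hx =>
    ⟨hp x, hp0 x hx, ?_, ?_⟩⟩⟩
  · have := h.hP g x
    rw [← hμ, ← et] at this
    rw [et']; linarith [h'.hi g x]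
  · have a1 := sum_le_D hc.hD (mul_nonneg hε ht.le) Finset.univ
      (a := fun g => P' g x - P g x) fun g => by linarith [h'.hi g x]
    rw [Finset.sum_sub_distrib] at a1
    have a2 := mul_le_mul_of_nonneg_left a1 C.hw0
    have a3 := h'.K x
    unfold tot at a3
    linarith [hSS x]
  · rw [← ew, h'.K x]; exact hK' x hx
  · have a1 := h'.pot x hx
    simp only [Finset.mem_univ, if_true, Finset.card_univ] at a1
    rw [← hw', ← hu, ← Finset.mul_sum, hC.z, hC.L, hC.e0, ← hμ] at a1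
    obtain ⟨e', he'⟩ : ∃ e', e' = tot P' x / ((1 + C.ε) * C.t) - ϖ x ^ 2 := ⟨_, rfl⟩
    have a2 : (1 + C.ε) * e' - C.ε * e x = (tot P' x - C.ε * tot P x) / C.t - ϖ x ^ 2 := by
      rw [he', he]; field_simp; ring
    have a3 : ((1 + C.ε) * e' - C.ε * e x) ^ 2 ≤
        Yv C.t ϖ (sg C.ε W.om P) Finset.univ P' x ^ 2 := by
      rw [a2]
      unfold Yv
      by_cases h0 : ϖ x = 0
      · have b1 : ∑ g, sg C.ε W.om P g x ≤ C.ε * tot P x := by
          rw [tot, Finset.mul_sum]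
          exact Finset.sum_le_sum fun g _ => (sg_mem hε _ (P0' g x)).2
        have b2 := mul_le_of_le_one_left (N0 x) C.hε1
        simp only [h0, ne_eq, OfNat.ofNat_ne_zero, not_false_eq_true, zero_pow, sub_zero]
        exact pow_le_pow_left₀ (div_nonneg (by linarith [hN x]) ht.le)
          (div_le_div_of_nonneg_right (by linarith) ht.le) 2
      · have b1 : ∑ g, sg C.ε W.om P g x = C.ε * tot P x := by
          rw [tot, Finset.mul_sum]
          refine Finset.sum_congr rfl fun g _ => ?_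
          rw [sg, cut_one (by linarith [(hc.ϖ0 x).2.2 h0])]; ring
        rw [b1]
    have a4 := round_sq (e x) e' w0 hε
    have a5 := mul_le_mul_of_nonneg_left a3 w0
    have a6 : ∑ g, f g x * P' g x - C.ε * ∑ g, f g x * P g x ≤
        Mv f (sg C.ε W.om P) Finset.univ P' x := by
      rw [Mv, Finset.mul_sum]
      refine sub_le_sub_left (Finset.sum_le_sum fun g _ => ?_) _
      linarith [mul_le_mul_of_nonneg_left (sg_mem hε W.om (P0' g x)).2 (hc.f0 g x).1]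
    have a7 := mul_le_mul_of_nonneg_left a6 u0
    have a8 : K.W2 * ((∑ g, f g x * P' g x) / ((1 + C.ε) * C.t)) = u * ∑ g, f g x * P' g x := by
      rw [← eu]; field_simp
    have a9 := mul_le_mul_of_nonneg_left hc.hD (hC.e0 ▸ C.he0)
    rw [ew'] at a4
    rw [et', ← he', a8]
    linarith

end Crest.Agent.N228.A.GL

end
end

-- ▼ part N228/A/GL4
section

/-! # Row 228, part A*: start, end and constants of `GL` (helper89) -/

set_option autoImplicit false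
set_option linter.dupNamespace false
open Filter Set Topology

noncomputable section

namespace Crest.Agent.N228.A.GL

open Crest.Agent.N222.A

/-- a positive function which is the identity near `1` -/
def nrm (s : ℝ) : ℝ := s + cut (1 - 2 * s)

theorem le_nrm (s : ℝ) : s ≤ nrm s := le_add_of_nonneg_right (cut_nonneg _)

theorem nrm_pos {s : ℝ} (h : 0 ≤ s) : 0 < nrm s := by
  rcases h.eq_or_lt with rfl | h
  · simp [nrm, cut_one]
  · exact h.trans_le (le_nrm s)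

theorem nrm_one : nrm 1 = 1 := by rw [nrm, cut_zero (by norm_num)]; ring

theorem hasDerivAt_nrm : HasDerivAt nrm 1 1 := by
  have h := (hasDerivAt_id (1 : ℝ)).add ((hasDerivAt_cut (1 - 2 * 1)).comp (1 : ℝ)
    (((hasDerivAt_id (1 : ℝ)).const_mul 2).const_sub 1))
  rw [cut_deriv_zero (Or.inl (by norm_num))] at h
  exact h.congr_deriv (by simp)

variable {G : Type} [Fintype G]

/-- the initial masses -/
theorem exists_P0 {Z : Type} {A : Alg Z} {χ : G → Z → ℝ} {ϖ : Z → ℝ} {t : ℝ} (ht : 0 ≤ t)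
    (sχ : ∀ g, A.Sm (χ g)) (χ0 : ∀ g x, 0 ≤ χ g x) (sϖ : A.Sm ϖ) (ϖ1 : ∀ x, ϖ x ^ 2 ≤ 1) :
    ∃ P : G → Z → ℝ, (∀ g, A.Sm (P g)) ∧
      (∀ g x, 0 ≤ P g x ∧ P g x ≤ t ∧ (ϖ x = 0 ∨ χ g x = 0 → P g x = 0)) ∧
      ∀ (T : Pt A) (K τ : ℝ), 0 ≤ K → T.Γ ϖ ϖ ≤ τ → (ϖ T.p ≠ 0 → ∑ g, χ g T.p = 1 ∧ T.Fi χ K) →
        tot P T.p = t * ϖ T.p ^ 2 ∧ T.Fi P (t * (8 * K + 8 * τ)) ∧
          T.Γ (tot P) (tot P) ≤ t ^ 2 * (8 * τ) := by
  have sN : A.Sm (tot χ) := Alg.sum _ fun g _ => sχ g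
  have N0 : ∀ x, 0 ≤ tot χ x := fun x => Finset.sum_nonneg fun g _ => χ0 g x
  have sS : A.Sm fun x => nrm (tot χ x) :=
    A.add sN (Alg.cut (Alg.const_sub 1 (Alg.smul 2 sN)))
  have S0 : ∀ x, 0 < nrm (tot χ x) := fun x => nrm_pos (N0 x)
  have sQ : ∀ g, A.Sm fun x => χ g x * (nrm (tot χ x))⁻¹ := fun g => A.mul (sχ g) (Alg.inv sS S0)
  have Q0 : ∀ g x, 0 ≤ χ g x * (nrm (tot χ x))⁻¹ := fun g x =>
    mul_nonneg (χ0 g x) (inv_nonneg.2 (S0 x).le)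
  have s2 := Alg.pow sϖ 2
  have sψ : A.Sm fun x => tot χ x * (nrm (tot χ x))⁻¹ := A.mul sN (Alg.inv sS S0)
  refine ⟨fun g x => t * (ϖ x ^ 2 * (χ g x * (nrm (tot χ x))⁻¹)),
    fun g => Alg.smul t (A.mul s2 (sQ g)), fun g x => ⟨mul_nonneg ht (mul_nonneg (sq_nonneg _)
      (Q0 g x)), mul_le_of_le_one_right ht (mul_le_one₀ (ϖ1 x) (Q0 g x) ?_), ?_⟩,
    fun T K τ hK hτ h => ?_⟩
  · rw [← div_eq_mul_inv, div_le_one (S0 x)]
    exact (Finset.single_le_sum (f := fun g => χ g x) (fun g _ => χ0 g x)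
      (Finset.mem_univ g)).trans (le_nrm _)
  · rintro (h | h) <;> simp [h]
  have e : (tot fun g x => t * (ϖ x ^ 2 * (χ g x * (nrm (tot χ x))⁻¹))) =
      fun x => t * (ϖ x ^ 2 * (tot χ x * (nrm (tot χ x))⁻¹)) := by
    funext x
    simp only [tot, Finset.mul_sum, Finset.sum_mul]
  have τ0 : 0 ≤ τ := (T.nonneg sϖ).trans hτ
  have g2 := T.chain_self (φ := fun t => t ^ 2) sϖ s2 (by simpa using hasDerivAt_pow 2 (ϖ T.p))
  have gN := T.mul_self_le s2 sψ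
  rw [e, gam_smul T t (A.mul s2 sψ)]
  by_cases h0 : ϖ T.p = 0
  · refine ⟨by simp [h0], ⟨fun _ => 0, fun g => ⟨le_rfl, ?_⟩, by simp; positivity⟩,
      mul_le_mul_of_nonneg_left ?_ (sq_nonneg t)⟩
    · have := T.mul_self_le s2 (sQ g)
      rw [gam_smul T t (A.mul s2 (sQ g)), zero_mul]
      rw [g2, h0] at this
      exact mul_nonpos_of_nonneg_of_nonpos (sq_nonneg t) (by linarith)
    · rw [g2, h0] at gN
      linarith
  obtain ⟨h1, h2⟩ := h h0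
  have h1' : tot χ T.p = 1 := h1
  refine ⟨by simp [h1', nrm_one], ?_, mul_le_mul_of_nonneg_left ?_ (sq_nonneg t)⟩
  · have f1 := h2.norm sχ (fun g => χ0 g _) sS S0 (le_nrm _) (by
      rw [T.chain_self (φ := nrm) (c := 1) sN sS (by rw [h1']; exact hasDerivAt_nrm), one_pow,
        one_mul]
      exact h2.total sχ fun g => χ0 g _)
    have f2 := f1.mul_sq sQ (fun g => Q0 g _) (w := fun _ => ϖ) (fun _ => sϖ) zero_le_one
      (fun _ => ϖ1 _) τ0 fun _ _ => hτ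
    rw [← Finset.sum_mul, h1, h1', nrm_one] at f2
    obtain ⟨j, hj, hs⟩ := f2
    refine ⟨fun g => t * j g, fun g => ⟨mul_nonneg ht (hj g).1, ?_⟩, ?_⟩
    · rw [gam_smul T t (A.mul s2 (sQ g))]
      linarith [mul_le_mul_of_nonneg_left (hj g).2 (sq_nonneg t)]
    · rw [← Finset.mul_sum]
      exact mul_le_mul_of_nonneg_left (hs.trans_eq (by ring)) ht
  · have d : HasDerivAt (fun s => s * (nrm s)⁻¹) 0 (tot χ T.p) := by
      have := (hasDerivAt_id (1 : ℝ)).mul (hasDerivAt_nrm.inv (by rw [nrm_one]; norm_num))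
      rw [h1']
      exact this.congr_deriv (by simp [nrm_one])
    rw [T.chain_self (φ := fun s => s * (nrm s)⁻¹) sN sψ d, h1', nrm_one] at gN
    linarith [gam_sq_le T sϖ (ϖ1 _)]

variable {n : ℝ} [DecidableEq G] {W : Wd n} {η δ D τ Fm Bw : ℝ} {st0 : W.St}
  {P0 f : G → W.Z → ℝ} {ϖ F : W.Z → ℝ}

omit [DecidableEq G] in
theorem ostart (hc : Ctx W δ D τ Fm st0 P0 f ϖ F) (K : GC η δ D) (hδ : 0 < δ) {ν I : ℝ}
    (hν : 0 < ν) (hP : ∀ g x, P0 g x ≤ K.T * (K.ρ * ν) ^ 5)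
    (out : ∀ g x, ϖ x = 0 → P0 g x = 0)
    (h : ∀ x ∈ W.L, tot P0 x = K.T * (K.ρ * ν) ^ 5 * ϖ x ^ 2 ∧ (W.pt st0 x).Fi P0 I ∧
      K.Lf ν * (W.pt st0 x).Γ (tot P0) (tot P0) ≤ η / 8 ∧ ∀ g, f g x * P0 g x = 0)
    (hI : δ / (K.T * ν ^ 2) / 4 * I ≤ η / 8) :
    ∃ J, OInv W K Bw st0 P0 f ϖ ν 0 st0 P0 (fun _ => 0) [] J := by
  have hT := K.hT
  have hρ := K.hρ
  have hlam := K.hlam
  have D0 : 0 ≤ D := (Nat.cast_nonneg _).trans hc.hD
  choose! J hJ hs using fun x hx => (h x hx).2.1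
  refine ⟨J, ⟨W.R_refl _, hc.s0, W.A.const 0, fun _ _ => le_rfl, fun _ => le_rfl,
    fun x hx => ⟨rfl, fun g => out g x ?_⟩, by simp, fun T => ?_, fun T => ?_, fun x _ f _ => by simp,
    fun x _ => Bd.nil _ (Real.exp_pos _).le⟩, hP, fun _ => by positivity,
    fun x hx g => by simpa only [W.pt_p] using hJ x hx g, fun x hx => ⟨0, le_rfl, ?_, ?_⟩⟩
  · by_contra h0
    linarith [(hc.ϖ0 x).2.2 h0]
  · exact ⟨fun _ => 0, fun _ => ⟨le_rfl, by simp [T.const_left 0 (W.A.const 0)]⟩, by simp [Pt.bud]⟩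
  · simp [T.const_left 0 (W.A.const 0)]
  · have a1 : 0 ≤ 1 / (K.T * ν ^ 4) * tot P0 x := by rw [(h x hx).1]; positivity
    have a2 : 0 ≤ 5 * (ϖ x ^ 2 + K.lam) * ν := by positivity
    linarith
  · have a1 := mul_le_mul_of_nonneg_left (hs x hx)
      (show 0 ≤ δ / (K.T * ν ^ 2) / 4 by positivity)
    rw [(h x hx).1, mul_div_cancel_left₀ _ (by positivity)]
    simp only [(h x hx).2.2.2, cost, Finset.sum_const_zero, zero_div, mul_zero, zero_mul, sub_self]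
    linarith [(h x hx).2.2.1]

omit [DecidableEq G] in
theorem oend (hc : Ctx W δ D τ Fm st0 P0 f ϖ F) (K : GC η δ D) (hδ : 0 < δ) {ν k : ℝ}
    (hν : K.ρ * ν = 1) (hk : k ≤ η / 4) {st : W.St} {P : G → W.Z → ℝ} {S : W.Z → ℝ}
    {vs : List (W.Z → ℝ)} {J : W.Z → G → ℝ} (h : OInv W K Bw st0 P0 f ϖ ν k st P S vs J)
    {x : W.Z} (hx : x ∈ W.L) : ∃ r, (tot P x / K.T - ϖ x ^ 2) ^ 2 ≤ r ∧ S x ≤ 14 + r ∧
      W.E st0 x - 3 / 4 * η + K.Wo * r / 2 + K.W2 * ((∑ g, f g x * P g x) / K.T) ≤ W.E st x := by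
  have hT := K.hT
  have hρ := K.hρ
  have il1 := K.il1
  have hWo := K.hWo
  have hlam := K.hlam
  have ν0 : 0 < ν := (mul_pos_iff_of_pos_left (by linarith)).1 (hν ▸ one_pos)
  have ν1 : ν ≤ 1 := hν ▸ le_mul_of_one_le_left ν0.le hρ
  obtain ⟨hh, h0, h1, h2⟩ := h.pot x hx
  have hS := h.hS x
  rw [hν, one_pow, mul_one] at h2
  rw [hν, mul_one] at hS
  obtain ⟨e, he⟩ : ∃ e, e = tot P x / K.T - ϖ x ^ 2 := ⟨_, rfl⟩
  rw [← he] at h2 ⊢
  have ϖ2 : ϖ x ^ 2 ≤ 1 := pow_le_one₀ (hc.ϖ0 _).1 (hc.ϖ0 _).2.1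
  have N0 : 0 ≤ tot P x := Finset.sum_nonneg fun g _ => (hc.n0 g x).trans (h.base.ge g x)
  have a1 : 1 / (K.T * ν ^ 4) * tot P x = K.ρ ^ 4 * (e + ϖ x ^ 2) := by
    have : ν = K.ρ⁻¹ := eq_inv_of_mul_eq_one_right hν
    rw [he, this]; field_simp; ring
  have a2 : K.ρ ^ 4 * (e + ϖ x ^ 2) ≤ 2 * (e + ϖ x ^ 2) :=
    mul_le_mul_of_nonneg_right ((pow_le_pow_right₀ hρ (by norm_num)).trans K.hρ2)
      (by rw [he]; simpa using div_nonneg N0 hT.le)
  have a3 := K.abs_le e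
  have a4 : 5 * (ϖ x ^ 2 + K.lam) * ν ≤ 5 * (ϖ x ^ 2 + K.lam) :=
    mul_le_of_le_one_right (by positivity) ν1
  have a5 : 0 ≤ K.il * e ^ 2 := by positivity
  have a6 : S x ≤ 7 * ϖ x ^ 2 + 7 * K.lam + (hh + K.il * e ^ 2) := by linarith [le_abs_self e]
  have a7 := K.cost_le hδ.le ϖ2 (h.base.nnS x) hS (add_nonneg h0 a5) a6
  have a8 : 0 ≤ δ / (K.T * ν ^ 2) / 4 * ∑ g, J x g :=
    mul_nonneg (by positivity) (Finset.sum_nonneg fun g _ => (h.hJ x hx g).1)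
  have a9 : 0 ≤ K.Lf ν * (W.pt st x).Γ (tot P) (tot P) := by
    refine mul_nonneg ?_ ((W.pt st x).nonneg (Alg.sum _ fun g _ => h.base.smP g))
    exact div_nonneg (mul_nonneg (by positivity) (by linarith)) (by positivity)
  have b1 := mul_le_mul_of_nonneg_left ν1 (mul_nonneg hWo.le a5)
  have b2 := mul_nonneg hWo.le a5
  refine ⟨hh + K.il * e ^ 2, ?_, by linarith [K.hlam1], by linarith⟩
  linarith [le_mul_of_one_le_left (sq_nonneg e) il1]

theorem small (a b : ℝ) {c : ℝ} (hc : 0 < c) : ∀ᶠ u in 𝓝 (0 : ℝ), u * a + u ^ 2 * b ≤ c := by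
  have : Continuous fun u : ℝ => u * a + u ^ 2 * b := by fun_prop
  exact (this.continuousAt.eventually_lt continuousAt_const (by simpa using hc)).mono
    fun _ h => h.le

theorem small1 (a : ℝ) {c : ℝ} (hc : 0 < c) : ∀ᶠ u in 𝓝 (0 : ℝ), a * u ≤ c :=
  (small a 0 hc).mono fun u h => by linarith

theorem exists_pos {p : ℝ → Prop} (h : ∀ᶠ u in 𝓝 (0 : ℝ), p u) : ∃ u, 0 < u ∧ p u :=
  ((h.filter_mono nhdsWithin_le_nhds : ∀ᶠ u in 𝓝[>] (0 : ℝ), p u).and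
    self_mem_nhdsWithin).exists.imp fun _ h => ⟨h.2, h.1⟩

theorem exists_fit (K : GC η δ D) {B0 Lm am Fa Fb ν : ℝ} (hδ : 0 < δ) (D0 : 0 ≤ D) (hτ : 0 ≤ τ)
    (hρ : 1 < K.ρ) (he0 : 0 < K.e0) (hν : 0 < ν) (hB : 1 ≤ B0 * ν) (hν1 : K.ρ * ν ≤ 1)
    (hBw : Bw = B0 ^ 4 / K.T) (hLm : Lm = 128 * K.Wo * K.il * B0 ^ 8 / (δ * K.T))
    (ham : am = Lm * K.T * (2 * D + 1) + 16 * K.W2 * B0 ^ 3 / δ)
    (H1 : am ^ 2 * (5 * K.T) * (K.ρ ^ 5 - 1) ≤ δ / K.T / 8)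
    (H2 : am * (5 * K.T) * (K.ρ ^ 5 - 1) ≤ 1 / 8)
    (H3 : Lm * (5 * K.T) * (K.ρ ^ 5 - 1) ≤ δ / K.T / 4)
    (H4 : 4 * K.Wo * K.il * (K.ρ ^ 5 - 1) ^ 2 * (2 * D + 1) ≤ K.e0 / 4)
    (T1 : cw * Real.exp (2 * δ * (6 * D)) * τ ≤ δ / K.T / 32)
    (T2 : δ * B0 ^ 2 * cc ^ 2 * Real.exp (2 * δ * (6 * D)) * τ ≤ K.e0)
    (T3 : 128 * (Lm * K.T) ^ 2 / (δ / K.T) * τ ≤ η / 672 / K.T)
    (hn : n * δ ^ 2 / K.T ≤ η / 672) (Fa0 : 0 ≤ Fa) (Fb0 : 0 ≤ Fb)
    (hFa : 8192 * K.W2 ^ 2 * K.T ^ 2 * Fa / δ ^ 3 ≤ η / 672)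
    (hFb : η / 224 + 8192 * K.W2 ^ 2 * K.T ^ 2 * Fb / δ ^ 3 ≤ K.cm) :
    ∃ C : RC δ D τ Fm (6 * D) Bw, Fit n K C Fa Fb ν := by
  obtain ⟨μ, hμ⟩ : ∃ μ, μ = K.ρ * ν := ⟨_, rfl⟩
  have hT := K.hT
  have hWo := K.hWo
  have il1 := K.il1
  have hW2 := K.hW2
  have hη := K.hη
  have νμ : ν ≤ μ := hμ ▸ le_mul_of_one_le_left hν.le hρ.le
  have μ0 : 0 < μ := hν.trans_le νμ
  rw [← hμ] at hν1
  have B1 : 0 < B0 := (mul_pos_iff_of_pos_right hν).1 (by linarith)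
  have iμ : ∀ k : ℕ, 1 / μ ^ k ≤ B0 ^ k := fun k => by
    rw [div_le_iff₀ (by positivity), ← mul_pow]
    exact one_le_pow₀ (hB.trans (mul_le_mul_of_nonneg_left νμ B1.le))
  have μk : ∀ k : ℕ, μ ^ k ≤ 1 := fun k => pow_le_one₀ μ0.le hν1
  obtain ⟨ε, hε⟩ : ∃ ε, ε = K.ρ ^ 5 - 1 := ⟨_, rfl⟩
  rw [← hε] at H1 H2 H3 H4
  have ρ5 : 1 < K.ρ ^ 5 := one_lt_pow₀ hρ (by norm_num)
  have ε0 : 0 < ε := by linarith
  have ε1 : ε ≤ 1 := by linarith [K.hρ2]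
  obtain ⟨t, ht⟩ : ∃ t, t = K.T * μ ^ 5 := ⟨_, rfl⟩
  have t0 : 0 < t := by rw [ht]; positivity
  have t1 : t ≤ K.T := ht ▸ mul_le_of_le_one_right hT.le (μk 5)
  obtain ⟨z, hz⟩ : ∃ z, z = δ / (K.T * μ ^ 2) := ⟨_, rfl⟩
  have z0 : 0 < z := by rw [hz]; positivity
  have z1 : δ / K.T ≤ z := hz ▸ div_le_div_of_nonneg_left hδ.le (by positivity)
    (mul_le_of_le_one_right hT.le (μk 2))
  have z2 : z * K.T ≤ δ * B0 ^ 2 := by
    have : z * K.T = δ * (1 / μ ^ 2) := by rw [hz]; field_simp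
    rw [this]; exact mul_le_mul_of_nonneg_left (iμ 2) hδ.le
  obtain ⟨w, hw⟩ : ∃ w, w = 1 / (K.T * μ ^ 4) := ⟨_, rfl⟩
  have w0 : 0 < w := by rw [hw]; positivity
  have w1 : 1 / K.T ≤ w := hw ▸ div_le_div_of_nonneg_left zero_le_one (by positivity)
    (mul_le_of_le_one_right hT.le (μk 4))
  obtain ⟨L, hL⟩ : ∃ L, L = K.Lf μ := ⟨_, rfl⟩
  have L0 : 0 ≤ L := hL ▸ div_nonneg (mul_nonneg (by positivity) (by linarith)) (by positivity)
  have L1 : L ≤ Lm := by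
    have e : L = 64 * K.Wo * K.il / (δ * K.T) * ((2 - μ) / K.ρ ^ 5 * (1 / μ ^ 8)) := by
      rw [hL, GC.Lf]; field_simp
    have a1 : (2 - μ) / K.ρ ^ 5 ≤ 2 := by rw [div_le_iff₀ (by linarith)]; linarith
    have a2 := mul_le_mul_of_nonneg_left (mul_le_mul a1 (iμ 8) (by positivity) (by norm_num))
      (show 0 ≤ 64 * K.Wo * K.il / (δ * K.T) by positivity)
    rw [e, hLm]; exact a2.trans_eq (by ring)
  have Lt : L * t ≤ Lm * K.T := mul_le_mul L1 t1 t0.le (L0.trans L1)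
  obtain ⟨l2, hl2⟩ : ∃ l2, l2 = 16 * K.W2 / δ * (1 / μ ^ 3) / K.ρ ^ 5 := ⟨_, rfl⟩
  have l0 : 0 ≤ l2 := by rw [hl2]; positivity
  have l1 : l2 ≤ 16 * K.W2 / δ * (1 / μ ^ 3) := hl2 ▸ div_le_self (by positivity) ρ5.le
  have rate : ∀ F, 0 ≤ F → n * z ^ 2 + 16 * (8 * (L * t) ^ 2 * τ + 2 * l2 ^ 2 * F) / z ≤
      (η / 336 + 8192 * K.W2 ^ 2 * K.T ^ 2 * F / δ ^ 3) * w := fun F F0 => by
    have a1 : n * z ^ 2 = n * δ ^ 2 / K.T * w := by rw [hz, hw]; field_simp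
    have a2 : 128 * (L * t) ^ 2 / z * τ ≤ 128 * (Lm * K.T) ^ 2 / (δ / K.T) * τ :=
      mul_le_mul_of_nonneg_right (div_le_div₀ (by positivity) (mul_le_mul_of_nonneg_left
        (pow_le_pow_left₀ (by positivity) Lt 2) (by norm_num)) (by positivity) z1) hτ
    have a3 : 32 * l2 ^ 2 * F / z ≤ 32 * (16 * K.W2 / δ * (1 / μ ^ 3)) ^ 2 * F / z :=
      div_le_div_of_nonneg_right (mul_le_mul_of_nonneg_right (mul_le_mul_of_nonneg_left
        (pow_le_pow_left₀ l0 l1 2) (by norm_num)) F0) z0.le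
    have a4 : 32 * (16 * K.W2 / δ * (1 / μ ^ 3)) ^ 2 * F / z
        = 8192 * K.W2 ^ 2 * K.T ^ 2 * F / δ ^ 3 * w := by rw [hz, hw]; field_simp; ring
    have a5 := mul_le_mul_of_nonneg_right hn w0.le
    have a6 := mul_le_mul_of_nonneg_left w1 (show 0 ≤ η / 672 by positivity)
    have a7 : 16 * (8 * (L * t) ^ 2 * τ + 2 * l2 ^ 2 * F) / z
        = 128 * (L * t) ^ 2 / z * τ + 32 * l2 ^ 2 * F / z := by ring
    have a8 : η / 672 / K.T = η / 672 * (1 / K.T) := by ring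
    linarith only [a1, a2, a3, a4, a5, a6, a7, a8, T3]
  obtain ⟨u, u0, u1, u2⟩ := exists_pos ((small 0 1 (mul_pos ε0 hT)).and
    (small (am * (z / 32) * (1 + 5 * K.T * ε)) (L / 4 + 4 *
      (Real.exp (2 * δ * (6 * D)) * (8 * (L * t) ^ 2 * τ + 2 * l2 ^ 2 * Fm)) / z)
      (show 0 < K.e0 / 4 by positivity)))
  have ew : L * t * (z / 32) * t * K.ρ ^ 5 = 2 * K.Wo * K.il * (2 - μ) := by
    rw [hL, hz, ht, GC.Lf]; field_simp; ring
  refine ⟨⟨t, z, δ / (K.T * ν ^ 2) / 4, L, l2, ε, w, K.e0, K.e0 / 4, u, am, 5 * K.T * ε, t0, z0, L0,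
    l0, ε0.le, ε1, u0, by positivity, he0.le, w0.le, ?_, ?_, ?_, ?_, ?_,
    by linarith only [H1, z1], by linarith only [H2], ?_, by linarith only [T1, z1], ?_⟩, hμ ▸ ht, hμ ▸ hz, rfl, hμ ▸ hL, ?_, hε, hμ ▸ hw, rfl, ?_, ?_⟩
  · have : w = 1 / μ ^ 4 / K.T := by rw [hw]; field_simp
    rw [this, hBw]; exact div_le_div_of_nonneg_right (iμ 4) hT.le
  · have e : δ / (K.T * ν ^ 2) = z * K.ρ ^ 2 := by rw [hz, hμ]; field_simp
    have a1 : ε ≤ 4 * (K.ρ ^ 2 - 1) := by linarith only [K.hρ5, hε, hρ, sq_nonneg (K.ρ - 1)]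
    rw [e]; linarith only [mul_le_mul_of_nonneg_left a1 z0.le]
  · have e : z = δ * w * μ ^ 2 := by rw [hz, hw]; field_simp
    rw [e]; exact mul_le_of_le_one_right (by positivity) (μk 2)
  · linarith only [mul_le_mul_of_nonneg_left t1 ε0.le, u1]
  · have a1 := mul_le_mul_of_nonneg_right Lt (show 0 ≤ 2 * D + 1 by positivity)
    have a2 := mul_le_mul_of_nonneg_left (iμ 3) (show 0 ≤ 16 * K.W2 / δ by positivity)
    have a3 : 16 * K.W2 / δ * B0 ^ 3 = 16 * K.W2 * B0 ^ 3 / δ := by ring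
    linarith only [a1, a2, a3, ham, l1]
  · linarith only [mul_le_mul_of_nonneg_right L1 (show 0 ≤ 5 * K.T * ε by positivity), H3, z1]
  · have a1 : L * t * (z / 32) * t ≤ 4 * K.Wo * K.il := by
      have b1 := le_mul_of_one_le_right (show 0 ≤ L * t * (z / 32) * t by positivity) ρ5.le
      have b2 : 0 ≤ K.Wo * K.il * μ := by positivity
      linarith only [b1, b2, ew]
    have a2 := mul_le_mul_of_nonneg_right a1 (show 0 ≤ ε ^ 2 * (2 * D + 1) by positivity)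
    have a3 : ε * t * z ≤ δ * B0 ^ 2 := by
      have b1 := mul_le_mul_of_nonneg_right ((mul_le_of_le_one_left t0.le ε1).trans t1) z0.le
      linarith only [b1, z2]
    have a4 := mul_le_mul_of_nonneg_right a3
      (show 0 ≤ cc ^ 2 * Real.exp (2 * δ * (6 * D)) * τ by positivity)
    have a5 : u ^ 2 * (4 * (Real.exp (2 * δ * (6 * D)) *
        (8 * (L * t) ^ 2 * τ + 2 * l2 ^ 2 * Fm)) / z) = 4 * u ^ 2 * (Real.exp (2 * δ * (6 * D)) *
        (8 * (L * t) ^ 2 * τ + 2 * l2 ^ 2 * Fm)) / z := by ring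
    linarith only [a2, a4, a5, u2, H4, T2]
  · dsimp only
    rw [hl2, hz, ht]; field_simp
  · exact (rate Fa Fa0).trans (mul_le_mul_of_nonneg_right (by linarith only [hFa]) w0.le)
  · exact (rate Fb Fb0).trans (mul_le_mul_of_nonneg_right (by linarith only [hFb, hη]) w0.le)

end Crest.Agent.N228.A.GL

end
end

-- ▼ part N228/A/GL

/-! # Row 228, part A*: the generation lemma `GL` (helper89) -/

set_option autoImplicit false
set_option linter.dupNamespace false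
open Filter Set Topology

noncomputable section

namespace Crest.Agent.N228.A.GL

open Crest.Agent.N222.A

theorem rho_num {h : ℝ} (h0 : 0 ≤ h) (h1 : h ≤ 1 / 50) :
    (1 + h) ^ 5 - (1 + h) ≤ 5 * ((1 + h) - 1) := by
  have a2 : h ^ 2 ≤ h / 50 := by nlinarith
  have a3 : h ^ 3 ≤ h ^ 2 := pow_le_pow_of_le_one h0 (by linarith) (by norm_num)
  have a4 : h ^ 4 ≤ h ^ 2 := pow_le_pow_of_le_one h0 (by linarith) (by norm_num)
  have a5 : h ^ 5 ≤ h ^ 2 := pow_le_pow_of_le_one h0 (by linarith) (by norm_num)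
  linarith

theorem gam_far {Z : Type} {A : Alg Z} (T : Pt A) {d : Z → ℝ} (hd : A.Sm d) (r L : ℝ) {c : ℝ}
    (h : T.Γ d d ≤ c) : T.Γ (fun x => cut ((d x - r) / L)) (fun x => cut ((d x - r) / L)) ≤
      cc ^ 2 * c / L ^ 2 := by
  have s := Alg.div_const (Alg.sub_const hd r) L
  refine (gam_cut_le T s).trans ?_
  rw [T.chain_self (φ := fun t => (t - r) / L) hd s
    (((hasDerivAt_id _).sub_const r).div_const L), mul_div_assoc]
  refine mul_le_mul_of_nonneg_left ?_ (sq_nonneg _)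
  exact (mul_le_mul_of_nonneg_left h (sq_nonneg _)).trans_eq (by ring)

/-- the choice of the number of rounds -/
theorem exists_R (M : ℝ) {p : ℝ → Prop} (h : ∀ᶠ u in 𝓝 (0 : ℝ), p u) :
    ∃ R : ℕ, 0 < R ∧ p (M / R) :=
  (((eventually_gt_atTop 0).and ((tendsto_const_div_atTop_nhds_zero_nat M).eventually h))).exists

theorem exists_nu {M h : ℝ} {R : ℕ} (h0 : 0 < h) (h1 : h ≤ 1) (hR : h * R = M) :
    ∃ ν : ℕ → ℝ, (∀ r, 0 < ν r) ∧ (∀ r, (1 + h) * ν r = ν (r + 1)) ∧ (∀ r ≤ R + 1, ν r ≤ 1) ∧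
      (∀ r, 1 ≤ 2 * Real.exp M * ν r) ∧ ν 1 * M ≤ 1 ∧ ν (R + 1) = 1 := by
  have pR : 1 + M ≤ (1 + h) ^ R := by
    have := one_add_mul_le_pow (a := h) (by linarith) R
    linarith
  have pB : (1 + h) ^ (R + 1) ≤ 2 * Real.exp M := by
    have a1 : (1 + h) ^ R ≤ Real.exp M := by
      rw [← hR, mul_comm, Real.exp_nat_mul]
      exact pow_le_pow_left₀ (by linarith) (by rw [add_comm]; exact Real.add_one_le_exp h) R
    rw [pow_succ, mul_comm]
    exact mul_le_mul (by linarith) a1 (by positivity) (by norm_num)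
  have ρ1 : 1 ≤ 1 + h := by linarith
  generalize 1 + h = ρ at *
  have ρ0 : 0 < ρ := by linarith
  refine ⟨fun r => ρ ^ r / ρ ^ (R + 1), fun r => by positivity, fun r => ?_,
    fun r hr => (div_le_one (by positivity)).2 (pow_le_pow_right₀ ρ1 hr), fun r => ?_, ?_,
    div_self (by positivity)⟩
  · simp only [pow_succ' ρ r]; ring
  · rw [← mul_div_assoc, le_div_iff₀ (by positivity), one_mul]
    exact pB.trans (le_mul_of_one_le_right (by positivity) (one_le_pow₀ ρ1))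
  · rw [div_mul_eq_mul_div, div_le_one (by positivity), pow_one, pow_succ']
    exact mul_le_mul_of_nonneg_left (by linarith) ρ0.le

theorem start_num {T η δ K0 I ρ ν μ : ℝ} (hT : 0 < T) (hη : 0 < η) (hδ : 0 < δ) (hδ1 : δ ≤ 1)
    (hK : 0 ≤ K0) (hν : 0 < ν) (hρ : 0 < ρ) (hρ2 : ρ ^ 2 ≤ 2) (e : ρ * ν = μ) (μ1 : μ ≤ 1)
    (hM : μ * (32 * (K0 + 1) / η + 8 * T * (K0 + 1)) ≤ 1) (hI : I ≤ T * μ ^ 5 * (8 * (K0 + 1))) :
    I ≤ 1 ∧ δ / (T * ν ^ 2) / 4 * I ≤ η / 8 := by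
  have μ0 : 0 < μ := e ▸ mul_pos hρ hν
  have μ5 : ∀ k, 1 ≤ k → μ ^ k ≤ μ := fun k hk => by
    simpa using pow_le_pow_of_le_one μ0.le μ1 hk
  have b1 : 0 ≤ μ * (32 * (K0 + 1) / η) := by positivity
  have b2 : 0 ≤ μ * (8 * T * (K0 + 1)) := by positivity
  constructor
  · linarith [mul_le_mul_of_nonneg_right (μ5 5 (by norm_num))
      (show 0 ≤ 8 * T * (K0 + 1) by positivity)]
  · have a1 := mul_le_mul_of_nonneg_left hI (show 0 ≤ δ / (T * ν ^ 2) / 4 by positivity)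
    have a2 : δ / (T * ν ^ 2) / 4 * (T * μ ^ 5 * (8 * (K0 + 1)))
        = δ * ρ ^ 2 * μ ^ 3 * (2 * (K0 + 1)) := by
      rw [← e]; field_simp; norm_num
    have a3 : δ * ρ ^ 2 * μ ^ 3 ≤ 1 * 2 * μ :=
      mul_le_mul (mul_le_mul hδ1 hρ2 (by positivity) zero_le_one)
        (μ5 3 (by norm_num)) (by positivity) (by norm_num)
    have a4 := mul_le_mul_of_nonneg_right a3 (show 0 ≤ 2 * (K0 + 1) by positivity)
    have a5 : μ * (32 * (K0 + 1) / η) ≤ 1 := by linarith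
    rw [← mul_div_assoc, div_le_one hη] at a5
    linarith

theorem num_H4 {Wo il D M h ε η e0 R : ℝ} (hW : 0 ≤ Wo * il) (D0 : 0 ≤ D) (R0 : 0 < R)
    (ε0 : 0 ≤ ε) (ε6 : ε ≤ 6 * h) (hR : h * R = M) (he0 : e0 = η / (4 * R * (D + 1)))
    (r6 : 2304 * Wo * il * (2 * D + 1) * (D + 1) * M * h ≤ η) :
    4 * Wo * il * ε ^ 2 * (2 * D + 1) ≤ e0 / 4 := by
  have a1 := mul_le_mul_of_nonneg_left (pow_le_pow_left₀ ε0 ε6 2)
    (show 0 ≤ 4 * (Wo * il) * (2 * D + 1) by positivity)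
  have a2 : 4 * Wo * il * (2 * D + 1) * (6 * h) ^ 2 ≤ e0 / 4 := by
    rw [he0, div_div, le_div_iff₀ (by positivity)]
    rw [← hR] at r6
    linarith
  linarith

theorem num_n {c n δ η T : ℝ} (hc : 1 ≤ c) (hn : 1 ≤ n) (hT : 0 < T)
    (h : 10 ^ 7 * c * n * δ ^ 2 ≤ η * T) : n * δ ^ 2 / T ≤ η / 672 := by
  rw [div_le_div_iff₀ hT (by norm_num)]
  nlinarith [mul_nonneg (zero_le_one.trans hn) (sq_nonneg δ)]

theorem num_F {c W2 T γ η Lr δ : ℝ} (hc : 0 ≤ c) (hγ : 0 ≤ γ) (hL : 0 < Lr) (hδ : 0 < δ)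
    (h : 10 ^ 7 * c * W2 ^ 2 * T ^ 2 * γ ≤ η * Lr ^ 2 * δ ^ 3) :
    8192 * W2 ^ 2 * T ^ 2 * (c * γ / Lr ^ 2) / δ ^ 3 ≤ η / 672 := by
  have e : 8192 * W2 ^ 2 * T ^ 2 * (c * γ / Lr ^ 2) / δ ^ 3
      = 8192 * c * W2 ^ 2 * T ^ 2 * γ / (Lr ^ 2 * δ ^ 3) := by field_simp
  have : 0 ≤ c * W2 ^ 2 * T ^ 2 * γ := by positivity
  rw [e, div_le_div_iff₀ (by positivity) (by norm_num)]
  linarith

end Crest.Agent.N228.A.GL

namespace Crest.Agent.N228.A

open Crest.Agent.N222.A Crest.Agent.N228.A.GL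

/-- **GENERATION LEMMA** -/
theorem gl : GLStmt := by
  have c1' := one_le_cc
  have c2 : 1 ≤ cc ^ 2 := one_le_pow₀ c1'
  refine ⟨10 ^ 7 * cc ^ 2, by linarith,
    fun n T η δ W2 Lr γ r0 hn hT hη hδ hδc hW2 hLr hγ hnδ hγ' K0 c1 D hK hc1 => ?_⟩
  have D0 : (0 : ℝ) ≤ D := Nat.cast_nonneg D
  have hδ1 : δ ≤ 1 / 100 := by nlinarith only [hδc, c2, hδ]
  obtain ⟨M, hM⟩ : ∃ M, M = 32 * (K0 + 1) / η + 8 * T * (K0 + 1) := ⟨_, rfl⟩
  have M0 : 0 < M := by rw [hM]; positivity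
  obtain ⟨B0, hB0⟩ : ∃ B0, B0 = 2 * Real.exp M := ⟨_, rfl⟩
  obtain ⟨X, hX⟩ : ∃ X, X = Real.exp (2 * δ * (6 * D)) := ⟨_, rfl⟩
  have X0 : 0 < X := hX ▸ Real.exp_pos _
  refine ⟨2 * δ * (6 * D), (2 * δ) ^ 2 * (B0 ^ 4 / T * (n * X) * (6 * D)), by positivity,
    by positivity, fun Φ => ?_⟩
  obtain ⟨Fa, hFa⟩ : ∃ Fa, Fa = cc ^ 2 * γ / Lr ^ 2 := ⟨_, rfl⟩
  obtain ⟨Fb, hFb⟩ : ∃ Fb, Fb = cc ^ 2 * c1 / Lr ^ 2 := ⟨_, rfl⟩
  have Fa0 : 0 ≤ Fa := by rw [hFa]; positivity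
  have Fb0 : 0 ≤ Fb := by rw [hFb]; positivity
  obtain ⟨cm, hcm⟩ : ∃ cm, cm = η / 224 + 8192 * W2 ^ 2 * T ^ 2 * Fb / δ ^ 3 := ⟨_, rfl⟩
  have cm1 : η / 224 ≤ cm := hcm ▸ le_add_of_nonneg_right (by positivity)
  have cm0 : 0 < cm := by linarith
  obtain ⟨lam, hlam⟩ : ∃ lam, lam = min 1 (η / (112 * cm)) := ⟨_, rfl⟩
  have lam0 : 0 < lam := hlam ▸ lt_min one_pos (by positivity)
  have lam2 : 112 * cm * lam ≤ η := by
    rw [mul_comm, ← le_div_iff₀ (by positivity), hlam]; exact min_le_right _ _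
  obtain ⟨Wo, hWo⟩ : ∃ Wo, Wo = 4 * cm * X + 1600 * |Φ| := ⟨_, rfl⟩
  have Wo0 : 0 < Wo := by rw [hWo]; positivity
  obtain ⟨Lm, hLm⟩ : ∃ Lm, Lm = 128 * Wo * lam⁻¹ * B0 ^ 8 / (δ * T) := ⟨_, rfl⟩
  obtain ⟨am, ham⟩ : ∃ am, am = Lm * T * (2 * D + 1) + 16 * W2 * B0 ^ 3 / δ := ⟨_, rfl⟩
  have Lm0 : 0 ≤ Lm := by rw [hLm]; positivity
  have am0 : 0 ≤ am := by rw [ham, hB0]; positivity
  obtain ⟨R, R0, r1, r2, r3, r4, r5, r6⟩ := exists_R M
    ((small1 1 (show (0 : ℝ) < 1 / 50 by norm_num)).and ((small1 (6 * D) lam0).and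
    ((small1 (am ^ 2 * (5 * T) * 6) (show 0 < δ / T / 8 by positivity)).and
    ((small1 (am * (5 * T) * 6) (show (0 : ℝ) < 1 / 8 by norm_num)).and
    ((small1 (Lm * (5 * T) * 6) (show 0 < δ / T / 4 by positivity)).and
    (small1 (2304 * Wo * lam⁻¹ * (2 * D + 1) * (D + 1) * M) hη))))))
  have R1 : (0 : ℝ) < R := Nat.cast_pos.2 R0
  obtain ⟨h, hh⟩ : ∃ h, h = M / R := ⟨_, rfl⟩
  have h0 : 0 < h := by rw [hh]; positivity
  have hR : h * R = M := by rw [hh]; field_simp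
  rw [← hh] at r1 r2 r3 r4 r5 r6
  have ρ5 := rho_num h0.le (by linarith)
  have ε6 : (1 + h) ^ 5 - 1 ≤ 6 * h := by linarith
  have ε0 : 0 ≤ (1 + h) ^ 5 - 1 := sub_nonneg.2 (one_le_pow₀ (by linarith))
  obtain ⟨e0, he0⟩ : ∃ e0, e0 = η / (4 * R * (D + 1)) := ⟨_, rfl⟩
  have e00 : 0 < e0 := by rw [he0]; positivity
  have e01 : R * (e0 * D) ≤ η / 4 := by
    have : R * (e0 * (D + 1)) = η / 4 := by rw [he0]; field_simp
    linarith only [this, mul_pos R1 e00]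
  let K : GC η δ D := ⟨T, W2, Wo, lam, lam⁻¹, 1 + h, e0, cm, hT, hη, hδ1, hW2, Wo0, lam0,
    hlam ▸ min_le_left _ _, mul_inv_cancel₀ lam0.ne', by linarith, ρ5, by linarith, cm1, lam2,
    by rw [← hX, hWo]; linarith [abs_nonneg Φ],
    by linarith [mul_le_mul_of_nonneg_right ε6 D0]⟩
  obtain ⟨ρ, hρ⟩ : ∃ ρ, ρ = 1 + h := ⟨_, rfl⟩
  have eρ : K.ρ = ρ := hρ.symm
  have ρ1 : 1 < ρ := by linarith only [hρ, h0]
  have ρ0 : 0 < ρ := by linarith only [ρ1]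
  obtain ⟨ν, ν0, νs, ν1, νB, μM, νR⟩ := exists_nu h0 (by linarith only [r1]) hR
  rw [← hρ] at νs
  rw [← hB0] at νB
  obtain ⟨t0, ht0⟩ : ∃ t0, t0 = T * ν 1 ^ 5 := ⟨_, rfl⟩
  have t00 : 0 ≤ t0 := by have := ν0 1; rw [ht0]; positivity
  obtain ⟨τ, τ0, τ1, T1, T2, T3, T4⟩ := exists_pos
    ((small1 1 one_pos).and ((small1 (cw * X) (show 0 < δ / T / 32 by positivity)).and
    ((small1 (δ * B0 ^ 2 * cc ^ 2 * X) e00).and
    ((small1 (128 * (Lm * T) ^ 2 / (δ / T)) (show 0 < η / 672 / T by positivity)).and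
    (small1 (K.Lf (ν 0) * (t0 ^ 2 * 8)) (show 0 < η / 8 by positivity))))))
  refine ⟨τ, τ0, fun W G _ _ st χ d ϖ hD hs sϖ hϖ hL => ?_⟩
  have ϖ2 : ∀ x, ϖ x ^ 2 ≤ 1 := fun x => pow_le_one₀ (hϖ x).1 (hϖ x).2.1
  obtain ⟨P0, sP, hP, hP'⟩ := exists_P0 t00 (fun g => (hs g).1) (fun g x => ((hs g).2.2 x).1) sϖ ϖ2
  have hP2 := fun x (hx : x ∈ W.L) => hP' (W.pt st x) K0 τ hK (hL x hx).2.2.1 (by
    rw [W.pt_p]; exact fun h => ⟨((hL x hx).2.2.2.2 h).1, ((hL x hx).2.2.2.2 h).2.1⟩)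
  have hc : Ctx W δ D τ (Fa + Fb) st P0 (fun g x => cut ((d g x - r0) / Lr)) ϖ
      fun x => if ϖ x = 0 then Fb else Fa :=
    ⟨by linarith, hδ.le, τ0.le, Nat.cast_le.2 hD, sP, fun g x => (hP g x).1,
      fun g => Alg.cut (Alg.div_const (Alg.sub_const (hs g).2.1 r0) Lr),
      fun g x => ⟨cut_nonneg _, cut_le_one _⟩, sϖ, hϖ, fun x hx => ⟨(hL x hx).2.1,
        (hL x hx).2.2.1, by split_ifs <;> assumption, by split_ifs <;> linarith, fun g => by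
        split_ifs with h0
        · exact hFb ▸ gam_far _ (hs g).2.1 _ _ ((hL x hx).2.2.2.1 g)
        · exact hFa ▸ gam_far _ (hs g).2.1 _ _ (((hL x hx).2.2.2.2 h0).2.2 g).1⟩⟩
  obtain ⟨I1, I2⟩ := start_num (I := t0 * (8 * K0 + 8 * τ)) hT hη hδ (by linarith only [hδ1]) hK
    (ν0 0) ρ0 ((pow_le_pow_right₀ ρ1.le (by norm_num)).trans (eρ ▸ K.hρ2)) (νs 0) (ν1 1 (by omega))
    (hM ▸ μM) (ht0 ▸ mul_le_mul_of_nonneg_left (by linarith only [τ1]) (ht0 ▸ t00))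
  have key : ∀ r : ℕ, r ≤ R → ∃ st' P S vs J, OInv W K (B0 ^ 4 / T) st P0
      (fun g x => cut ((d g x - r0) / Lr)) ϖ (ν r) (r * (e0 * D)) st' P S vs J := by
    intro r
    induction r with
    | zero =>
      intro _
      obtain ⟨J, hJ⟩ := ostart (Bw := B0 ^ 4 / T) hc K hδ (ν0 0) (I := t0 * (8 * K0 + 8 * τ))
        (fun g x => by rw [eρ, νs]; exact ht0 ▸ (hP g x).2.1)
        (fun g x h => (hP g x).2.2 (Or.inl h)) (fun x hx => ⟨by
          have := (hP2 x hx).1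
          rw [W.pt_p, ht0] at this
          rw [eρ, νs]; exact this, (hP2 x hx).2.1, by
          have a1 : 0 ≤ K.Lf (ν 0) := by
            have := K.il1
            have := ν0 0
            exact div_nonneg (mul_nonneg (by positivity) (by linarith [ν1 0 (by omega)]))
              (by rw [eρ]; positivity)
          linarith only [mul_le_mul_of_nonneg_left (hP2 x hx).2.2 a1, T4], fun g => by
          by_cases h0 : ϖ x = 0
          · rw [(hP g x).2.2 (Or.inl h0), mul_zero]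
          · rcases ((hs g).2.2 x).1.eq_or_lt with h1 | h1
            · rw [(hP g x).2.2 (Or.inr h1.symm), mul_zero]
            · rw [cut_zero (div_nonpos_of_nonpos_of_nonneg (sub_nonpos.2
                ((((hL x hx).2.2.2.2 h0).2.2 g).2 h1)) hLr.le), zero_mul]⟩) I2
      exact ⟨_, _, _, _, J, by simpa using hJ⟩
    | succ r ih =>
      intro hr
      obtain ⟨st', P, S, vs, J, h'⟩ := ih (by omega)
      obtain ⟨C, hC⟩ := exists_fit (n := n) (τ := τ) (Fm := Fa + Fb) K (Fa := Fa) (Fb := Fb) hδ D0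
        τ0.le (eρ ▸ ρ1) e00 (ν0 r) (νB r) (by rw [eρ, νs]; exact ν1 _ (by omega)) rfl hLm ham
        ((mul_le_mul_of_nonneg_left ε6 (by positivity)).trans (by rw [← mul_assoc]; exact r3))
        ((mul_le_mul_of_nonneg_left ε6 (by positivity)).trans (by rw [← mul_assoc]; exact r4))
        ((mul_le_mul_of_nonneg_left ε6 (by positivity)).trans (by rw [← mul_assoc]; exact r5))
        (num_H4 (by positivity) D0 R1 ε0 ε6 hR he0 r6) (hX ▸ T1) (hX ▸ T2) T3 (num_n c2 hn hT hnδ)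
        Fa0 Fb0 (hFa ▸ num_F (sq_nonneg _) hγ hLr hδ hγ') hcm.ge
      have hk : (r + 1 : ℕ) * (e0 * D) ≤ η / 4 :=
        (mul_le_mul_of_nonneg_right (Nat.cast_le.2 hr) (by positivity)).trans e01
      have := oround hc K hδ hC (ν0 r) (by rw [eρ, νs, νs]; exact ν1 _ (by omega)) (fun _ => rfl)
        (fun x hx => (hL x hx).1) (by push_cast at hk; change _ + e0 * D ≤ _; linarith only [hk]) h'
      rw [eρ, νs] at this
      push_cast
      rw [add_mul, one_mul]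
      exact this
  obtain ⟨st', P, S, vs, J, h'⟩ := key R le_rfl
  have e1 : K.ρ * ν R = 1 := by rw [eρ, νs, νR]
  have hS : ∀ x, S x ≤ 6 * D := fun x => by simpa only [e1, mul_one] using h'.hS x
  have hb := h'.base
  refine ⟨st', P, fun x => 2 * δ * S x, hb.R, Alg.smul _ hb.smS, fun g => ⟨hb.smP g, fun x =>
    ⟨(hP g x).1.trans (hb.ge g x), by simpa only [e1, one_pow, mul_one] using h'.hP g x⟩⟩,
    fun x => ⟨mul_nonneg (by positivity) (hb.nnS x), mul_le_mul_of_nonneg_left (hS x)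
      (by positivity), fun hx => ⟨by simp only [(hb.out x hx).1, mul_zero], (hb.out x hx).2⟩⟩,
    fun x hx => ?_⟩
  have bud := W.trace st' x vs _ hb.vs_sm (Real.exp_pos _).le (hb.bd x hx)
  obtain ⟨r, q1, q2, q3⟩ := oend hc K hδ e1 e01 h' hx
  have r0' : 0 ≤ r := (sq_nonneg _).trans q1
  have w1 : 0 ≤ Wo * r := by positivity
  have m0 : 0 ≤ W2 * (far r0 Lr d P x / T) := mul_nonneg hW2 (div_nonneg (Finset.sum_nonneg
    fun g _ => mul_nonneg (cut_nonneg _) ((hP g x).1.trans (hb.ge g x))) hT.le)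
  change _ - _ + Wo * r / 2 + W2 * (far r0 Lr d P x / T) ≤ _ at q3
  refine ⟨hb.le x hx, ?_, ?_, by linarith only [q3, w1, hη], fun hr => ?_⟩
  · have f1 := (fi_scale (T' := W.pt st' x) ((hP2 x hx).2.1.mono I1) (by rw [W.pt_p, W.pt_p])
      (Real.exp_pos _).le fun g => hb.le x hx _ (sP g)).add (hb.fisP _) sP
      (fun g => Alg.sub (hb.smP g) (sP g)) (fun g => (hP g _).1) fun g => sub_nonneg.2 (hb.ge g _)
    simp only [add_sub_cancel] at f1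
    exact f1.mono (by linarith only [bud])
  · rw [gam_smul _ _ hb.smS]
    refine mul_le_mul_of_nonneg_left ((hb.fisS _).trans ?_) (sq_nonneg _)
    have a1 : Real.exp (2 * δ * S x) ≤ X :=
      hX ▸ Real.exp_le_exp.2 (mul_le_mul_of_nonneg_left (hS x) (by positivity))
    exact mul_le_mul (mul_le_mul_of_nonneg_left (bud.trans (mul_le_mul_of_nonneg_left a1
      (by linarith))) (by positivity)) (hS _) (hb.nnS _) (by positivity)
  · have a1 : 1 / 800 ≤ r := by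
      rcases hr with hr | hr
      · have : 3 / 2 * (10 ^ 7 * cc ^ 2) ≤ 2 * S x := by
          refine le_of_mul_le_mul_right ?_ hδ
          linarith only [hr]
        linarith only [this, q2, c2]
      · exact hr.trans q1
    have a2 := mul_le_mul_of_nonneg_left a1 Wo0.le
    have a3 : 0 ≤ 4 * cm * X := by positivity
    linarith only [le_abs_self Φ, (hL x hx).1, a2, a3, hWo, q3, m0, hη]

end Crest.Agent.N228.A

end
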